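import Vale.Agent.P033.Descent

/-!
The arithmetic exclusion criterion for circulant Hadamard orders 4u².
-/

namespace Vale.Agent.P033

open Finset

lemma one_add_mul_pow (P : ℕ) (m : ZMod (P * P)) (k : ℕ) :
    (1 + (P : ZMod (P * P)) * m) ^ k = 1 + (k : ZMod (P * P)) * ((P : ZMod (P * P)) * m) := by
  have hPP : (P : ZMod (P * P)) * P = 0 := by rw [← Nat.cast_mul, ZMod.natCast_self]
  induction k with
  | zero => simp
  | succ k ih => rw [pow_succ, ih, Nat.cast_succ]; linear_combination ((k : ZMod (P * P)) * m ^ 2) * hPP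

/-- A power of q congruent to 1 + P k modulo P², and to 1 modulo R. -/
lemma exists_pow_modEq {P q R : ℕ} (hP : P.Prime) (hq : Nat.Coprime q P) (hqR : Nat.Coprime q R)
    (hR : ¬P ∣ R.totient) (hw : q ^ (P - 1) % (P * P) ≠ 1) (hPR : Nat.Coprime (P * P) R) (k : ℕ) :
    ∃ e, 1 + P * (R * k) ≡ q ^ e [MOD P * P * R] := by
  have : Fact P.Prime := ⟨hP⟩
  have hPP : 1 < P * P := Nat.one_lt_mul_iff.2 ⟨hP.pos, hP.pos, Or.inl hP.one_lt⟩
  have h1 : q ^ (P - 1) ≡ 1 [MOD P] := by
    have := Nat.ModEq.pow_totient hq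
    rwa [Nat.totient_prime hP] at this
  have hge : 1 ≤ q ^ (P - 1) := by
    apply Nat.one_le_pow
    rcases Nat.eq_zero_or_pos q with h | h
    · exfalso; rw [h, Nat.coprime_zero_left] at hq; exact hP.ne_one hq
    · exact h
  obtain ⟨m, hm⟩ := (Nat.modEq_iff_dvd' hge).1 h1.symm
  have hq1 : q ^ (P - 1) = 1 + P * m := by omega
  have hmP : ¬P ∣ m := by
    intro h
    obtain ⟨c, rfl⟩ := h
    apply hw
    rw [hq1, ← mul_assoc, Nat.add_mul_mod_self_left, Nat.mod_eq_of_lt hPP]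
  have hL : ((R.totient : ZMod P)) * m ≠ 0 :=
    mul_ne_zero (by rwa [Ne, ZMod.natCast_eq_zero_iff]) (by rwa [Ne, ZMod.natCast_eq_zero_iff])
  set j : ℕ := (((R * k : ℕ) : ZMod P) / ((R.totient : ZMod P) * m)).val with hj
  refine ⟨(P - 1) * (R.totient * j), (Nat.modEq_and_modEq_iff_modEq_mul hPR).1 ⟨?_, ?_⟩⟩
  · rw [← ZMod.natCast_eq_natCast_iff, pow_mul, hq1]
    push_cast
    rw [one_add_mul_pow]
    have hP' : ((R.totient * j * m : ℕ) : ZMod P) = ((R * k : ℕ) : ZMod P) := by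
      rw [Nat.cast_mul, Nat.cast_mul R.totient, hj, ZMod.natCast_zmod_val,
        mul_comm (R.totient : ZMod P), mul_assoc, div_mul_cancel₀ _ hL]
    obtain h := (ZMod.natCast_eq_natCast_iff _ _ _).1 hP'
    have h2 := (ZMod.natCast_eq_natCast_iff _ _ (P * P)).2 (Nat.ModEq.mul_left' P h)
    push_cast at h2 ⊢
    linear_combination -h2
  · rw [mul_left_comm (P - 1) R.totient j, pow_mul]
    have h2 : q ^ R.totient ≡ 1 [MOD R] := Nat.ModEq.pow_totient hqR
    refine Nat.ModEq.trans ?_ ((h2.pow ((P - 1) * j)).trans (by rw [one_pow])).symm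
    rw [mul_left_comm P R k]
    exact Nat.ModEq.symm ((Nat.modEq_iff_dvd' (Nat.le_add_right 1 _)).2 (by
      rw [Nat.add_sub_cancel_left]; exact dvd_mul_right _ _))

lemma prime_not_dvd_totient {P M : ℕ} (hP : P.Prime) (hM : M ≠ 0) (hPM : ¬P ∣ M)
    (hle : ∀ r : ℕ, r.Prime → r ∣ M → r ≤ P) : ¬P ∣ M.totient := by
  intro h
  have h2 : P ∣ M * ∏ r ∈ M.primeFactors, (r - 1) := by
    rw [← Nat.totient_mul_prod_primeFactors]; exact dvd_mul_of_dvd_left h _
  rcases hP.dvd_mul.1 h2 with h3 | h3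
  · exact hPM h3
  · obtain ⟨r, hr, hd⟩ := hP.prime.exists_mem_finset_dvd h3
    obtain ⟨hrp, hrd, _⟩ := Nat.mem_primeFactors.1 hr
    have h4 := Nat.le_of_dvd (by have := hrp.two_le; omega) hd
    have := hle r hrp hrd
    have := hrp.two_le
    omega

/-- The exclusion criterion. -/
theorem not_order_of_criterion {u P y W A : ℕ} (hu : u ≠ 0) (hP : P.Prime) (hPu : P ∣ u)
    (hP2 : ¬P * P ∣ u) (hmax : ∀ q ∈ u.primeFactors, q ≤ P) (hy : 2 ≤ y) (hyP : y < P)
    (hbig : 4 * (4 * u ^ 2) < P * (4 * u ^ 2).totient)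
    (hlarge : ∀ q ∈ u.primeFactors, y < q → q ≠ P → q ^ (P - 1) % (P * P) ≠ 1)
    (hsmall : ∀ q ∈ u.primeFactors, q ≤ y → W * A < orderOf (q : ZMod P))
    (hA : Nat.gcd (P - 1) (4 * (u / P) ^ 2).totient ≤ A)
    (hW : ((∏ q ∈ u.primeFactors.filter (· ≤ y), q ^ u.factorization q) ^ 4) ^
        2 ^ (u.primeFactors.filter (· ≤ y)).card ≤ W) :
    ¬IsCirculantHadamardOrder (4 * u ^ 2) := by
  intro hord
  have : Fact P.Prime := ⟨hP⟩
  obtain ⟨w, hw⟩ := hPu
  have hwP : ¬P ∣ w := fun h => hP2 (hw ▸ Nat.mul_dvd_mul_left P h)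
  have hw0 : w ≠ 0 := right_ne_zero_of_mul (hw ▸ hu)
  rw [show u / P = w by rw [hw, Nat.mul_div_cancel_left _ hP.pos]] at hA
  set M := 4 * w ^ 2 with hM
  have hM0 : M ≠ 0 := by positivity
  have hP2' : P ≠ 2 := by omega
  have hPM : ¬P ∣ M := by
    intro h
    rcases hP.dvd_mul.1 h with h | h
    · have h2 : P ∣ 2 ^ 2 := h
      exact hP2' ((Nat.prime_dvd_prime_iff_eq hP Nat.prime_two).1 (hP.dvd_of_dvd_pow h2))
    · exact hwP (hP.dvd_of_dvd_pow h)
  set n := 4 * u ^ 2 with hn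
  have hnM : n = P * P * M := by rw [hn, hM, hw]; ring
  have hn0 : n ≠ 0 := by positivity
  have : NeZero n := ⟨hn0⟩
  have hPn : P * P ∣ n := Dvd.intro _ hnM.symm
  have hMle : ∀ r : ℕ, r.Prime → r ∣ M → r ≤ P := by
    intro r hr hd
    rcases hr.dvd_mul.1 hd with h | h
    · have : r ∣ 2 ^ 2 := h
      have := (Nat.prime_dvd_prime_iff_eq hr Nat.prime_two).1 (hr.dvd_of_dvd_pow this)
      omega
    · exact hmax r (Nat.mem_primeFactors.2 ⟨hr, hw ▸ dvd_mul_of_dvd_right (hr.dvd_of_dvd_pow h) P, hu⟩)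
  have hφ : ¬P ∣ M.totient := prime_not_dvd_totient hP hM0 hPM hMle
  have hPMc : Nat.Coprime (P * P) M :=
    Nat.Coprime.mul_left ((hP.coprime_iff_not_dvd).2 hPM) ((hP.coprime_iff_not_dvd).2 hPM)
  -- splitting at a prime q of u
  have hsplit : ∀ q ∈ u.primeFactors, q ≠ P → n = q ^ M.factorization q *
      (P * P * (M / q ^ M.factorization q)) ∧ Nat.Coprime q P ∧
      Nat.Coprime q (M / q ^ M.factorization q) ∧ M / q ^ M.factorization q ∣ M := by
    intro q hq hqP
    obtain ⟨hqp, hqu, _⟩ := Nat.mem_primeFactors.1 hq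
    refine ⟨?_, (Nat.coprime_primes hqp hP).2 hqP, Nat.coprime_ordCompl hqp hM0,
      Nat.ordCompl_dvd M q⟩
    conv_lhs => rw [hnM, ← Nat.ordProj_mul_ordCompl_eq_self M q]
    ring
  have : CharZero ℚ := inferInstance
  have : NeZero ((n : ℕ) : ℚ) := ⟨Nat.cast_ne_zero.2 hn0⟩
  have : IsCyclotomicExtension {n} ℚ (CyclotomicField n ℚ) := CyclotomicField.isCyclotomicExtension n ℚ
  set small := u.primeFactors.filter (· ≤ y) with hsm
  set s := ∏ q ∈ small, q ^ u.factorization q with hs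
  set t := ∏ q ∈ u.primeFactors.filter (fun q => ¬ q ≤ y), q ^ u.factorization q with ht
  have hts : u = t * s := by
    rw [ht, hs, hsm, mul_comm, Finset.prod_filter_mul_prod_filter_not]
    conv_lhs => rw [← Nat.prod_factorization_pow_eq_self hu,
      Nat.prod_factorization_eq_prod_primeFactors]
  have hmem : ∀ {f : Finset ℕ} {q : ℕ}, f ⊆ u.primeFactors → q.Prime →
      q ∣ ∏ r ∈ f, r ^ u.factorization r → q ∈ f := by
    intro f q hf hq hd
    obtain ⟨r, hr, hd⟩ := hq.prime.exists_mem_finset_dvd hd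
    rwa [(Nat.prime_dvd_prime_iff_eq hq (Nat.prime_of_mem_primeFactors (hf hr))).1
      (hq.dvd_of_dvd_pow hd)]
  have hsp : s.primeFactors ⊆ small := fun q hq =>
    hmem (Finset.filter_subset _ _) (Nat.prime_of_mem_primeFactors hq) (Nat.dvd_of_mem_primeFactors hq)
  have hfix : ∀ q : ℕ, q.Prime → q ∣ t → FixesPrimes n (CyclotomicField n ℚ) (sh n P hPn 1) q := by
    intro q hq hqt
    have hq' := Finset.mem_filter.1 (hmem (Finset.filter_subset _ _) hq hqt)
    have hval : ((sh n P hPn 1 : ZMod n)).val ≡ 1 + n / P [MOD n] := by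
      rw [← ZMod.natCast_eq_natCast_iff, ZMod.natCast_zmod_val]
      simp [sh, ZMod.val_one]
    have hdiv : n / P = P * M := by
      rw [hnM, mul_assoc, Nat.mul_div_cancel_left _ hP.pos]
    by_cases hqP : q = P
    · subst hqP
      refine fixesPrimes_of_modEq n (CyclotomicField n ℚ) hq (c := 2) (m := M) (e := 0)
        (by rw [hnM]; ring) _ ?_
      refine (hval.of_dvd (Dvd.intro_left _ hnM.symm)).trans ?_
      rw [pow_zero, hdiv]
      exact Nat.ModEq.symm ((Nat.modEq_iff_dvd' (Nat.le_add_right 1 _)).2 (by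
        rw [Nat.add_sub_cancel_left]; exact dvd_mul_left _ _))
    · obtain ⟨hns, hcp, hcR, hRM⟩ := hsplit q hq'.1 hqP
      set R := M / q ^ M.factorization q
      have hPR : Nat.Coprime (P * P) R := hPMc.coprime_dvd_right hRM
      obtain ⟨e, he⟩ := exists_pow_modEq hP hcp hcR
        (fun h => hφ (h.trans (Nat.totient_dvd_of_dvd hRM)))
        (hlarge q hq'.1 (by omega) hqP) hPR (q ^ M.factorization q)
      refine fixesPrimes_of_modEq n (CyclotomicField n ℚ) hq hns _ (e := e) ?_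
      refine (hval.of_dvd (Dvd.intro_left _ hns.symm)).trans ?_
      rw [hdiv]
      convert he using 2
      rw [mul_comm R, Nat.ordProj_mul_ordCompl_eq_self]
  have hT : ∀ q ∈ s.primeFactors, ∃ g : (ZMod n)ˣ, FixesPrimes n (CyclotomicField n ℚ) g q ∧
      W < orderOf (ZMod.castHom (dvd_n n P hPn) (ZMod P) (g : ZMod n)) := by
    intro q hq
    obtain ⟨hqu, hqy⟩ := Finset.mem_filter.1 (hsp hq)
    have hqp := Nat.prime_of_mem_primeFactors hqu
    have hqP : q ≠ P := by omega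
    obtain ⟨hns, hcp, hcR, hRM⟩ := hsplit q hqu hqP
    set c := M.factorization q
    set R := M / q ^ c
    have hc1 : Nat.Coprime (q ^ c) (P * P * R) :=
      Nat.Coprime.pow_left _ (Nat.Coprime.mul_right (Nat.Coprime.mul_right hcp hcp) hcR)
    obtain ⟨g0, hg1, hg2⟩ := Nat.chineseRemainder hc1 1 (q ^ R.totient)
    have hg0 : Nat.Coprime g0 n := by
      rw [hns]
      refine Nat.Coprime.mul_right ?_ ?_
      · exact (Nat.ModEq.gcd_eq hg1).trans (Nat.gcd_one_left _)
      · exact (Nat.ModEq.gcd_eq hg2).trans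
          (Nat.Coprime.pow_left _ (Nat.Coprime.mul_right (Nat.Coprime.mul_right hcp hcp) hcR))
    refine ⟨ZMod.unitOfCoprime g0 hg0, ?_, ?_⟩
    · refine fixesPrimes_of_modEq n (CyclotomicField n ℚ) hqp hns _ (e := R.totient) ?_
      rw [ZMod.coe_unitOfCoprime, ZMod.val_natCast]
      exact ((Nat.mod_modEq g0 n).of_dvd (Dvd.intro_left _ hns.symm)).trans hg2
    · rw [ZMod.coe_unitOfCoprime, map_natCast]
      have hgP : (g0 : ZMod P) = (q : ZMod P) ^ R.totient := by
        rw [← Nat.cast_pow, ZMod.natCast_eq_natCast_iff]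
        exact hg2.of_dvd (Dvd.intro _ (mul_assoc P P R).symm)
      rw [hgP]
      have hR0 : 0 < R.totient :=
        Nat.totient_pos.2 (Nat.pos_of_ne_zero fun h => hM0 (by rw [h] at hRM; exact zero_dvd_iff.1 hRM))
      have hq0 : (q : ZMod P) ≠ 0 := by
        rw [Ne, ZMod.natCast_eq_zero_iff, Nat.prime_dvd_prime_iff_eq hP hqp]; omega
      have hd := ZMod.orderOf_dvd_card_sub_one hq0
      rw [orderOf_pow' _ hR0.ne']
      set d := orderOf (q : ZMod P)
      set G := Nat.gcd d R.totient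
      have hGd : G ∣ Nat.gcd (P - 1) M.totient :=
        Nat.dvd_gcd ((Nat.gcd_dvd_left _ _).trans hd)
          ((Nat.gcd_dvd_right _ _).trans (Nat.totient_dvd_of_dvd hRM))
      have hG0 : 0 < G := Nat.gcd_pos_of_pos_right _ hR0
      have hGA : G ≤ A := le_trans (Nat.le_of_dvd (Nat.gcd_pos_of_pos_left _ (by
        have := hP.two_le; omega)) hGd) hA
      have h1 : d / G * G = d := Nat.div_mul_cancel (Nat.gcd_dvd_left _ _)
      have h2 := hsmall q hqu hqy
      by_contra h3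
      have : d ≤ W * A := by
        calc d = d / G * G := h1.symm
          _ ≤ W * A := Nat.mul_le_mul (Nat.le_of_not_lt h3) hGA
      omega
  have hW' : (s ^ 4) ^ 2 ^ s.primeFactors.card ≤ W := by
    refine le_trans ?_ hW
    rcases Nat.eq_zero_or_pos s with h | h
    · rw [hts, h, mul_zero] at hu; exact absurd rfl hu
    · exact Nat.pow_le_pow_right (pow_pos h 4) (Nat.pow_le_pow_right two_pos (Finset.card_le_card hsp))
  have := mul_totient_le_of_order n (CyclotomicField n ℚ) P hPn hn hts hP2' hfix hT hW' hord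
  omega

end Vale.Agent.P033
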