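import Mathlib

/-!
Basic tools on the ring of integers of the n-th cyclotomic field: automorphisms, the splitting
of an element into classes of exponents modulo a divisor P, and positivity.
-/

namespace Vale.Agent.P033

open NumberField Finset

variable (n : ℕ) [NeZero n] (K : Type) [Field K] [NumberField K] [IsCyclotomicExtension {n} ℚ K]

/-- The distinguished primitive root of unity in the ring of integers. -/
noncomputable def zI : 𝓞 K := (IsCyclotomicExtension.zeta_spec n ℚ K).toInteger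

lemma zI_prim : IsPrimitiveRoot (zI n K) n :=
  (IsCyclotomicExtension.zeta_spec n ℚ K).toInteger_isPrimitiveRoot

lemma adjoin_zI : Algebra.adjoin ℤ ({zI n K} : Set (𝓞 K)) = ⊤ :=
  IsCyclotomicExtension.Rat.adjoin_singleton_eq_top (IsCyclotomicExtension.zeta_spec n ℚ K)

lemma ringHom_ext_zI {R : Type*} [CommRing R] {f g : 𝓞 K →+* R}
    (h : f (zI n K) = g (zI n K)) : f = g := by
  have h2 : f.toIntAlgHom = g.toIntAlgHom := by
    refine AlgHom.ext_of_adjoin_eq_top (adjoin_zI n K) ?_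
    intro x hx
    rw [Set.mem_singleton_iff] at hx
    subst hx
    exact h
  exact RingHom.ext fun x => DFunLike.congr_fun h2 x

lemma exists_rep (z : 𝓞 K) : ∃ (d : ℕ) (c : ℕ → ℤ),
    z = ∑ m ∈ range d, (c m : 𝓞 K) * zI n K ^ m := by
  have hz : z ∈ Algebra.adjoin ℤ ({zI n K} : Set (𝓞 K)) := by rw [adjoin_zI]; trivial
  rw [Algebra.adjoin_singleton_eq_range_aeval] at hz
  obtain ⟨f, rfl⟩ := hz
  refine ⟨f.natDegree + 1, f.coeff, ?_⟩
  show (Polynomial.aeval (zI n K)) f = _
  rw [Polynomial.aeval_eq_sum_range]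
  refine Finset.sum_congr rfl fun m _ => ?_
  rw [zsmul_eq_mul]

/-- The automorphism sending the root of unity to its a-th power. -/
noncomputable def aut (a : (ZMod n)ˣ) : 𝓞 K →+* 𝓞 K :=
  MulSemiringAction.toRingHom Gal(K/ℚ) (𝓞 K) ((IsCyclotomicExtension.Rat.galEquivZMod n K).symm a)

lemma aut_mul (a b : (ZMod n)ˣ) (x : 𝓞 K) : aut n K (a * b) x = aut n K a (aut n K b x) := by
  simp [aut, map_mul, mul_smul]

lemma aut_one (x : 𝓞 K) : aut n K 1 x = x := by
  rw [aut, map_one]
  exact one_smul _ x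

lemma aut_comm (a b : (ZMod n)ˣ) (x : 𝓞 K) :
    aut n K a (aut n K b x) = aut n K b (aut n K a x) := by
  rw [← aut_mul, ← aut_mul, mul_comm]

lemma aut_inj (a : (ZMod n)ˣ) : Function.Injective (aut n K a) := by
  intro x y h
  have h2 := congrArg (aut n K a⁻¹) h
  rwa [← aut_mul, ← aut_mul, inv_mul_cancel, aut_one, aut_one] at h2

lemma aut_eq_zero {a : (ZMod n)ˣ} {x : 𝓞 K} : aut n K a x = 0 ↔ x = 0 := by
  constructor
  · intro h; exact aut_inj n K a (by rw [h, map_zero])
  · rintro rfl; exact map_zero _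

lemma zI_pow_eq {a b : ℕ} (h : (a : ZMod n) = b) : zI n K ^ a = zI n K ^ b := by
  rw [ZMod.natCast_eq_natCast_iff'] at h
  rw [← Nat.mod_add_div a n, ← Nat.mod_add_div b n, pow_add, pow_add, pow_mul, pow_mul,
    (zI_prim n K).pow_eq_one, one_pow, one_pow, h]

lemma aut_zI (a : (ZMod n)ˣ) : aut n K a (zI n K) = zI n K ^ (a : ZMod n).val := by
  have h := IsCyclotomicExtension.Rat.galEquivZMod_smul_of_pow_eq n K
    ((IsCyclotomicExtension.Rat.galEquivZMod n K).symm a) (zI_prim n K).pow_eq_one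
  rw [MulEquiv.apply_symm_apply] at h
  exact h

lemma aut_zI_pow (a : (ZMod n)ˣ) (m b : ℕ) (h : (b : ZMod n) = (a : ZMod n) * m) :
    aut n K a (zI n K ^ m) = zI n K ^ b := by
  rw [map_pow, aut_zI, ← pow_mul]
  apply zI_pow_eq
  rw [h, Nat.cast_mul, ZMod.natCast_zmod_val]

/-- Complex conjugation as an automorphism. -/
noncomputable def cj : 𝓞 K →+* 𝓞 K := aut n K (-1)

lemma cj_cj (x : 𝓞 K) : cj n K (cj n K x) = x := by
  simp [cj, ← aut_mul, aut_one]

lemma cj_zI_mul : cj n K (zI n K) * zI n K = 1 := by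
  rw [cj, aut_zI, ← pow_succ, ← pow_zero (zI n K)]
  apply zI_pow_eq
  rw [Nat.cast_add, ZMod.natCast_zmod_val]
  simp

/-- A fixed embedding of the ring of integers into the complex numbers. -/
noncomputable def emb : 𝓞 K →+* ℂ :=
  (Classical.arbitrary (K →+* ℂ)).comp (algebraMap (𝓞 K) K)

lemma emb_inj : Function.Injective (emb K) := by
  intro x y h
  exact RingOfIntegers.coe_injective ((Classical.arbitrary (K →+* ℂ)).injective h)

lemma norm_emb_zI : ‖emb K (zI n K)‖ = 1 := by
  apply Complex.norm_eq_one_of_pow_eq_one (n := n) _ (NeZero.ne n)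
  rw [← map_pow, (zI_prim n K).pow_eq_one, map_one]

lemma emb_cj (x : 𝓞 K) : emb K (cj n K x) = starRingEnd ℂ (emb K x) := by
  have : (emb K).comp (cj n K) = (starRingEnd ℂ).comp (emb K) := by
    apply ringHom_ext_zI n K
    simp only [RingHom.coe_comp, Function.comp_apply]
    have h1 : emb K (cj n K (zI n K)) * emb K (zI n K) = 1 := by
      rw [← map_mul, cj_zI_mul, map_one]
    rw [eq_inv_of_mul_eq_one_left h1, Complex.inv_eq_conj (norm_emb_zI n K)]
  exact RingHom.congr_fun this x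

lemma emb_mul_cj (x : 𝓞 K) : emb K (x * cj n K x) = ((Complex.normSq (emb K x) : ℝ) : ℂ) := by
  rw [map_mul, emb_cj, Complex.mul_conj]

lemma cj_mul_self_eq_zero {x : 𝓞 K} : x * cj n K x = 0 ↔ x = 0 := by
  constructor
  · intro h
    rcases mul_eq_zero.1 h with h | h
    · exact h
    · exact (aut_eq_zero n K).1 h
  · rintro rfl; simp

/-- A nonzero integer has product of squared absolute values of its conjugates at least one;
hence their sum is at least their number. -/
lemma card_units_le_sum_normSq {x : 𝓞 K} (hx : x ≠ 0) :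
    (Fintype.card (ZMod n)ˣ : ℝ) ≤ ∑ a : (ZMod n)ˣ, Complex.normSq (emb K (aut n K a x)) := by
  have : IsGalois ℚ K := IsCyclotomicExtension.isGalois {n} ℚ K
  set N : ℤ := Algebra.norm ℤ x with hN
  have hN0 : N ≠ 0 := (Algebra.norm_ne_zero_iff).2 hx
  have hprod : (∏ a : (ZMod n)ˣ, emb K (aut n K a x)) = (N : ℂ) := by
    have h1 : algebraMap ℚ K (Algebra.norm ℚ (x : K)) = ∏ σ : Gal(K/ℚ), σ (x : K) :=
      Algebra.norm_eq_prod_automorphisms ℚ (x : K)
    have h2 : (N : ℚ) = Algebra.norm ℚ (x : K) := Algebra.coe_norm_int x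
    have h3 : ((∏ a : (ZMod n)ˣ, aut n K a x : 𝓞 K) : K) = algebraMap ℚ K (N : ℚ) := by
      rw [h2, h1, RingOfIntegers.coe_eq_algebraMap, map_prod]
      exact Fintype.prod_equiv (IsCyclotomicExtension.Rat.galEquivZMod n K).symm.toEquiv _ _
        (fun a => rfl)
    have h4 : (∏ a : (ZMod n)ˣ, aut n K a x : 𝓞 K) = (N : 𝓞 K) := by
      apply RingOfIntegers.coe_injective
      show ((∏ a : (ZMod n)ˣ, aut n K a x : 𝓞 K) : K) = _
      rw [h3]; simp
    rw [← map_prod, h4, map_intCast]
  have hpos : ∀ a : (ZMod n)ˣ, 0 < Complex.normSq (emb K (aut n K a x)) := by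
    intro a
    rw [Complex.normSq_pos]
    intro h
    exact hx ((aut_eq_zero n K).1 (emb_inj K (by rw [h, map_zero])))
  have hP : 1 ≤ ∏ a : (ZMod n)ˣ, Complex.normSq (emb K (aut n K a x)) := by
    rw [← map_prod, hprod]
    have : (1 : ℤ) ≤ N * N := by
      have := mul_self_pos.2 hN0; omega
    have h : Complex.normSq (N : ℂ) = ((N * N : ℤ) : ℝ) := by
      rw [Complex.normSq_intCast]; push_cast; ring
    rw [h]; exact_mod_cast this
  have hl : 0 ≤ ∑ a : (ZMod n)ˣ, Real.log (Complex.normSq (emb K (aut n K a x))) := by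
    rw [← Real.log_prod (fun a _ => (hpos a).ne')]
    exact Real.log_nonneg hP
  have hle : ∑ a : (ZMod n)ˣ, Real.log (Complex.normSq (emb K (aut n K a x))) ≤
      ∑ a : (ZMod n)ˣ, (Complex.normSq (emb K (aut n K a x)) - 1) :=
    Finset.sum_le_sum fun a _ => Real.log_le_sub_one_of_pos (hpos a)
  rw [Finset.sum_sub_distrib] at hle
  simp at hle ⊢
  linarith

/-! ### Fixing primes -/

/-- The prime ideals containing the natural number q are fixed (elementwise as a set). -/
def FixesPrimes (a : (ZMod n)ˣ) (q : ℕ) : Prop :=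
  ∀ Q : Ideal (𝓞 K), Q.IsPrime → (q : 𝓞 K) ∈ Q → ∀ x, aut n K a x ∈ Q ↔ x ∈ Q

lemma fixesPrimes_of_modEq {q c m e : ℕ} (hq : q.Prime) (hn : n = q ^ c * m) (a : (ZMod n)ˣ)
    (ha : (a : ZMod n).val ≡ q ^ e [MOD m]) : FixesPrimes n K a q := by
  intro Q hQ hqQ
  have : Fact q.Prime := ⟨hq⟩
  have hch : CharP (𝓞 K ⧸ Q) q := by
    have h0 : (q : 𝓞 K ⧸ Q) = 0 := by
      rw [← map_natCast (Ideal.Quotient.mk Q), Ideal.Quotient.eq_zero_iff_mem]; exact hqQ
    exact (CharP.charP_iff_prime_eq_zero hq).2 h0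
  let π := Ideal.Quotient.mk Q
  set z := π (zI n K) with hz
  have hzn : z ^ n = 1 := by rw [hz, ← map_pow, (zI_prim n K).pow_eq_one, map_one]
  have hzm : z ^ m = 1 := by
    have : (z ^ m) ^ q ^ c = 1 := by rw [← pow_mul, mul_comm, ← hn, hzn]
    have h2 : (z ^ m - 1) ^ q ^ c = 0 := by rw [sub_pow_char_pow, this, one_pow, sub_self]
    exact sub_eq_zero.1 (eq_zero_of_pow_eq_zero h2)
  have hzeq : z ^ (a : ZMod n).val = z ^ q ^ e := by
    rw [← Nat.mod_add_div (a : ZMod n).val m, ← Nat.mod_add_div (q ^ e) m, pow_add, pow_add,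
      pow_mul, pow_mul, hzm, one_pow, one_pow, ha]
  have hEq : π.comp (aut n K a) = (iterateFrobenius (𝓞 K ⧸ Q) q e).comp π := by
    apply ringHom_ext_zI n K
    simp only [RingHom.coe_comp, Function.comp_apply, iterateFrobenius_def]
    rw [aut_zI, map_pow]
    exact hzeq
  intro x
  have h := RingHom.congr_fun hEq x
  simp only [RingHom.coe_comp, Function.comp_apply, iterateFrobenius_def] at h
  rw [← Ideal.Quotient.eq_zero_iff_mem, ← Ideal.Quotient.eq_zero_iff_mem]
  change π _ = 0 ↔ π x = 0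
  rw [h, pow_eq_zero_iff (pow_ne_zero _ hq.ne_zero)]

section Dedekind

open UniqueFactorizationMonoid

/-- If all primes above N₁ are fixed, then N₁ dividing x times conj x divides a x times conj x. -/
lemma dvd_aut_mul_cj (a : (ZMod n)ˣ) {x : 𝓞 K} {N₁ : ℕ}
    (hfix : ∀ q : ℕ, q.Prime → q ∣ N₁ → FixesPrimes n K a q)
    (h : (N₁ : 𝓞 K) ∣ x * cj n K x) : (N₁ : 𝓞 K) ∣ aut n K a x * cj n K x := by
  classical
  by_cases hx : x = 0
  · subst hx; simp
  by_cases hN : N₁ = 0
  · subst hN
    simp only [Nat.cast_zero, zero_dvd_iff, cj_mul_self_eq_zero] at h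
    exact absurd h hx
  have hspan : ∀ y : 𝓞 K, y ≠ 0 → Ideal.span {y} ≠ (0 : Ideal (𝓞 K)) := by
    intro y hy
    simpa [Ideal.zero_eq_bot, Ideal.span_singleton_eq_bot] using hy
  have hax : aut n K a x ≠ 0 := fun h => hx ((aut_eq_zero n K).1 h)
  have hcx : cj n K x ≠ 0 := fun h => hx ((aut_eq_zero n K).1 h)
  have hN' : (N₁ : 𝓞 K) ≠ 0 := Nat.cast_ne_zero.2 hN
  have hs := hspan _ hN'
  rw [← Ideal.span_singleton_le_span_singleton, ← Ideal.dvd_iff_le,
    ← Ideal.span_singleton_mul_span_singleton,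
    dvd_iff_normalizedFactors_le_normalizedFactors hs (mul_ne_zero (hspan _ hax) (hspan _ hcx)),
    normalizedFactors_mul (hspan _ hax) (hspan _ hcx), Multiset.le_iff_count]
  rw [← Ideal.span_singleton_le_span_singleton, ← Ideal.dvd_iff_le,
    ← Ideal.span_singleton_mul_span_singleton,
    dvd_iff_normalizedFactors_le_normalizedFactors hs (mul_ne_zero (hspan _ hx) (hspan _ hcx)),
    normalizedFactors_mul (hspan _ hx) (hspan _ hcx), Multiset.le_iff_count] at h
  intro Q
  by_cases hQ : Q ∈ normalizedFactors (Ideal.span {(N₁ : 𝓞 K)})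
  swap
  · rw [Multiset.count_eq_zero_of_notMem hQ]; exact Nat.zero_le _
  refine (h Q).trans ?_
  simp only [Multiset.count_add]
  have hQp : Prime Q := prime_of_normalized_factor Q hQ
  have hQP : Q.IsPrime := Ideal.isPrime_of_prime hQp
  have hNQ : (N₁ : 𝓞 K) ∈ Q :=
    Ideal.dvd_iff_le.1 (dvd_of_mem_normalizedFactors hQ) (Ideal.mem_span_singleton_self _)
  obtain ⟨q, hq, hqN, hqQ⟩ : ∃ q : ℕ, q.Prime ∧ q ∣ N₁ ∧ (q : 𝓞 K) ∈ Q := by
    have hl : ((N₁.primeFactorsList).map (fun i : ℕ => (i : 𝓞 K))).prod ∈ Q := by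
      rw [← Nat.cast_list_prod, Nat.prod_primeFactorsList hN]; exact hNQ
    rw [← Multiset.prod_coe, hQP.multiset_prod_mem_iff_exists_mem] at hl
    simp only [Multiset.mem_coe, List.mem_map] at hl
    obtain ⟨_, ⟨q, hq, rfl⟩, hqQ⟩ := hl
    exact ⟨q, Nat.prime_of_mem_primeFactorsList hq, Nat.dvd_of_mem_primeFactorsList hq, hqQ⟩
  have hfQ := hfix q hq hqN Q hQP hqQ
  have hmap : Q.map (aut n K a) = Q := by
    apply le_antisymm
    · rw [Ideal.map_le_iff_le_comap]
      intro y hy
      exact (hfQ y).2 hy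
    · intro y hy
      have : y = aut n K a (aut n K a⁻¹ y) := by rw [← aut_mul, mul_inv_cancel, aut_one]
      rw [this]
      refine Ideal.mem_map_of_mem _ ?_
      rw [← hfQ, ← this]; exact hy
  apply Nat.add_le_add_right
  set k := Multiset.count Q (normalizedFactors (Ideal.span {x}))
  have hk : Q ^ k ∣ Ideal.span {x} := by
    refine dvd_trans ?_ (prod_normalizedFactors (hspan _ hx)).dvd
    rw [← Multiset.prod_replicate]
    exact Multiset.prod_dvd_prod_of_le (Multiset.le_count_iff_replicate_le.1 le_rfl)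
  have hmem : aut n K a x ∈ Q ^ k := by
    have : x ∈ Q ^ k := Ideal.dvd_iff_le.1 hk (Ideal.mem_span_singleton_self _)
    have h2 := Ideal.mem_map_of_mem (aut n K a) this
    rwa [Ideal.map_pow, hmap] at h2
  have hdvd : Q ^ k ∣ Ideal.span {aut n K a x} := by
    rw [Ideal.dvd_iff_le, Ideal.span_singleton_le_iff_mem]; exact hmem
  rw [dvd_iff_normalizedFactors_le_normalizedFactors (pow_ne_zero _ hQp.ne_zero) (hspan _ hax),
    normalizedFactors_pow, normalizedFactors_irreducible hQp.irreducible] at hdvd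
  have := Multiset.count_le_of_le (normalize Q) hdvd
  simpa using this

end Dedekind

/-! ### Classes of exponents modulo P -/

variable (P : ℕ) [NeZero P] (hP : P * P ∣ n)

omit [NeZero n] [NeZero P] in
include hP in
lemma dvd_n : P ∣ n := dvd_trans (dvd_mul_left P P) hP

include hP in
lemma omega_prim : IsPrimitiveRoot (zI n K ^ (n / P)) P :=
  (zI_prim n K).pow (NeZero.pos n) (by rw [Nat.div_mul_cancel (dvd_n n P hP)])

/-- The additive character j ↦ ω^j. -/
noncomputable def chi : AddChar (ZMod P) (𝓞 K) :=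
  AddChar.zmodChar P (omega_prim n K P hP).pow_eq_one

lemma chi_apply (j : ZMod P) : chi n K P hP j = zI n K ^ (n / P * j.val) := by
  rw [chi, AddChar.zmodChar_apply, ← pow_mul]

lemma chi_natCast (j : ℕ) : chi n K P hP (j : ZMod P) = zI n K ^ (n / P * j) := by
  rw [chi, AddChar.zmodChar_apply', ← pow_mul]

lemma sum_chi (i : ZMod P) :
    ∑ j : ZMod P, chi n K P hP (j * i) = if i = 0 then (P : 𝓞 K) else 0 := by
  have h := AddChar.sum_mulShift i
    (AddChar.zmodChar_primitive_of_primitive_root P (omega_prim n K P hP))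
  simpa [chi] using h

include hP in
lemma base_mul_P : ((n / P : ℕ) : ZMod n) * (P : ZMod n) = 0 := by
  rw [← Nat.cast_mul, Nat.div_mul_cancel (dvd_n n P hP), ZMod.natCast_self]

omit [NeZero n] in
include hP in
lemma base_sq : ((n / P : ℕ) : ZMod n) * ((n / P : ℕ) : ZMod n) = 0 := by
  obtain ⟨r, hr⟩ := hP
  have h : n / P = P * r := by
    rw [hr, mul_assoc, Nat.mul_div_cancel_left _ (NeZero.pos P)]
  rw [h, ← Nat.cast_mul, ZMod.natCast_eq_zero_iff]
  exact ⟨r, by rw [hr]; ring⟩

include hP in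
lemma base_mul_val_add (j k : ZMod P) :
    ((n / P : ℕ) : ZMod n) * ((j + k).val : ZMod n) =
      ((n / P : ℕ) : ZMod n) * (j.val : ZMod n) + ((n / P : ℕ) : ZMod n) * (k.val : ZMod n) := by
  have h1 := base_mul_P n P hP
  have e : (j.val + k.val) % P + P * ((j.val + k.val) / P) = j.val + k.val := Nat.mod_add_div _ _
  rw [← mul_add, ← Nat.cast_add, ← e, ← ZMod.val_add, Nat.cast_add, Nat.cast_mul, mul_add,
    ← mul_assoc, h1, zero_mul, add_zero]

/-- The unit 1 + (n/P) j. -/
noncomputable def sh (j : ZMod P) : (ZMod n)ˣ where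
  val := 1 + ((n / P : ℕ) : ZMod n) * (j.val : ZMod n)
  inv := 1 - ((n / P : ℕ) : ZMod n) * (j.val : ZMod n)
  val_inv := by linear_combination (-(j.val : ZMod n) ^ 2) * base_sq n P hP
  inv_val := by linear_combination (-(j.val : ZMod n) ^ 2) * base_sq n P hP

lemma sh_add (j k : ZMod P) : sh n P hP (j + k) = sh n P hP j * sh n P hP k := by
  ext
  simp only [sh, Units.val_mul]
  linear_combination base_mul_val_add n P hP j k -
    ((j.val : ZMod n) * (k.val : ZMod n)) * base_sq n P hP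

lemma sh_zero : sh n P hP 0 = 1 := by ext; simp [sh]

/-- The automorphism moving the root of unity by ω^j. -/
noncomputable def sig (j : ZMod P) : 𝓞 K →+* 𝓞 K := aut n K (sh n P hP j)

lemma sig_add (j k : ZMod P) (x : 𝓞 K) :
    sig n K P hP (j + k) x = sig n K P hP j (sig n K P hP k x) := by
  rw [sig, sig, sig, sh_add, aut_mul]

lemma sig_zero (x : 𝓞 K) : sig n K P hP 0 x = x := by rw [sig, sh_zero, aut_one]

lemma sig_zI_pow (j : ZMod P) (m : ℕ) :
    sig n K P hP j (zI n K ^ m) = chi n K P hP (j * m) * zI n K ^ m := by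
  have hj : (j * (m : ZMod P)) = ((j.val * m : ℕ) : ZMod P) := by
    rw [Nat.cast_mul, ZMod.natCast_zmod_val]
  rw [hj, chi_natCast, ← pow_add]
  refine aut_zI_pow n K _ _ _ ?_
  simp only [sh, Nat.cast_add, Nat.cast_mul]
  ring

lemma aut_chi (a : (ZMod n)ˣ) (i : ZMod P) :
    aut n K a (chi n K P hP i) =
      chi n K P hP (ZMod.castHom (dvd_n n P hP) (ZMod P) (a : ZMod n) * i) := by
  have h : ZMod.castHom (dvd_n n P hP) (ZMod P) (a : ZMod n) * i
      = (((a : ZMod n).val * i.val : ℕ) : ZMod P) := by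
    rw [Nat.cast_mul, ZMod.natCast_zmod_val]
    simp [ZMod.natCast_val]
  rw [h, chi_natCast, chi_apply]
  refine aut_zI_pow n K _ _ _ ?_
  simp only [Nat.cast_mul, ZMod.natCast_zmod_val]
  ring

lemma cj_chi (i : ZMod P) : cj n K (chi n K P hP i) = chi n K P hP (-i) := by
  rw [cj, aut_chi, Units.val_neg, Units.val_one, map_neg, map_one, neg_one_mul]

/-- z is in class c. -/
def IsClass (c : ZMod P) (z : 𝓞 K) : Prop :=
  ∀ j, sig n K P hP j z = chi n K P hP (j * c) * z

lemma exists_classes (z : 𝓞 K) : ∃ f : ZMod P → 𝓞 K,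
    (∀ i, IsClass n K P hP i (f i)) ∧ ∑ i, f i = z := by
  obtain ⟨d, c, rfl⟩ := exists_rep n K z
  refine ⟨fun i => ∑ m ∈ range d with ((m : ℕ) : ZMod P) = i, (c m : 𝓞 K) * zI n K ^ m, ?_, ?_⟩
  · intro i j
    simp only [map_sum, Finset.mul_sum]
    refine Finset.sum_congr rfl fun m hm => ?_
    simp only [Finset.mem_filter] at hm
    rw [map_mul, map_intCast, sig_zI_pow, hm.2]
    ring
  · exact Finset.sum_fiberwise (range d) (fun m => ((m : ℕ) : ZMod P)) _

/-- The component of z in class i. -/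
noncomputable def comp (z : 𝓞 K) : ZMod P → 𝓞 K := (exists_classes n K P hP z).choose

lemma isClass_comp (z : 𝓞 K) (i : ZMod P) : IsClass n K P hP i (comp n K P hP z i) :=
  (exists_classes n K P hP z).choose_spec.1 i

lemma sum_comp (z : 𝓞 K) : ∑ i, comp n K P hP z i = z :=
  (exists_classes n K P hP z).choose_spec.2

lemma class_eq_average (f : ZMod P → 𝓞 K) (hf : ∀ i, IsClass n K P hP i (f i)) (i : ZMod P) :
    (P : 𝓞 K) * f i = ∑ j : ZMod P, chi n K P hP (-(j * i)) * sig n K P hP j (∑ k, f k) := by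
  have h : ∀ j k : ZMod P, chi n K P hP (-(j * i)) * sig n K P hP j (f k) =
      chi n K P hP (j * (k - i)) * f k := by
    intro j k
    rw [hf k j, ← mul_assoc, ← AddChar.map_add_eq_mul]
    congr 2; ring
  simp only [map_sum, Finset.mul_sum, h]
  rw [Finset.sum_comm]
  simp only [← Finset.sum_mul, sum_chi, sub_eq_zero]
  simp

lemma comp_unique (f : ZMod P → 𝓞 K) (hf : ∀ i, IsClass n K P hP i (f i)) (i : ZMod P) :
    comp n K P hP (∑ k, f k) i = f i := by
  have h1 := class_eq_average n K P hP f hf i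
  have h2 := class_eq_average n K P hP _ (isClass_comp n K P hP (∑ k, f k)) i
  rw [sum_comp] at h2
  exact mul_left_cancel₀ (Nat.cast_ne_zero.2 (NeZero.ne P)) (h2.trans h1.symm)

lemma comp_of_isClass {c : ZMod P} {z : 𝓞 K} (hz : IsClass n K P hP c z) (i : ZMod P) :
    comp n K P hP z i = if i = c then z else 0 := by
  have h := comp_unique n K P hP (fun i => if i = c then z else 0) ?_ i
  · simpa using h
  · intro i
    split_ifs with h
    · subst h; exact hz
    · intro j; simp

lemma isClass_mul {c d : ZMod P} {x y : 𝓞 K} (hx : IsClass n K P hP c x)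
    (hy : IsClass n K P hP d y) : IsClass n K P hP (c + d) (x * y) := by
  intro j
  rw [map_mul, hx j, hy j, mul_add, AddChar.map_add_eq_mul]
  ring

lemma isClass_natCast (N : ℕ) : IsClass n K P hP 0 (N : 𝓞 K) := by
  intro j; simp

lemma isClass_aut (a : (ZMod n)ˣ) {i : ZMod P} {x : 𝓞 K} (hx : IsClass n K P hP i x) :
    IsClass n K P hP (ZMod.castHom (dvd_n n P hP) (ZMod P) (a : ZMod n) * i) (aut n K a x) := by
  intro j
  rw [sig, aut_comm]
  have h := hx j
  rw [sig] at h
  rw [h, map_mul, aut_chi]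
  congr 2; ring

lemma isClass_cj {i : ZMod P} {x : 𝓞 K} (hx : IsClass n K P hP i x) :
    IsClass n K P hP (-i) (cj n K x) := by
  have h := isClass_aut n K P hP (-1) hx
  rw [Units.val_neg, Units.val_one, map_neg, map_one, neg_one_mul] at h
  exact h

/-- Orthogonality: the squared absolute values of the components add up. -/
lemma sum_comp_mul_cj {z : 𝓞 K} {N : ℕ} (hz : z * cj n K z = N) :
    ∑ i, comp n K P hP z i * cj n K (comp n K P hP z i) = N := by
  set f := comp n K P hP z with hf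
  have h : ∀ j, sig n K P hP j (z * cj n K z) = (N : 𝓞 K) := fun j => by rw [hz, map_natCast]
  have h2 : ∑ j : ZMod P, sig n K P hP j (z * cj n K z) = (P : 𝓞 K) * N := by
    simp only [h, Finset.sum_const, Finset.card_univ, ZMod.card, nsmul_eq_mul]
  have h3 : ∀ j i k, sig n K P hP j (f i * cj n K (f k)) =
      chi n K P hP (j * (i - k)) * (f i * cj n K (f k)) := by
    intro j i k
    have := isClass_mul n K P hP (isClass_comp n K P hP z i)
      (isClass_cj n K P hP (isClass_comp n K P hP z k)) j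
    rw [← hf] at this
    rw [this]; congr 2; ring
  rw [← sum_comp n K P hP z, ← hf] at h2
  simp only [map_sum, Finset.sum_mul, Finset.mul_sum, h3] at h2
  rw [Finset.sum_comm] at h2
  have h4 : ∀ k, ∑ j : ZMod P, ∑ i, chi n K P hP (j * (i - k)) * (f i * cj n K (f k)) =
      (P : 𝓞 K) * (f k * cj n K (f k)) := by
    intro k
    rw [Finset.sum_comm]
    simp only [← Finset.sum_mul, sum_chi, sub_eq_zero, ite_mul, zero_mul]
    simp
  simp only [h4, ← Finset.mul_sum] at h2
  exact mul_left_cancel₀ (Nat.cast_ne_zero.2 (NeZero.ne P)) h2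

/-- The set of classes in which z is nonzero. -/
noncomputable def supp (z : 𝓞 K) : Finset (ZMod P) :=
  by classical exact Finset.univ.filter fun i => comp n K P hP z i ≠ 0

lemma mem_supp {z : 𝓞 K} {i : ZMod P} :
    i ∈ supp n K P hP z ↔ comp n K P hP z i ≠ 0 := by
  classical
  simp [supp]

lemma card_supp_le {z : 𝓞 K} {N : ℕ} (hz : z * cj n K z = N) :
    (supp n K P hP z).card ≤ N := by
  classical
  have h := sum_comp_mul_cj n K P hP hz
  set f := comp n K P hP z with hf
  have ha : ∀ a : (ZMod n)ˣ, ∑ i, Complex.normSq (emb K (aut n K a (f i))) = (N : ℝ) := by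
    intro a
    have h1 : emb K (aut n K a (∑ i, f i * cj n K (f i))) = (N : ℂ) := by rw [h]; simp
    simp only [map_sum, map_mul, cj, aut_comm n K a (-1)] at h1
    have h2 : ∀ x, emb K x * emb K (aut n K (-1) x) = ((Complex.normSq (emb K x) : ℝ) : ℂ) := by
      intro x; rw [← map_mul]; exact emb_mul_cj n K x
    simp only [h2] at h1
    exact_mod_cast h1
  have hsum : ∑ i ∈ supp n K P hP z, (Fintype.card (ZMod n)ˣ : ℝ) ≤
      (Fintype.card (ZMod n)ˣ : ℝ) * N := by
    calc _ ≤ ∑ i ∈ supp n K P hP z, ∑ a : (ZMod n)ˣ,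
          Complex.normSq (emb K (aut n K a (f i))) :=
        Finset.sum_le_sum fun i hi => card_units_le_sum_normSq n K ((mem_supp n K P hP).1 hi)
      _ ≤ ∑ i, ∑ a : (ZMod n)ˣ, Complex.normSq (emb K (aut n K a (f i))) :=
        Finset.sum_le_sum_of_subset_of_nonneg (Finset.subset_univ _)
          (fun i _ _ => Finset.sum_nonneg fun a _ => Complex.normSq_nonneg _)
      _ = _ := by rw [Finset.sum_comm]; simp [ha]
  rw [Finset.sum_const, nsmul_eq_mul, mul_comm] at hsum
  have hc : (0 : ℝ) < Fintype.card (ZMod n)ˣ := by exact_mod_cast Fintype.card_pos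
  exact_mod_cast le_of_mul_le_mul_left hsum hc

end Vale.Agent.P033
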