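import Mathlib

/-!
Definition of the orders of real circulant Hadamard matrices.
-/

namespace Vale.Agent.P033

open Matrix

/-- There is a real circulant Hadamard matrix of order n: a sign vector h such that the matrix
with entries h((j - i) mod n) has H Hᵀ = n I. -/
def IsCirculantHadamardOrder (n : ℕ) : Prop :=
  ∃ h : Fin n → ℤ, (∀ j, h j = 1 ∨ h j = -1) ∧
    (Matrix.of fun i j => h (j - i)) * (Matrix.of fun i j => h (j - i))ᵀ =
      (n : ℤ) • (1 : Matrix (Fin n) (Fin n) ℤ)

lemma IsCirculantHadamardOrder.exists_zmod {n : ℕ} [NeZero n] (H : IsCirculantHadamardOrder n) :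
    ∃ g : ZMod n → ℤ, (∀ j, g j = 1 ∨ g j = -1) ∧
      ∀ t : ZMod n, ∑ k, g (k + t) * g k = if t = 0 then (n : ℤ) else 0 := by
  obtain ⟨h, hpm, hH⟩ := H
  set e := ZMod.finEquiv n
  refine ⟨fun k => h (e.symm k), fun j => hpm _, fun t => ?_⟩
  have h2 := congrFun (congrFun hH 0) (e.symm t)
  simp only [Matrix.mul_apply, Matrix.transpose_apply, Matrix.of_apply, sub_zero,
    Matrix.smul_apply, Matrix.one_apply, smul_eq_mul] at h2
  have h3 : ∑ k : ZMod n, h (e.symm (k + t)) * h (e.symm k) =
      ∑ j : Fin n, h j * h (j - e.symm t) := by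
    refine Fintype.sum_equiv ((Equiv.addRight t).trans e.symm.toEquiv) _ _ ?_
    intro k
    simp
  rw [h3, h2]
  by_cases ht : t = 0
  · subst ht; simp
  · have h0 : e.symm t ≠ 0 := by simpa using ht
    simp [ht, Ne.symm h0]

end Vale.Agent.P033
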