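import Vale.Agent.P033.Exceptions

/-!
The orders of circulant Hadamard matrices have density zero among the numbers 4u².
-/

namespace Vale.Agent.P033

open Finset Filter Topology

/-- The scale used to choose all parameters. -/
def scale (x : ℕ) : ℕ := Nat.log 2 (Nat.log 2 x) / 8

/-- The bound on the proportion of admissible u. -/
noncomputable def densityBound (k : ℕ) : ℝ :=
  2000000 * ((k : ℝ) + 1) ^ 2 / 2 ^ k + 16 * (8 + Real.log (k + 1)) / k

lemma big_pow_aux (k : ℕ) (hk : 10 ≤ k) : 200000 * (k + 1) ^ 2 ≤ 2 ^ (3 * k) := by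
  induction k, hk using Nat.le_induction with
  | base => norm_num
  | succ k hk ih =>
    rw [show 3 * (k + 1) = 3 * k + 3 by ring, pow_add]
    nlinarith

lemma log_two_le_one : Real.log 2 ≤ 1 := by
  have := Real.log_two_lt_d9; linarith

lemma term1 {k L : ℕ} (hL : 2 ^ (8 * k) ≤ L) :
    4 * ((5 * 2 ^ (3 * k) : ℕ) : ℝ) * (16 * (1 + Real.log ((5 * 2 ^ (3 * k) : ℕ) : ℝ))) / L ≤
      2000 * ((k : ℝ) + 1) / 2 ^ k := by
  have hL' : (2 : ℝ) ^ (8 * k) ≤ (L : ℝ) := by exact_mod_cast hL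
  have hl : Real.log ((5 * 2 ^ (3 * k) : ℕ) : ℝ) ≤ 5 * ((k : ℝ) + 1) := by
    push_cast
    rw [Real.log_mul (by norm_num) (by positivity), Real.log_pow]
    have h5 : Real.log 5 ≤ 4 := by
      have := Real.log_le_sub_one_of_pos (show (0 : ℝ) < 5 by norm_num); linarith
    push_cast
    have : (3 * (k : ℝ)) * Real.log 2 ≤ 3 * (k : ℝ) := mul_le_of_le_one_right (by positivity) log_two_le_one
    have hk0 : (0 : ℝ) ≤ k := k.cast_nonneg
    linarith
  have hl0 : 0 ≤ Real.log ((5 * 2 ^ (3 * k) : ℕ) : ℝ) := Real.log_natCast_nonneg _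
  push_cast at hl hl0 ⊢
  calc 4 * (5 * (2 : ℝ) ^ (3 * k)) * (16 * (1 + Real.log (5 * 2 ^ (3 * k)))) / L
      ≤ 320 * 2 ^ (3 * k) * (6 * ((k : ℝ) + 1)) / 2 ^ (8 * k) := by
        refine div_le_div₀ (by positivity) ?_ (by positivity) hL'
        calc 4 * (5 * (2 : ℝ) ^ (3 * k)) * (16 * (1 + Real.log (5 * 2 ^ (3 * k))))
            = 320 * 2 ^ (3 * k) * (1 + Real.log (5 * 2 ^ (3 * k))) := by ring
          _ ≤ _ := mul_le_mul_of_nonneg_left (by linarith) (by positivity)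
    _ ≤ _ := by
        rw [div_le_div_iff₀ (by positivity) (by positivity)]
        have e : (2 : ℝ) ^ (3 * k) * 2 ^ k ≤ 2 ^ (8 * k) := by
          rw [← pow_add]; exact pow_le_pow_right₀ one_le_two (by omega)
        calc 320 * (2 : ℝ) ^ (3 * k) * (6 * ((k : ℝ) + 1)) * 2 ^ k
            = 1920 * ((k : ℝ) + 1) * (2 ^ (3 * k) * 2 ^ k) := by ring
          _ ≤ 2000 * ((k : ℝ) + 1) * 2 ^ (8 * k) :=
              mul_le_mul (by linarith) e (by positivity) (by positivity)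

lemma term3 {k L : ℕ} {l : ℝ} (hL : (L : ℝ) + 2 ≤ 2 ^ (8 * k + 9)) (hl0 : 0 ≤ l)
    (hl : 2 + l ≤ 2 ^ (8 * k + 9)) :
    (1 + l) * (20 * ((L : ℝ) + 2) ^ 2 / 2 ^ (128 * (k + 1) / 4)) ≤ 20 / 2 ^ k := by
  rw [show 128 * (k + 1) / 4 = 32 * (k + 1) by omega]
  calc _ ≤ (2 : ℝ) ^ (8 * k + 9) * (20 * (2 ^ (8 * k + 9)) ^ 2 / 2 ^ (32 * (k + 1))) :=
        mul_le_mul (by linarith) (by gcongr) (by positivity) (by positivity)
    _ ≤ _ := by
        rw [← mul_div_assoc, div_le_div_iff₀ (by positivity) (by positivity)]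
        have e2 : (2 : ℝ) ^ (8 * k + 9) * (2 ^ (8 * k + 9)) ^ 2 * 2 ^ k ≤ 2 ^ (32 * (k + 1)) := by
          rw [← pow_mul, ← pow_add, ← pow_add]; exact pow_le_pow_right₀ one_le_two (by omega)
        calc (2 : ℝ) ^ (8 * k + 9) * (20 * (2 ^ (8 * k + 9)) ^ 2) * 2 ^ k
            = 20 * ((2 : ℝ) ^ (8 * k + 9) * (2 ^ (8 * k + 9)) ^ 2 * 2 ^ k) := by ring
          _ ≤ _ := mul_le_mul_of_nonneg_left e2 (by norm_num)

lemma term4 (k : ℕ) :
    2 * ((128 * (k + 1) : ℕ) : ℝ) * (16 * (1 + Real.log ((128 * (k + 1) : ℕ) : ℝ))) /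
      ((2 ^ k : ℕ) : ℝ) ≤ 1000000 * ((k : ℝ) + 1) ^ 2 / 2 ^ k := by
  push_cast
  refine div_le_div_of_nonneg_right ?_ (by positivity)
  have h1 := Real.log_le_sub_one_of_pos (show (0 : ℝ) < 128 * ((k : ℝ) + 1) by positivity)
  calc 2 * (128 * ((k : ℝ) + 1)) * (16 * (1 + Real.log (128 * ((k : ℝ) + 1))))
      ≤ 2 * (128 * ((k : ℝ) + 1)) * (16 * (128 * ((k : ℝ) + 1))) :=
        mul_le_mul_of_nonneg_left (by linarith) (by positivity)
    _ ≤ _ := by nlinarith

lemma term5 (k : ℕ) : 16 * (1 + Real.log ((128 * (k + 1) : ℕ) : ℝ)) / (k : ℝ) ≤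
    16 * (8 + Real.log ((k : ℝ) + 1)) / k := by
  push_cast
  refine div_le_div_of_nonneg_right ?_ (by positivity)
  rw [Real.log_mul (by norm_num) (by positivity), show (128 : ℝ) = 2 ^ 7 by norm_num, Real.log_pow]
  have := log_two_le_one
  push_cast
  linarith

lemma term7 {k : ℕ} {l : ℝ} (hk : 10 ≤ k) (hl0 : 0 ≤ l) (hl : 2 + l ≤ 2 ^ (8 * k + 9)) :
    (1 + l) * ((((2 : ℝ) ^ (2 ^ (3 * k))) ^ ((1 : ℝ) / ((24 * (k + 1) : ℕ) : ℝ)))⁻¹ *
      Real.exp (128 * (1 + Real.log ((24 * (k + 1) : ℕ) : ℝ)))) ≤ 1 / 2 ^ k := by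
  push_cast
  set B : ℝ := 128 * (1 + Real.log (24 * ((k : ℝ) + 1))) with hB
  have hlog2 : (1 : ℝ) / 2 ≤ Real.log 2 := by have := Real.log_two_gt_d9; linarith
  have hlog2' := log_two_le_one
  have hAk : 200000 * ((k : ℝ) + 1) ^ 2 ≤ (2 : ℝ) ^ (3 * k) := by
    have : ((200000 * (k + 1) ^ 2 : ℕ) : ℝ) ≤ ((2 ^ (3 * k) : ℕ) : ℝ) := by
      exact_mod_cast big_pow_aux k hk
    push_cast at this; exact this
  set C : ℝ := (2 : ℝ) ^ (3 * k) * Real.log 2 / (24 * ((k : ℝ) + 1)) with hC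
  have e1 : (((2 : ℝ) ^ (2 ^ (3 * k))) ^ ((1 : ℝ) / (24 * ((k : ℝ) + 1))))⁻¹ = Real.exp (-C) := by
    rw [Real.rpow_def_of_pos (by positivity), Real.log_pow, ← Real.exp_neg]
    congr 1
    push_cast [hC]
    ring
  have e2 : (2 : ℝ) ^ (8 * k + 9) * 2 ^ k = Real.exp (((8 * k + 9 + k : ℕ) : ℝ) * Real.log 2) := by
    rw [← pow_add, ← Real.rpow_natCast, Real.rpow_def_of_pos two_pos, mul_comm]
  rw [e1, ← Real.exp_add, le_div_iff₀ (by positivity)]
  calc (1 + l) * Real.exp (-C + B) * 2 ^ k ≤ (2 : ℝ) ^ (8 * k + 9) * Real.exp (-C + B) * 2 ^ k := by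
        refine mul_le_mul_of_nonneg_right (mul_le_mul_of_nonneg_right ?_ (Real.exp_pos _).le) (by positivity)
        linarith
    _ = Real.exp (((8 * k + 9 + k : ℕ) : ℝ) * Real.log 2 + (-C + B)) := by
        rw [Real.exp_add (((8 * k + 9 + k : ℕ) : ℝ) * Real.log 2), ← e2]; ring
    _ ≤ 1 := by
        rw [Real.exp_le_one_iff]
        have hk0 : (0 : ℝ) ≤ k := k.cast_nonneg
        have h1 := Real.log_le_sub_one_of_pos (show (0 : ℝ) < 24 * ((k : ℝ) + 1) by positivity)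
        have h2 : ((8 * k + 9 + k : ℕ) : ℝ) * Real.log 2 ≤ ((8 * k + 9 + k : ℕ) : ℝ) :=
          mul_le_of_le_one_right (by positivity) hlog2'
        have h3 : 4000 * ((k : ℝ) + 1) ≤ C := by
          rw [hC, le_div_iff₀ (by positivity)]
          calc 4000 * ((k : ℝ) + 1) * (24 * ((k : ℝ) + 1)) = 200000 * ((k : ℝ) + 1) ^ 2 * (96 / 200) := by
                ring
            _ ≤ (2 : ℝ) ^ (3 * k) * Real.log 2 :=
                mul_le_mul hAk (by linarith) (by norm_num) (by positivity)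
        push_cast at h2 ⊢
        linarith

lemma term8 {k : ℕ} {l : ℝ} (hl0 : 0 ≤ l) (hl : 2 + l ≤ 2 ^ (8 * k + 9)) :
    (2 + l) ^ 2 / ((2 ^ (24 * (k + 1)) : ℕ) : ℝ) ≤ 1 / 2 ^ k := by
  push_cast
  rw [div_le_div_iff₀ (by positivity) (by positivity), one_mul]
  calc (2 + l) ^ 2 * 2 ^ k ≤ ((2 : ℝ) ^ (8 * k + 9)) ^ 2 * 2 ^ k := by gcongr
    _ ≤ _ := by rw [← pow_mul, ← pow_add]; exact pow_le_pow_right₀ one_le_two (by omega)

lemma sum_terms_le {k : ℕ} {a1 a2 a3 a4 a5 a6 a7 a8 a0 : ℝ} (h0 : a0 ≤ 1 / 2 ^ k)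
    (h1 : a1 ≤ 2000 * ((k : ℝ) + 1) / 2 ^ k) (h2 : a2 ≤ 1 / 2 ^ k) (h3 : a3 ≤ 20 / 2 ^ k)
    (h4 : a4 ≤ 1000000 * ((k : ℝ) + 1) ^ 2 / 2 ^ k)
    (h5 : a5 ≤ 16 * (8 + Real.log ((k : ℝ) + 1)) / k) (h6 : a6 ≤ 1 / 2 ^ k) (h7 : a7 ≤ 1 / 2 ^ k)
    (h8 : a8 ≤ 1 / 2 ^ k) :
    a0 + (a1 + a2 + a3 + a4 + a5 + a6 + a7 + a8) ≤ densityBound k := by
  rw [densityBound]
  have hk0 : (0 : ℝ) ≤ k := k.cast_nonneg
  have h : (1 + 2000 * ((k : ℝ) + 1) + 1 + 20 + 1000000 * ((k : ℝ) + 1) ^ 2 + 1 + 1 + 1) / 2 ^ k ≤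
      2000000 * ((k : ℝ) + 1) ^ 2 / 2 ^ k :=
    div_le_div_of_nonneg_right (by nlinarith) (by positivity)
  simp only [add_div] at h
  linarith

lemma card_orderRoots_le_scale {x : ℕ} (hk : 10 ≤ scale x) :
    ((orderRoots x).card : ℝ) ≤ x * densityBound (scale x) := by
  set k := scale x with hkdef
  set L := Nat.log 2 x with hLdef
  have h8 : 8 * k ≤ Nat.log 2 L := by
    rw [hkdef, scale, mul_comm]; exact Nat.div_mul_le_self _ _
  have hL0 : L ≠ 0 := by intro h; rw [h] at h8; simp at h8; omega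
  have hLlow : 2 ^ (8 * k) ≤ L := Nat.pow_le_of_le_log hL0 h8
  have hLup : L < 2 ^ (8 * k + 8) := by
    refine lt_of_lt_of_le (Nat.lt_pow_succ_log_self one_lt_two L) (Nat.pow_le_pow_right two_pos ?_)
    rw [hkdef, scale, ← hLdef]; omega
  have hx0 : x ≠ 0 := by intro h; rw [hLdef, h] at hL0; simp at hL0
  have hxL : 2 ^ L ≤ x := Nat.pow_log_le_self 2 hx0
  have hxL' : x < 2 ^ (L + 1) := Nat.lt_pow_succ_log_self one_lt_two x
  have haux := big_pow_aux k hk
  have hsq : k + 1 ≤ (k + 1) ^ 2 := Nat.le_self_pow two_ne_zero _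
  have hW : 1000 * (k + 1) ≤ 2 ^ (3 * k) := by omega
  have hfour : 4 ≤ 2 ^ (8 * k + 8) :=
    le_trans (by norm_num) (Nat.pow_le_pow_right two_pos (show 2 ≤ 8 * k + 8 by omega))
  have hLY : 4 * (2 * L + 8) < 2 ^ (5 * 2 ^ (3 * k)) := by
    calc 4 * (2 * L + 8) ≤ 2 ^ (8 * k + 8 + 4) := by rw [pow_add]; omega
      _ < _ := (Nat.pow_lt_pow_iff_right (le_refl 2)).2 (by omega)
  have hWZ : 4 * 2 ^ k * 2 ^ k ≤ 2 ^ (3 * k) := by
    rw [show 4 = 2 ^ 2 by norm_num, ← pow_add, ← pow_add]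
    exact Nat.pow_le_pow_right two_pos (by omega)
  have h := card_orderRoots_le (x := x) (L := L) (m := 128 * (k + 1)) (v := 24 * (k + 1))
    (eW := 2 ^ (3 * k)) (eZ := 2 ^ k) (r0 := k) (by omega) hxL hxL' (by omega) (by omega) (by omega)
    hLY (by omega) Nat.one_le_two_pow (by omega) hWZ
  have hx' : (1 : ℝ) ≤ x := by exact_mod_cast Nat.one_le_iff_ne_zero.2 hx0
  have hL3 : L + 3 ≤ 2 ^ (8 * k + 9) := by
    rw [show 8 * k + 9 = 8 * k + 8 + 1 by ring, pow_succ]; omega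
  have hL3' : (L : ℝ) + 3 ≤ 2 ^ (8 * k + 9) := by
    have h5 : ((L + 3 : ℕ) : ℝ) ≤ ((2 ^ (8 * k + 9) : ℕ) : ℝ) := by exact_mod_cast hL3
    push_cast at h5; exact h5
  have hlog0 : 0 ≤ Real.log x := Real.log_natCast_nonneg x
  have hlogx : (2 : ℝ) + Real.log x ≤ 2 ^ (8 * k + 9) := by
    have h1 : Real.log x ≤ (L + 1 : ℕ) * Real.log 2 := by
      rw [← Real.log_pow]
      exact Real.log_le_log (by linarith) (by exact_mod_cast hxL'.le)
    have h3 : ((L + 1 : ℕ) : ℝ) * Real.log 2 ≤ ((L + 1 : ℕ) : ℝ) :=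
      mul_le_of_le_one_right (by positivity) log_two_le_one
    push_cast at h1 h3
    linarith
  have t0 : Real.sqrt x ≤ x * (1 / 2 ^ k) := by
    have h2 : ((2 : ℝ) ^ k) ≤ Real.sqrt x := by
      rw [Real.le_sqrt (by positivity) (by positivity), ← pow_mul]
      have : 2 ^ (k * 2) ≤ x := by
        refine le_trans (Nat.pow_le_pow_right two_pos ?_) hxL
        refine le_trans ?_ hLlow
        calc k * 2 ≤ 8 * k := by omega
          _ ≤ _ := Nat.lt_two_pow_self.le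
      exact_mod_cast this
    rw [mul_one_div, le_div_iff₀ (by positivity)]
    calc Real.sqrt x * 2 ^ k ≤ Real.sqrt x * Real.sqrt x :=
          mul_le_mul_of_nonneg_left h2 (Real.sqrt_nonneg _)
      _ = x := Real.mul_self_sqrt (by positivity)
  have t2 : (((2 ^ (5 * 2 ^ (3 * k)) : ℕ)) : ℝ)⁻¹ ≤ 1 / 2 ^ k := by
    push_cast
    rw [one_div]
    exact inv_anti₀ (by positivity) (pow_le_pow_right₀ one_le_two (by omega))
  have t6 : ((2 : ℝ) ^ (128 * (k + 1)) * 2 ^ (128 * (k + 1)) * ((2 ^ (2 * 2 ^ (3 * k)) : ℕ) : ℝ) *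
      ((2 ^ (2 * 2 ^ (3 * k)) : ℕ) : ℝ)) / ((2 ^ (5 * 2 ^ (3 * k)) : ℕ) : ℝ) ≤ 1 / 2 ^ k := by
    push_cast
    rw [← pow_add, ← pow_add, ← pow_add, div_le_div_iff₀ (by positivity) (by positivity), one_mul,
      ← pow_add]
    exact pow_le_pow_right₀ one_le_two (by omega)
  refine h.trans ((add_le_add t0 le_rfl).trans ?_)
  rw [← mul_add]
  exact mul_le_mul_of_nonneg_left (sum_terms_le le_rfl (term1 hLlow) t2
    (term3 (by linarith) hlog0 hlogx) (term4 k) (term5 k) t6 (term7 hk hlog0 hlogx)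
    (term8 hlog0 hlogx)) (by positivity)

lemma tendsto_densityBound : Tendsto densityBound atTop (𝓝 0) := by
  have h1 : Tendsto (fun k : ℕ => 2000000 * ((k : ℝ) + 1) ^ 2 / 2 ^ k) atTop (𝓝 0) := by
    have h := ((tendsto_pow_const_div_const_pow_of_one_lt 2 (one_lt_two (α := ℝ))).comp
      (tendsto_add_atTop_nat 1)).const_mul (4000000 : ℝ)
    rw [mul_zero] at h
    refine h.congr fun k => ?_
    simp only [Function.comp_apply]
    push_cast
    rw [pow_succ (2 : ℝ) k]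
    field_simp
    ring
  have h2 : Tendsto (fun k : ℕ => 16 * (8 + Real.log (k + 1)) / k) atTop (𝓝 0) := by
    have hb := ((Real.tendsto_pow_log_div_mul_add_atTop 1 (-1) 1 one_ne_zero).comp
      (tendsto_natCast_atTop_atTop.comp (tendsto_add_atTop_nat 1) : Tendsto (fun k : ℕ => ((k + 1 : ℕ) : ℝ)) atTop atTop)).const_mul (16 : ℝ)
    have ha := (tendsto_const_div_atTop_nhds_zero_nat (128 : ℝ))
    have := ha.add hb
    rw [mul_zero, add_zero] at this
    refine this.congr fun k => ?_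
    simp only [Function.comp_apply]
    push_cast
    rw [pow_one, show (1 : ℝ) * ((k : ℝ) + 1) + -1 = k by ring]
    ring
  have h := h1.add h2
  rw [add_zero] at h
  exact h

lemma tendsto_scale : Tendsto scale atTop atTop := by
  rw [tendsto_atTop_atTop]
  intro K
  refine ⟨2 ^ 2 ^ (8 * K), fun x hx => ?_⟩
  rw [scale, Nat.le_div_iff_mul_le (by norm_num), mul_comm]
  exact Nat.le_log_of_pow_le one_lt_two (Nat.le_log_of_pow_le one_lt_two hx)

/-- Density zero of the admissible u. -/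
theorem tendsto_orderRoots :
    Tendsto (fun x : ℕ => ((orderRoots x).card : ℝ) / x) atTop (𝓝 0) := by
  refine tendsto_of_tendsto_of_tendsto_of_le_of_le' tendsto_const_nhds
    (tendsto_densityBound.comp tendsto_scale) (Eventually.of_forall fun x => by positivity) ?_
  filter_upwards [tendsto_scale.eventually_ge_atTop 10, eventually_ge_atTop 1] with x hx hx1
  have hx' : (0 : ℝ) < x := by exact_mod_cast hx1
  rw [Function.comp_apply, div_le_iff₀ hx', mul_comm]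
  exact card_orderRoots_le_scale hx

/-- An order of a circulant Hadamard matrix other than 1 is of the form 4u². -/
theorem eq_four_mul_sq_of_order {n : ℕ} (hn : 1 < n) (h : IsCirculantHadamardOrder n) :
    ∃ u : ℕ, n = 4 * u ^ 2 := by
  have : NeZero n := ⟨by omega⟩
  have : Fact (1 < n) := ⟨hn⟩
  obtain ⟨g, hpm, hg⟩ := h.exists_zmod
  set s := ∑ k, g k with hs
  have hsq : s * s = (n : ℤ) := by
    have e : ∀ k : ZMod n, ∑ t, g (k + t) * g k = s * g k := by
      intro k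
      rw [← Finset.sum_mul]
      congr 1
      exact Fintype.sum_equiv (Equiv.addLeft k) _ _ (fun t => rfl)
    calc s * s = ∑ k, s * g k := by rw [← Finset.mul_sum]
      _ = ∑ k, ∑ t, g (k + t) * g k := by simp [e]
      _ = _ := by rw [Finset.sum_comm]; simp [hg]
  have h2 : (n : ZMod 2) = 0 := by
    have h1 := hg 1
    rw [if_neg one_ne_zero] at h1
    have hc := congrArg (fun z : ℤ => (z : ZMod 2)) h1
    push_cast at hc
    have hone : ∀ k : ZMod n, ((g k : ℤ) : ZMod 2) = 1 := by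
      intro k
      rcases hpm k with h | h <;> rw [h] <;> decide
    simpa [hone] using hc
  have hs2 : (2 : ℤ) ∣ s := by
    have h3 : (2 : ℤ) ∣ s * s := by
      rw [hsq]; exact_mod_cast (ZMod.natCast_eq_zero_iff n 2).1 h2
    exact (Int.prime_two.dvd_mul.1 h3).elim id id
  obtain ⟨c, hc⟩ := hs2
  refine ⟨c.natAbs, ?_⟩
  have : ((4 * c.natAbs ^ 2 : ℕ) : ℤ) = (n : ℤ) := by
    push_cast
    rw [sq_abs, ← hsq, hc]; ring
  exact_mod_cast this.symm

open Classical in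
/-- The number of orders up to N is o(√N). -/
theorem tendsto_orders :
    Tendsto (fun N : ℕ => (((Icc 1 N).filter IsCirculantHadamardOrder).card : ℝ) / Real.sqrt N)
      atTop (𝓝 0) := by
  have hsqrt : Tendsto (fun N : ℕ => Real.sqrt N) atTop atTop :=
    Real.tendsto_sqrt_atTop.comp tendsto_natCast_atTop_atTop
  have hnat : Tendsto Nat.sqrt atTop atTop :=
    tendsto_atTop_atTop.2 fun b => ⟨b * b, fun N hN => Nat.le_sqrt.2 hN⟩
  refine tendsto_of_tendsto_of_tendsto_of_le_of_le' tendsto_const_nhds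
    (h := fun N : ℕ => 1 / Real.sqrt N + ((orderRoots (Nat.sqrt N)).card : ℝ) / (Nat.sqrt N : ℕ))
    ?_ (Eventually.of_forall fun N => by positivity) ?_
  · have := (tendsto_const_nhds (x := (1 : ℝ)).div_atTop hsqrt).add (tendsto_orderRoots.comp hnat)
    rw [add_zero] at this
    exact this
  filter_upwards [eventually_ge_atTop 1] with N hN
  have hle : ((Icc 1 N).filter IsCirculantHadamardOrder).card ≤ 1 + (orderRoots (Nat.sqrt N)).card := by
    calc _ ≤ (insert 1 ((orderRoots (Nat.sqrt N)).image fun u => 4 * u ^ 2)).card := by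
          refine Finset.card_le_card fun n hn => ?_
          obtain ⟨h1, h2⟩ := Finset.mem_filter.1 hn
          obtain ⟨h3, h4⟩ := Finset.mem_Icc.1 h1
          rw [Finset.mem_insert]
          rcases eq_or_lt_of_le h3 with h5 | h5
          · exact Or.inl h5.symm
          right
          obtain ⟨u, rfl⟩ := eq_four_mul_sq_of_order h5 h2
          refine Finset.mem_image.2 ⟨u, ?_, rfl⟩
          simp only [orderRoots, Finset.mem_filter, Finset.mem_Icc]
          refine ⟨⟨?_, Nat.le_sqrt.2 ?_⟩, h2⟩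
          · rcases Nat.eq_zero_or_pos u with hu | hu
            · subst hu; simp at h5
            · exact hu
          · rw [← sq]; omega
      _ ≤ _ := by
          refine (Finset.card_insert_le _ _).trans ?_
          have := Finset.card_image_le (s := orderRoots (Nat.sqrt N)) (f := fun u => 4 * u ^ 2)
          omega
  have hN' : (0 : ℝ) < Real.sqrt N := Real.sqrt_pos.2 (by exact_mod_cast hN)
  have hs : (0 : ℝ) < (Nat.sqrt N : ℕ) := by exact_mod_cast Nat.sqrt_pos.2 hN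
  have hle' : (((Icc 1 N).filter IsCirculantHadamardOrder).card : ℝ) ≤
      1 + ((orderRoots (Nat.sqrt N)).card : ℝ) := by exact_mod_cast hle
  calc _ ≤ (1 + ((orderRoots (Nat.sqrt N)).card : ℝ)) / Real.sqrt N :=
        div_le_div_of_nonneg_right hle' hN'.le
    _ ≤ _ := by
        rw [add_div]
        refine add_le_add le_rfl ?_
        exact div_le_div_of_nonneg_left (by positivity) hs Real.nat_sqrt_le_real_sqrt

end Vale.Agent.P033
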