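import Vale.Agent.P033.Cyclo
import Vale.Agent.P033.Defs

/-!
The descent step: if small Galois-moving parts are controlled, an element of absolute value
squared N lies in a single class, and the resulting bound on circulant Hadamard orders.
-/

namespace Vale.Agent.P033

open NumberField Finset

variable (n : ℕ) [NeZero n] (K : Type) [Field K] [NumberField K] [IsCyclotomicExtension {n} ℚ K]
variable (P : ℕ) [Fact P.Prime] (hP : P * P ∣ n)

omit [NeZero n] in
include hP in
lemma cast_unit_ne_zero (a : (ZMod n)ˣ) :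
    ZMod.castHom (dvd_n n P hP) (ZMod P) (a : ZMod n) ≠ 0 :=
  (a.isUnit.map _).ne_zero

include hP in
lemma cast_sh (j : ZMod P) :
    ZMod.castHom (dvd_n n P hP) (ZMod P) (sh n P hP j : ZMod n) = 1 := by
  have h : P ∣ n / P := Nat.dvd_div_of_mul_dvd hP
  simp only [sh]
  rw [map_add, map_mul, map_one, map_natCast, (ZMod.natCast_eq_zero_iff (n / P) P).2 h, zero_mul,
    add_zero]

/-- An element whose support is at most W and which is moved to a multiple of a one-class element
times itself by an automorphism of large order modulo P has at most one class. -/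
lemma exists_class_of_moved {W : ℕ} (g : (ZMod n)ˣ) {z : 𝓞 K} {N M : ℕ} {c : ZMod P} {y : 𝓞 K}
    (hy : IsClass n K P hP c y) (hN : N ≠ 0)
    (heq : (N : 𝓞 K) * aut n K g z = (M : 𝓞 K) * y * z)
    (hcard : (supp n K P hP z).card ≤ W)
    (hord : W < orderOf (ZMod.castHom (dvd_n n P hP) (ZMod P) (g : ZMod n))) :
    ∃ c', IsClass n K P hP c' z := by
  classical
  set G := ZMod.castHom (dvd_n n P hP) (ZMod P) (g : ZMod n) with hG
  have hG0 : G ≠ 0 := cast_unit_ne_zero n P hP g
  set f := comp n K P hP z with hf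
  set e : ZMod P ≃ ZMod P := Equiv.mulLeft₀ G hG0
  have hgz : ∀ i, comp n K P hP (aut n K g z) (G * i) = aut n K g (f i) := by
    intro i
    have hcl : ∀ k, IsClass n K P hP k (aut n K g (f (e.symm k))) := by
      intro k
      have h := isClass_aut n K P hP g (isClass_comp n K P hP z (e.symm k))
      have hk : G * e.symm k = k := e.apply_symm_apply k
      rw [← hG, hk] at h
      exact h
    have hs : ∑ k, aut n K g (f (e.symm k)) = aut n K g z := by
      rw [Equiv.sum_comp e.symm (fun k => aut n K g (f k)), ← map_sum, hf, sum_comp]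
    have h := comp_unique n K P hP _ hcl (G * i)
    rw [hs] at h
    rw [h, show e.symm (G * i) = i from e.symm_apply_apply i]
  have hfun : ∀ k, (N : 𝓞 K) * comp n K P hP (aut n K g z) k = (M : 𝓞 K) * y * f (k - c) := by
    intro k
    have h1 := comp_unique n K P hP
      (fun k => (N : 𝓞 K) * comp n K P hP (aut n K g z) k) (fun k => by
        simpa using isClass_mul n K P hP (isClass_natCast n K P hP N)
          (isClass_comp n K P hP (aut n K g z) k)) k
    have h2 := comp_unique n K P hP (fun k => (M : 𝓞 K) * y * f (k - c)) (fun k => by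
        have h := isClass_mul n K P hP (isClass_mul n K P hP (isClass_natCast n K P hP M) hy)
          (isClass_comp n K P hP z (k - c))
        rw [zero_add, add_sub_cancel] at h
        exact h) k
    rw [← Finset.mul_sum, sum_comp, heq] at h1
    rw [← Finset.mul_sum, show (∑ i, f (i - c)) = ∑ i, f i from Equiv.sum_comp (Equiv.subRight c) f,
      hf, sum_comp] at h2
    rw [← h1]
    exact h2
  have hinv : ∀ i ∈ supp n K P hP z, G * i - c ∈ supp n K P hP z := by
    intro i hi
    rw [mem_supp] at hi ⊢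
    have h := hfun (G * i)
    rw [hgz] at h
    intro h0
    rw [← hf] at h0
    rw [h0, mul_zero] at h
    rcases mul_eq_zero.1 h with h' | h'
    · exact hN (Nat.cast_eq_zero.1 h')
    · exact hi ((aut_eq_zero n K).1 h')
  by_cases hG1 : G = 1
  · rw [hG1, orderOf_one] at hord
    have hW : W = 0 := by omega
    refine ⟨0, ?_⟩
    have : z = 0 := by
      rw [← sum_comp n K P hP z]
      refine Finset.sum_eq_zero fun i _ => ?_
      by_contra h
      have := Finset.card_pos.2 ⟨i, (mem_supp n K P hP).2 h⟩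
      omega
    subst this; intro j; simp
  set x0 := c / (G - 1) with hx0
  have hx : G * x0 - c = x0 := by
    have : G - 1 ≠ 0 := sub_ne_zero.2 hG1
    rw [hx0]; field_simp; ring
  refine ⟨x0, ?_⟩
  have hsub : ∀ i, f i ≠ 0 → i = x0 := by
    intro i hi
    by_contra hne
    have hit : ∀ m : ℕ, x0 + G ^ m * (i - x0) ∈ supp n K P hP z := by
      intro m
      induction m with
      | zero => simpa [mem_supp] using hi
      | succ m ih =>
        have := hinv _ ih
        have e : G * (x0 + G ^ m * (i - x0)) - c = x0 + G ^ (m + 1) * (i - x0) := by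
          rw [pow_succ]; linear_combination hx
        rwa [e] at this
    have hle : orderOf G ≤ (supp n K P hP z).card := by
      refine Finset.le_card_of_inj_on_range (fun m => x0 + G ^ m * (i - x0)) (fun m _ => hit m) ?_
      intro a ha b hb hab
      have : G ^ a = G ^ b := mul_right_cancel₀ (sub_ne_zero.2 hne) (add_left_cancel hab)
      exact pow_injOn_Iio_orderOf ha hb this
    omega
  have hz : z = f x0 := by
    conv_lhs => rw [← sum_comp n K P hP z]
    exact Finset.sum_eq_single x0 (fun i _ hi => by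
      by_contra h; exact hi (hsub i h)) (fun h => absurd (Finset.mem_univ _) h)
  rw [hz]
  exact isClass_comp n K P hP z x0

/-- Iterated descent over a set of primes, each moved by an automorphism of large order mod P. -/
lemma exists_class_of_small {W : ℕ} (T : Finset ℕ)
    (hT : ∀ q ∈ T, ∃ g : (ZMod n)ˣ, FixesPrimes n K g q ∧
      W < orderOf (ZMod.castHom (dvd_n n P hP) (ZMod P) (g : ZMod n))) :
    ∀ (z : 𝓞 K) (N : ℕ), N ≠ 0 → z * cj n K z = N → N.primeFactors ⊆ T →
      N ^ 2 ^ T.card ≤ W → ∃ c, IsClass n K P hP c z := by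
  classical
  induction T using Finset.induction with
  | empty =>
    intro z N hN hz hsub _
    have hN1 : N = 1 := by
      rcases Nat.primeFactors_eq_empty.1 (Finset.subset_empty.1 hsub) with h | h <;> omega
    subst hN1
    have hc := card_supp_le n K P hP hz
    rcases (supp n K P hP z).eq_empty_or_nonempty with he | ⟨i, hi⟩
    · refine ⟨0, ?_⟩
      have : z = 0 := by
        rw [← sum_comp n K P hP z]
        refine Finset.sum_eq_zero fun i _ => ?_
        by_contra h
        have hmem := (mem_supp n K P hP).2 h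
        simp [he] at hmem
      subst this; intro j; simp
    · refine ⟨i, ?_⟩
      have : z = comp n K P hP z i := by
        conv_lhs => rw [← sum_comp n K P hP z]
        refine Finset.sum_eq_single i (fun k _ hk => ?_) (fun h => absurd (Finset.mem_univ _) h)
        by_contra h
        exact hk (Finset.card_le_one.1 hc k ((mem_supp n K P hP).2 h) i hi)
      rw [this]; exact isClass_comp n K P hP z i
  | insert q T hq ih =>
    intro z N hN hz hsub hW
    obtain ⟨g, hfix, hord⟩ := hT q (Finset.mem_insert_self q T)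
    rw [Finset.card_insert_of_notMem hq] at hW
    set N₁ := N.primeFactors.prod (fun p => if p = q then p ^ N.factorization p else 1) with hN₁
    set N₂ := N.primeFactors.prod (fun p => if p = q then 1 else p ^ N.factorization p) with hN₂
    have hmul : N₁ * N₂ = N := by
      rw [hN₁, hN₂, ← Finset.prod_mul_distrib]
      conv_rhs => rw [← Nat.prod_factorization_pow_eq_self hN, Nat.prod_factorization_eq_prod_primeFactors]
      exact Finset.prod_congr rfl fun p _ => by split_ifs <;> simp
    have hN₁0 : N₁ ≠ 0 := left_ne_zero_of_mul (hmul ▸ hN)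
    have hN₂0 : N₂ ≠ 0 := right_ne_zero_of_mul (hmul ▸ hN)
    have hpf₁ : ∀ p : ℕ, p.Prime → p ∣ N₁ → p = q := by
      intro p hp hd
      obtain ⟨r, hr, hd'⟩ := hp.prime.exists_mem_finset_dvd hd
      split_ifs at hd' with h
      · subst h
        exact (Nat.prime_dvd_prime_iff_eq hp (Nat.prime_of_mem_primeFactors hr)).1
          (hp.dvd_of_dvd_pow hd')
      · exact absurd (Nat.dvd_one.1 hd') hp.ne_one
    have hpf₂ : N₂.primeFactors ⊆ T := by
      intro p hp
      obtain ⟨hp, hd, _⟩ := Nat.mem_primeFactors.1 hp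
      obtain ⟨r, hr, hd⟩ := hp.prime.exists_mem_finset_dvd hd
      split_ifs at hd with h
      · exact absurd (Nat.dvd_one.1 hd) hp.ne_one
      · have hpr := (Nat.prime_dvd_prime_iff_eq hp (Nat.prime_of_mem_primeFactors hr)).1
          (hp.dvd_of_dvd_pow hd)
        subst hpr
        rcases Finset.mem_insert.1 (hsub hr) with h' | h'
        · exact absurd h' h
        · exact h'
    have hdvd : (N₁ : 𝓞 K) ∣ aut n K g z * cj n K z := by
      refine dvd_aut_mul_cj n K g (fun p hp hd => ?_) ?_
      · rw [hpf₁ p hp hd]; exact hfix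
      · rw [hz, ← hmul, Nat.cast_mul]; exact dvd_mul_right _ _
    obtain ⟨w, hw⟩ := hdvd
    have hww : w * cj n K w = ((N₂ ^ 2 : ℕ) : 𝓞 K) := by
      have h1 : (aut n K g z * cj n K z) * cj n K (aut n K g z * cj n K z) = (N : 𝓞 K) * N := by
        rw [map_mul, cj_cj]
        have : aut n K g z * cj n K (aut n K g z) = N := by
          rw [cj, aut_comm, ← map_mul, ← cj, hz, map_natCast]
        linear_combination (cj n K z * z) * this + (N : 𝓞 K) * hz
      rw [hw, map_mul, map_natCast, ← hmul] at h1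
      have h0 : ((N₁ : 𝓞 K) * N₁) ≠ 0 := mul_ne_zero (Nat.cast_ne_zero.2 hN₁0) (Nat.cast_ne_zero.2 hN₁0)
      apply mul_left_cancel₀ h0
      push_cast at h1 ⊢
      linear_combination h1
    have hWle : (N₂ ^ 2) ^ 2 ^ T.card ≤ W := by
      refine le_trans ?_ hW
      rw [← pow_mul, ← pow_succ', ← hmul, mul_pow]
      exact Nat.le_mul_of_pos_left _ (pow_pos (Nat.pos_of_ne_zero hN₁0) _)
    obtain ⟨c, hc⟩ := ih (fun p hp => hT p (Finset.mem_insert_of_mem hp)) w _
      (pow_ne_zero 2 hN₂0) hww (by rw [Nat.primeFactors_pow _ two_ne_zero]; exact hpf₂) hWle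
    refine exists_class_of_moved n K P hP g hc hN (M := N₁) (W := W) ?_ ?_ hord
    · rw [← hw, ← hz]; ring
    · exact le_trans (card_supp_le n K P hP hz)
        (le_trans (Nat.le_self_pow (pow_ne_zero _ two_ne_zero) N) hW)

/-- The main bound: under the fixing hypotheses, P · φ(n) ≤ 4 n. -/
theorem mul_totient_le_of_order {u t s W : ℕ} (hn : n = 4 * u ^ 2) (hts : u = t * s) (hPodd : P ≠ 2)
    (hfix : ∀ q : ℕ, q.Prime → q ∣ t → FixesPrimes n K (sh n P hP 1) q)
    (hT : ∀ q ∈ s.primeFactors, ∃ g : (ZMod n)ˣ, FixesPrimes n K g q ∧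
      W < orderOf (ZMod.castHom (dvd_n n P hP) (ZMod P) (g : ZMod n)))
    (hW : (s ^ 4) ^ 2 ^ s.primeFactors.card ≤ W)
    (hord : IsCirculantHadamardOrder n) : P * n.totient ≤ 4 * n := by
  classical
  have hu : u ≠ 0 := by rintro rfl; exact NeZero.ne n (by simpa using hn)
  have ht0 : t ≠ 0 := left_ne_zero_of_mul (hts ▸ hu)
  have hs0 : s ≠ 0 := right_ne_zero_of_mul (hts ▸ hu)
  have hn1 : 1 < n := by
    have : 1 ≤ u ^ 2 := Nat.one_le_pow _ _ (Nat.pos_of_ne_zero hu)
    omega
  obtain ⟨g, hpm, hg⟩ := hord.exists_zmod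
  set ψ : AddChar (ZMod n) (𝓞 K) := AddChar.zmodChar n (zI_prim n K).pow_eq_one with hψ
  have hψp : ψ.IsPrimitive := AddChar.zmodChar_primitive_of_primitive_root n (zI_prim n K)
  have hsum : ∀ b : ZMod n, ∑ j : ZMod n, ψ (j * b) = if b = 0 then (n : 𝓞 K) else 0 := by
    intro b; simpa using AddChar.sum_mulShift b hψp
  have hψv : ∀ j : ZMod n, ψ j = zI n K ^ j.val := fun j => by rw [hψ, AddChar.zmodChar_apply]
  have hψaut : ∀ (a : (ZMod n)ˣ) j, aut n K a (ψ j) = ψ ((a : ZMod n) * j) := by
    intro a j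
    rw [hψv, hψv]
    refine aut_zI_pow n K _ _ _ ?_
    simp
  have hψcj : ∀ j, cj n K (ψ j) = ψ (-j) := fun j => by rw [cj, hψaut]; simp
  have hone : ∑ j : ZMod n, ψ j = 0 := by
    have h := hsum 1
    have : (1 : ZMod n) ≠ 0 := by
      have : Fact (1 < n) := ⟨hn1⟩
      exact one_ne_zero
    simpa [this] using h
  set S := (Finset.univ : Finset (ZMod n)).filter fun j => g j = 1 with hS
  set X : 𝓞 K := ∑ j ∈ S, ψ j with hX
  have h2X : ∑ j, (g j : 𝓞 K) * ψ j = 2 * X := by
    have : ∀ j, (g j : 𝓞 K) * ψ j = (if g j = 1 then 2 * ψ j else 0) - ψ j := by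
      intro j
      rcases hpm j with h | h <;> rw [h]
      · simp; ring
      · simp
    simp only [this, Finset.sum_sub_distrib, hone, sub_zero, hX, hS, Finset.mul_sum, Finset.sum_filter, mul_ite, mul_zero]
  have hXX : X * cj n K X = ((u ^ 2 : ℕ) : 𝓞 K) := by
    have h4 : (2 * X) * cj n K (2 * X) = (n : 𝓞 K) := by
      rw [← h2X, map_sum, Finset.sum_mul_sum]
      simp only [map_mul, map_intCast, hψcj]
      rw [Finset.sum_comm]
      have : ∀ k j : ZMod n, (g j : 𝓞 K) * ψ j * ((g k : 𝓞 K) * ψ (-k)) =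
          ((g j * g k : ℤ) : 𝓞 K) * ψ (j - k) := by
        intro k j
        rw [sub_eq_add_neg j k, AddChar.map_add_eq_mul]; push_cast; ring
      simp only [this]
      have e : ∀ k : ZMod n, ∑ j, ((g j * g k : ℤ) : 𝓞 K) * ψ (j - k) =
          ∑ t, ((g (k + t) * g k : ℤ) : 𝓞 K) * ψ t := fun k =>
        (Fintype.sum_equiv (Equiv.addLeft k) _ _ (fun t => by simp)).symm
      simp only [e]
      rw [Finset.sum_comm]
      simp only [← Finset.sum_mul, ← Int.cast_sum, hg]
      simp
    have hn' : (n : 𝓞 K) = 4 * (u : 𝓞 K) ^ 2 := by exact_mod_cast hn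
    rw [map_mul, map_ofNat, hn'] at h4
    apply mul_left_cancel₀ (show (4 : 𝓞 K) ≠ 0 by norm_num)
    push_cast at h4 ⊢
    linear_combination h4
  have hX0 : X ≠ 0 := by
    intro h
    rw [h, zero_mul] at hXX
    exact hu (by simpa using (Nat.cast_eq_zero.1 hXX.symm))
  -- moving X by the automorphism of order P
  set σ := sh n P hP 1 with hσ
  have hdvd : ((t ^ 2 : ℕ) : 𝓞 K) ∣ aut n K σ X * cj n K X := by
    refine dvd_aut_mul_cj n K σ (fun q hq hd => hfix q hq (hq.dvd_of_dvd_pow hd)) ?_
    rw [hXX, hts, mul_pow, Nat.cast_mul]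
    exact dvd_mul_right _ _
  obtain ⟨w, hw⟩ := hdvd
  have hww : w * cj n K w = ((s ^ 4 : ℕ) : 𝓞 K) := by
    have h1 : (aut n K σ X * cj n K X) * cj n K (aut n K σ X * cj n K X) =
        ((u ^ 2 : ℕ) : 𝓞 K) * (u ^ 2 : ℕ) := by
      rw [map_mul, cj_cj]
      have : aut n K σ X * cj n K (aut n K σ X) = (u ^ 2 : ℕ) := by
        rw [cj, aut_comm, ← map_mul, ← cj, hXX, map_natCast]
      linear_combination (cj n K X * X) * this + ((u ^ 2 : ℕ) : 𝓞 K) * hXX
    rw [hw, map_mul, map_natCast, hts] at h1
    have h0 : ((t : 𝓞 K) ^ 4) ≠ 0 := pow_ne_zero _ (Nat.cast_ne_zero.2 ht0)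
    apply mul_left_cancel₀ h0
    push_cast at h1 ⊢
    linear_combination h1
  obtain ⟨c, hc⟩ := exists_class_of_small n K P hP s.primeFactors hT w (s ^ 4)
    (pow_ne_zero _ hs0) hww (by rw [Nat.primeFactors_pow _ four_ne_zero]) hW
  have hsX : (s : 𝓞 K) ^ 2 * aut n K σ X = w * X := by
    have h : ((u ^ 2 : ℕ) : 𝓞 K) * aut n K σ X = ((t ^ 2 : ℕ) : 𝓞 K) * w * X := by
      rw [← hw, ← hXX]; ring
    rw [hts] at h
    apply mul_left_cancel₀ (show ((t : 𝓞 K) ^ 2) ≠ 0 from pow_ne_zero _ (Nat.cast_ne_zero.2 ht0))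
    push_cast at h ⊢
    linear_combination h
  have hiter : ∀ m : ℕ, (s : 𝓞 K) ^ (2 * m) * sig n K P hP (m : ZMod P) X =
      chi n K P hP ((∑ i ∈ range m, (i : ZMod P)) * c) * w ^ m * X := by
    intro m
    induction m with
    | zero => simp [sig_zero]
    | succ m ih =>
      have h1 : (s : 𝓞 K) ^ 2 * sig n K P hP ((m : ZMod P) + 1) X =
          chi n K P hP ((m : ZMod P) * c) * w * sig n K P hP (m : ZMod P) X := by
        have := congrArg (sig n K P hP (m : ZMod P)) hsX
        rw [map_mul, map_mul, map_pow, map_natCast, hc] at this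
        rw [sig_add]
        exact this
      rw [Finset.sum_range_succ, add_mul, AddChar.map_add_eq_mul, Nat.cast_succ]
      linear_combination ((s : 𝓞 K) ^ (2 * m)) * h1 + chi n K P hP ((m : ZMod P) * c) * w * ih
  have hsum0 : (∑ i ∈ range P, (i : ZMod P)) = 0 := by
    have hodd : Odd P := (Fact.out : P.Prime).odd_of_ne_two hPodd
    rw [← Nat.cast_sum, ZMod.natCast_eq_zero_iff]
    obtain ⟨k, hk⟩ := hodd
    rw [Finset.sum_range_id, hk, show 2 * k + 1 - 1 = 2 * k by omega,
      show (2 * k + 1) * (2 * k) = (2 * k + 1) * k * 2 by ring, Nat.mul_div_cancel _ two_pos]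
    exact dvd_mul_right _ _
  have hwP : w ^ P = ((s : 𝓞 K) ^ 2) ^ P := by
    have h := hiter P
    rw [hsum0, zero_mul, AddChar.map_zero_eq_one, ZMod.natCast_self, sig_zero, one_mul] at h
    rw [← pow_mul]
    exact (mul_right_cancel₀ hX0 h).symm
  obtain ⟨d, hd⟩ : ∃ d : ZMod P, w = chi n K P hP d * (s : 𝓞 K) ^ 2 := by
    have hprim := (omega_prim n K P hP).map_of_injective
      (FaithfulSMul.algebraMap_injective (𝓞 K) K)
    have hs' : (algebraMap (𝓞 K) K) ((s : 𝓞 K) ^ 2) ≠ 0 := by
      rw [map_pow, map_natCast]; exact pow_ne_zero _ (Nat.cast_ne_zero.2 hs0)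
    obtain ⟨i, _, hi⟩ := hprim.eq_pow_of_pow_eq_one
      (ξ := algebraMap (𝓞 K) K w / algebraMap (𝓞 K) K ((s : 𝓞 K) ^ 2)) (by
        rw [div_pow, ← map_pow, ← map_pow, hwP, div_self]
        rw [map_pow]; exact pow_ne_zero _ hs')
    refine ⟨(i : ZMod P), FaithfulSMul.algebraMap_injective (𝓞 K) K ?_⟩
    rw [map_mul, chi_natCast, pow_mul, map_pow, hi, div_mul_cancel₀ _ hs']
  have hσX : aut n K σ X = chi n K P hP d * X := by
    apply mul_left_cancel₀ (show ((s : 𝓞 K) ^ 2) ≠ 0 from pow_ne_zero _ (Nat.cast_ne_zero.2 hs0))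
    rw [hsX, hd]; ring
  -- only one class of exponents occurs
  set F : ZMod P → 𝓞 K := fun i =>
    ∑ j ∈ S.filter (fun j => ZMod.castHom (dvd_n n P hP) (ZMod P) j = i), ψ j with hF
  have hFc : ∀ i, IsClass n K P hP i (F i) := by
    intro i j
    simp only [hF, map_sum, Finset.mul_sum]
    refine Finset.sum_congr rfl fun m hm => ?_
    rw [hψv, sig_zI_pow]
    have := (Finset.mem_filter.1 hm).2
    rw [← this]
    simp [ZMod.natCast_val]
  have hFs : ∑ i, F i = X := Finset.sum_fiberwise S _ _
  have hclass : ∀ i, i ≠ d → F i = 0 := by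
    intro i hi
    have h1 := comp_unique n K P hP (fun i => sig n K P hP 1 (F i)) (fun i j => by
      show sig n K P hP j (sig n K P hP 1 (F i)) = _
      rw [sig, sig, aut_comm]
      have := hFc i j
      rw [sig] at this
      rw [this, map_mul, aut_chi]
      congr 2
      rw [cast_sh, one_mul]) i
    have h2 := comp_unique n K P hP (fun i => chi n K P hP d * F i) (fun i j => by
      show sig n K P hP j (chi n K P hP d * F i) = chi n K P hP (j * i) * (chi n K P hP d * F i)
      rw [map_mul, hFc i j, sig, aut_chi, cast_sh, one_mul]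
      ring) i
    rw [← Finset.mul_sum, hFs] at h2
    rw [← map_sum, hFs] at h1
    rw [show sig n K P hP 1 X = aut n K σ X from rfl, hσX, h2] at h1
    have h3 := hFc i 1
    rw [← h1, one_mul] at h3
    by_contra hne
    have h4 := mul_right_cancel₀ hne h3
    have h5 : Function.Injective (fun i : ZMod P => chi n K P hP i) := by
      intro a b hab
      simp only [chi_apply, pow_mul] at hab
      exact ZMod.val_injective P ((omega_prim n K P hP).pow_inj a.val_lt b.val_lt hab)
    exact hi (h5 h4).symm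
  set S' := S.filter (fun j => ZMod.castHom (dvd_n n P hP) (ZMod P) j = d) with hS'
  have hXS : X = ∑ j ∈ S', ψ j := by
    rw [← hFs]
    exact Finset.sum_eq_single d (fun i _ hi => hclass i hi) (fun h => absurd (Finset.mem_univ _) h)
  have hS'card : S'.card ≤ n / P := by
    calc S'.card ≤ (Finset.range (n / P)).card := by
          refine Finset.card_le_card_of_injOn (fun j => j.val / P) ?_ ?_
          · intro j _
            simp only [Finset.coe_range, Set.mem_Iio]
            exact Nat.div_lt_div_of_lt_of_dvd (dvd_n n P hP) (ZMod.val_lt j)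
          · intro a ha b hb hab
            simp only [hS', Finset.coe_filter, Set.mem_ofPred_eq] at ha hb
            have e : (a.val : ZMod P) = (b.val : ZMod P) := by
              have := ha.2.trans hb.2.symm
              simpa [ZMod.natCast_val] using this
            rw [ZMod.natCast_eq_natCast_iff'] at e
            apply ZMod.val_injective
            rw [← Nat.mod_add_div a.val P, ← Nat.mod_add_div b.val P, e]
            simp only at hab
            rw [hab]
      _ = _ := Finset.card_range _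
  -- Parseval
  set Y : ZMod n → 𝓞 K := fun a => ∑ j ∈ S', ψ (a * j) with hY
  have hpars : ∑ a, Y a * cj n K (Y a) = (n : 𝓞 K) * S'.card := by
    simp only [hY, map_sum, hψcj, Finset.sum_mul_sum, ← AddChar.map_add_eq_mul]
    rw [Finset.sum_comm]
    have : ∀ j ∈ S', ∑ a : ZMod n, ∑ k ∈ S', ψ (a * j + -(a * k)) = (n : 𝓞 K) := by
      intro j hj
      rw [Finset.sum_comm]
      simp only [← mul_neg, ← mul_add, hsum, ← sub_eq_add_neg, sub_eq_zero]
      simp [hj]
    rw [Finset.sum_congr rfl this]
    simp [mul_comm]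
  have hunit : ∀ a : (ZMod n)ˣ, Complex.normSq (emb K (Y a)) = ((u ^ 2 : ℕ) : ℝ) := by
    intro a
    have hYa : Y a = aut n K a X := by rw [hXS, map_sum]; simp [hY, hψaut]
    have h := emb_mul_cj n K (Y a)
    rw [hYa] at h ⊢
    rw [cj, aut_comm, ← map_mul, ← cj, hXX, map_natCast] at h
    rw [map_natCast] at h
    exact_mod_cast h.symm
  have hR : (Fintype.card (ZMod n)ˣ : ℝ) * ((u ^ 2 : ℕ) : ℝ) ≤ (n : ℝ) * S'.card := by
    have h := congrArg (emb K) hpars
    rw [map_sum] at h
    simp only [emb_mul_cj] at h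
    rw [map_mul, map_natCast, map_natCast] at h
    have h' : ∑ a, Complex.normSq (emb K (Y a)) = (n : ℝ) * S'.card := by exact_mod_cast h
    rw [← h']
    calc _ = ∑ a : (ZMod n)ˣ, Complex.normSq (emb K (Y a)) := by simp [hunit]
      _ ≤ _ := by
        rw [← Finset.sum_image (g := fun a : (ZMod n)ˣ => (a : ZMod n))
          (f := fun a => Complex.normSq (emb K (Y a))) (fun _ _ _ _ h => Units.ext h)]
        exact Finset.sum_le_sum_of_subset_of_nonneg (Finset.subset_univ _)
          (fun a _ _ => Complex.normSq_nonneg _)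
  rw [ZMod.card_units_eq_totient] at hR
  have h1 : n.totient * u ^ 2 ≤ n * S'.card := by exact_mod_cast hR
  have h2 : n.totient * u ^ 2 * P ≤ n * n := by
    calc n.totient * u ^ 2 * P ≤ n * S'.card * P := Nat.mul_le_mul_right _ h1
      _ ≤ n * (n / P * P) := by rw [mul_assoc]; exact Nat.mul_le_mul_left _ (Nat.mul_le_mul_right _ hS'card)
      _ = _ := by rw [Nat.div_mul_cancel (dvd_n n P hP)]
  have h3 : P * n.totient * u ^ 2 ≤ 4 * n * u ^ 2 := by
    calc _ = n.totient * u ^ 2 * P := by ring
      _ ≤ n * n := h2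
      _ = _ := by rw [hn]; ring
  exact Nat.le_of_mul_le_mul_right h3 (pow_pos (Nat.pos_of_ne_zero hu) 2)

end Vale.Agent.P033
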