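import Vale.Agent.P033.PrimeSums

/-!
Few primes q are Wieferich bases for a given prime P.
-/

namespace Vale.Agent.P033

open Finset

/-- The primes q in (2^i, 2^(i+1)], below P, with q^(P-1) ≡ 1 mod P². -/
def wblock (P i : ℕ) : Finset ℕ :=
  (primesTo (2 ^ (i + 1))).filter fun q => 2 ^ i < q ∧ q < P ∧ q ^ (P - 1) % (P * P) = 1

lemma pow_sub_one_roots_injOn {P : ℕ} (hP : P.Prime) {a b : ℕ}
    (ha : (a : ZMod (P * P)) ^ (P - 1) = 1) (hb : (b : ZMod (P * P)) ^ (P - 1) = 1)
    (hab : a % P = b % P) : (a : ZMod (P * P)) = b := by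
  have : Fact P.Prime := ⟨hP⟩
  have hPP : (P : ZMod (P * P)) * P = 0 := by rw [← Nat.cast_mul, ZMod.natCast_self]
  set A : ZMod (P * P) := (a : ZMod (P * P)) with hAdef
  set B : ZMod (P * P) := (b : ZMod (P * P)) with hBdef
  obtain ⟨k, hk⟩ : ∃ k : ZMod (P * P), B = A + (P : ZMod (P * P)) * k := by
    have h1 : (((b : ℤ) - a : ℤ) : ZMod P) = 0 := by
      push_cast
      rw [sub_eq_zero, ZMod.natCast_eq_natCast_iff']
      exact hab.symm
    obtain ⟨c, hc⟩ := (ZMod.intCast_zmod_eq_zero_iff_dvd _ P).1 h1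
    refine ⟨(c : ℤ), ?_⟩
    have h2 := congrArg (fun z : ℤ => (z : ZMod (P * P))) hc
    push_cast at h2
    linear_combination h2
  have hA : A * A ^ (P - 2) = 1 := by
    have := hP.two_le
    rw [← pow_succ', show P - 2 + 1 = P - 1 by omega, ha]
  have hpow : ∀ m : ℕ, (1 + (P : ZMod (P * P)) * (A ^ (P - 2) * k)) ^ m =
      1 + (m : ZMod (P * P)) * ((P : ZMod (P * P)) * (A ^ (P - 2) * k)) := by
    intro m
    induction m with
    | zero => simp
    | succ m ih =>
      rw [pow_succ, ih, Nat.cast_succ]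
      linear_combination ((m : ZMod (P * P)) * (A ^ (P - 2) * k) ^ 2) * hPP
  have hB : B = A * (1 + (P : ZMod (P * P)) * (A ^ (P - 2) * k)) := by
    linear_combination hk - (P : ZMod (P * P)) * k * hA
  have h3 := hb
  rw [hB, mul_pow, ha, one_mul, hpow, add_eq_left, Nat.cast_sub hP.one_lt.le, Nat.cast_one] at h3
  have hz : (P : ZMod (P * P)) * (A ^ (P - 2) * k) = 0 := by
    linear_combination (A ^ (P - 2) * k) * hPP - h3
  rw [hB, hz, add_zero, mul_one]

lemma card_roots_le {P : ℕ} (hP : P.Prime) :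
    ((range (P * P)).filter fun r => r ^ (P - 1) % (P * P) = 1).card ≤ P := by
  have hPP : 1 < P * P := Nat.one_lt_mul_iff.2 ⟨hP.pos, hP.pos, Or.inl hP.one_lt⟩
  calc _ ≤ (range P).card := by
        refine Finset.card_le_card_of_injOn (fun r => r % P) ?_ ?_
        · intro r _; simp [Nat.mod_lt _ hP.pos]
        · intro a ha b hb hab
          simp only [Finset.coe_filter, Finset.mem_range, Set.mem_ofPred_eq] at ha hb
          have h := fun {r : ℕ} (hr : r ^ (P - 1) % (P * P) = 1) =>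
            (show (r : ZMod (P * P)) ^ (P - 1) = 1 by
              rw [← Nat.cast_pow, show (1 : ZMod (P * P)) = ((1 : ℕ) : ZMod (P * P)) from Nat.cast_one.symm,
                ZMod.natCast_eq_natCast_iff', hr,
                Nat.mod_eq_of_lt hPP])
          have := pow_sub_one_roots_injOn hP (h ha.2) (h hb.2) hab
          rwa [ZMod.natCast_eq_natCast_iff', Nat.mod_eq_of_lt ha.1, Nat.mod_eq_of_lt hb.1] at this
    _ = P := Finset.card_range P

lemma choose_wblock_le {P : ℕ} (hP : P.Prime) (i k : ℕ) :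
    (wblock P i).card.choose k ≤ P * (2 ^ ((i + 1) * k) / (P * P) + 1) := by
  have hPP : 1 < P * P := Nat.one_lt_mul_iff.2 ⟨hP.pos, hP.pos, Or.inl hP.one_lt⟩
  rw [← Finset.card_powersetCard]
  calc _ ≤ (((range (P * P)).filter fun r => r ^ (P - 1) % (P * P) = 1) ×ˢ
        range (2 ^ ((i + 1) * k) / (P * P) + 1)).card := by
        refine Finset.card_le_card_of_injOn
          (fun S => ((∏ q ∈ S, q) % (P * P), (∏ q ∈ S, q) / (P * P))) ?_ ?_
        · intro S hS
          obtain ⟨hsub, hcard⟩ := Finset.mem_powersetCard.1 hS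
          simp only [Finset.coe_product, Finset.coe_filter, Finset.coe_range, Set.mem_prod,
            Set.mem_ofPred_eq, Finset.mem_range, Set.mem_Iio]
          refine ⟨⟨Nat.mod_lt _ (by omega), ?_⟩, ?_⟩
          · rw [← Nat.pow_mod, ← Finset.prod_pow, Finset.prod_nat_mod]
            have h1 : ∀ q ∈ S, q ^ (P - 1) % (P * P) = 1 := fun q hq =>
              (Finset.mem_filter.1 (hsub hq)).2.2.2
            rw [Finset.prod_congr rfl h1, Finset.prod_const_one, Nat.mod_eq_of_lt hPP]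
          · apply Nat.lt_succ_of_le
            apply Nat.div_le_div_right
            calc ∏ q ∈ S, q ≤ ∏ q ∈ S, 2 ^ (i + 1) :=
                  Finset.prod_le_prod' fun q hq =>
                    (mem_primesTo.1 (Finset.mem_filter.1 (hsub hq)).1).1
              _ = _ := by rw [Finset.prod_const, hcard, ← pow_mul]
        · intro S hS T hT h
          simp only [Prod.mk.injEq] at h
          have e : ∏ q ∈ S, q = ∏ q ∈ T, q := by
            rw [← Nat.mod_add_div (∏ q ∈ S, q) (P * P), ← Nat.mod_add_div (∏ q ∈ T, q) (P * P),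
              h.1, h.2]
          have hp : ∀ U ∈ Finset.powersetCard k (wblock P i), ∀ q ∈ U, q.Prime := fun U hU q hq =>
            (mem_primesTo.1 (Finset.mem_filter.1 ((Finset.mem_powersetCard.1 hU).1 hq)).1).2
          rw [← Nat.primeFactors_prod (hp S hS), e, Nat.primeFactors_prod (hp T hT)]
    _ ≤ _ := by
        rw [Finset.card_product, Finset.card_range]
        exact Nat.mul_le_mul_right _ (card_roots_le hP)

lemma le_of_choose_le {s k M T : ℕ} (hk : k ≠ 0) (h : s.choose k ≤ T)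
    (hT : Nat.factorial k * T ≤ M ^ k) : s ≤ M + k := by
  by_contra hc
  have h1 : (s + 1 - k) ^ k ≤ Nat.factorial k * s.choose k := by
    have := Nat.pow_le_choose (α := ℝ) k s
    rw [div_le_iff₀ (by positivity)] at this
    rw [mul_comm]
    exact_mod_cast this
  have h2 : (s + 1 - k) ^ k ≤ M ^ k := h1.trans ((Nat.mul_le_mul_left _ h).trans hT)
  have := (Nat.pow_le_pow_iff_left hk).1 h2
  omega

/-- The block of Wieferich bases is small. -/
lemma card_wblock_le {P i p : ℕ} (hP : P.Prime) (hp1 : 2 ^ p ≤ P) (hp2 : P < 2 ^ (p + 1))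
    (hp : 10 ≤ p) : (wblock P i).card ≤ 10 * (p + 2) * 2 ^ (i + 1 - (i + 1) / 4) := by
  rcases (wblock P i).eq_empty_or_nonempty with he | ⟨q, hq⟩
  · simp [he]
  have hip : i ≤ p := by
    have h := (Finset.mem_filter.1 hq).2
    have : (2 : ℕ) ^ i < 2 ^ (p + 1) := lt_trans h.1 (lt_trans h.2.1 hp2)
    have := (Nat.pow_lt_pow_iff_right (le_refl 2)).1 this
    omega
  set b := i + 1 with hb
  set e := b - b / 4 with he
  have hPP : 2 ^ (2 * p) ≤ P * P := by
    rw [two_mul, pow_add]; exact Nat.mul_le_mul hp1 hp1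
  have h1e : 1 ≤ 2 ^ e := Nat.one_le_two_pow
  by_cases hcase : 4 ≤ 2 * p / b
  · set k := 2 * p / b with hk
    have hkb : k * b ≤ 2 * p := Nat.div_mul_le_self _ _
    have hkb' : 2 * p < k * b + b := by
      have := Nat.lt_mul_div_succ (2 * p) (show 0 < b by omega)
      rw [mul_add, mul_one, mul_comm b] at this
      exact this
    have hch : (wblock P i).card.choose k ≤ 2 * P := by
      refine (choose_wblock_le hP i k).trans ?_
      rw [mul_comm 2 P]
      refine Nat.mul_le_mul_left _ ?_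
      have : 2 ^ ((i + 1) * k) / (P * P) ≤ 1 := by
        calc 2 ^ ((i + 1) * k) / (P * P) ≤ (P * P) / (P * P) :=
              Nat.div_le_div_right (le_trans (Nat.pow_le_pow_right two_pos (by rw [← hb, mul_comm]; exact hkb)) hPP)
          _ = 1 := Nat.div_self (by have := hP.pos; positivity)
      omega
    have hpe : p + 2 ≤ e * k := by
      have h4b : 4 * b ≤ k * b := Nat.mul_le_mul_right _ hcase
      have h3 : 3 * b ≤ 4 * e := by omega
      have h5 : 3 * (k * b) ≤ 4 * (e * k) := by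
        calc 3 * (k * b) = 3 * b * k := by ring
          _ ≤ 4 * e * k := Nat.mul_le_mul_right _ h3
          _ = _ := by ring
      omega
    have hkp : k ≤ 2 * p := Nat.div_le_self _ _
    refine (le_of_choose_le (M := k * 2 ^ e) (by omega) hch ?_).trans ?_
    · rw [mul_pow]
      refine Nat.mul_le_mul (Nat.factorial_le_pow k) ?_
      rw [← pow_mul]
      calc 2 * P ≤ 2 * 2 ^ (p + 1) := Nat.mul_le_mul_left _ hp2.le
        _ = 2 ^ (p + 2) := by ring
        _ ≤ _ := Nat.pow_le_pow_right two_pos hpe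
    · have h1 : k * 1 ≤ k * 2 ^ e := Nat.mul_le_mul_left _ h1e
      have h2 : 2 * k * 2 ^ e ≤ 10 * (p + 2) * 2 ^ e := Nat.mul_le_mul_right _ (by omega)
      have h3 : 2 * k * 2 ^ e = k * 2 ^ e + k * 2 ^ e := by ring
      omega
  · have hcase' : 2 * p < 4 * b := by
      by_contra h
      exact hcase ((Nat.le_div_iff_mul_le (show 0 < b by omega)).2 (Nat.le_of_not_lt h))
    have hch : (wblock P i).card.choose 4 ≤ 2 ^ (3 * b + 3) := by
      refine (choose_wblock_le hP i 4).trans ?_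
      calc P * (2 ^ (b * 4) / (P * P) + 1) ≤ 2 ^ (p + 1) * (2 ^ (4 * b - 2 * p) + 1) := by
            refine Nat.mul_le_mul hp2.le (Nat.succ_le_succ ?_)
            calc 2 ^ (b * 4) / (P * P) ≤ 2 ^ (b * 4) / 2 ^ (2 * p) :=
                  Nat.div_le_div_left hPP (by positivity)
              _ = 2 ^ (4 * b - 2 * p) := by
                  rw [Nat.pow_div (by omega) two_pos]; congr 1; omega
        _ ≤ 2 ^ (3 * b + 2) + 2 ^ (3 * b + 2) := by
            rw [mul_add, mul_one, ← pow_add]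
            exact add_le_add (Nat.pow_le_pow_right two_pos (by omega))
              (Nat.pow_le_pow_right two_pos (by omega))
        _ = _ := by ring
    refine (le_of_choose_le (M := 4 * 2 ^ e) (by omega) hch ?_).trans ?_
    · calc Nat.factorial 4 * 2 ^ (3 * b + 3) ≤ 32 * 2 ^ (3 * b + 3) :=
            Nat.mul_le_mul_right _ (by decide)
        _ = 2 ^ (3 * b + 8) := by ring
        _ ≤ 2 ^ (4 * e + 8) := Nat.pow_le_pow_right two_pos (by omega)
        _ = _ := by ring
    · have h2 : 10 * 12 * 2 ^ e ≤ 10 * (p + 2) * 2 ^ e := Nat.mul_le_mul_right _ (by omega)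
      omega

/-- The reciprocal sum of the Wieferich bases in (2^m, P). -/
lemma sum_inv_wieferich_le {P m L : ℕ} (hP : P.Prime) (hP10 : 2 ^ 10 ≤ P) (hPL : P < 2 ^ (L + 1))
    (S : Finset ℕ) (hS : ∀ q ∈ S, q.Prime ∧ 2 ^ m < q ∧ q < P ∧ q ^ (P - 1) % (P * P) = 1) :
    ∑ q ∈ S, (q : ℝ)⁻¹ ≤ 20 * ((L : ℝ) + 2) ^ 2 / 2 ^ (m / 4) := by
  set p := Nat.log 2 P
  have hp1 : 2 ^ p ≤ P := Nat.pow_log_le_self 2 hP.ne_zero
  have hp2 : P < 2 ^ (p + 1) := Nat.lt_pow_succ_log_self one_lt_two P
  have hp : 10 ≤ p := Nat.le_log_of_pow_le one_lt_two hP10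
  have hpL : p ≤ L := by
    have := (Nat.pow_lt_pow_iff_right (le_refl 2)).1 (lt_of_le_of_lt hp1 hPL)
    omega
  have hmap : ∀ q ∈ S, Nat.log 2 (q - 1) ∈ Icc m p := by
    intro q hq
    obtain ⟨hqp, hqm, hqP, _⟩ := hS q hq
    rw [Finset.mem_Icc]
    exact ⟨Nat.le_log_of_pow_le one_lt_two (by omega), Nat.log_mono_right (by omega)⟩
  rw [← Finset.sum_fiberwise_of_maps_to hmap]
  have hblock : ∀ i ∈ Icc m p, ∑ q ∈ S with Nat.log 2 (q - 1) = i, (q : ℝ)⁻¹ ≤
      20 * ((L : ℝ) + 2) / 2 ^ (m / 4) := by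
    intro i hi
    have hsub : (S.filter fun q => Nat.log 2 (q - 1) = i) ⊆ wblock P i := by
      intro q hq
      obtain ⟨hqS, hqi⟩ := Finset.mem_filter.1 hq
      obtain ⟨hqp, hqm, hqP, hqw⟩ := hS q hqS
      have h2 := hqp.two_le
      have h1 : 2 ^ i ≤ q - 1 := hqi ▸ Nat.pow_log_le_self 2 (by omega)
      have h3 : q - 1 < 2 ^ (i + 1) := hqi ▸ Nat.lt_pow_succ_log_self one_lt_two (q - 1)
      rw [wblock, Finset.mem_filter, mem_primesTo]
      exact ⟨⟨by omega, hqp⟩, by omega, hqP, hqw⟩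
    calc ∑ q ∈ S with Nat.log 2 (q - 1) = i, (q : ℝ)⁻¹
        ≤ ((S.filter fun q => Nat.log 2 (q - 1) = i).card : ℕ) • ((2 : ℝ) ^ i)⁻¹ := by
          refine Finset.sum_le_card_nsmul _ _ _ fun q hq => inv_anti₀ (by positivity) ?_
          exact_mod_cast (Finset.mem_filter.1 (hsub hq)).2.1.le
      _ ≤ ((10 * (p + 2) * 2 ^ (i + 1 - (i + 1) / 4) : ℕ) : ℝ) * ((2 : ℝ) ^ i)⁻¹ := by
          rw [nsmul_eq_mul]
          refine mul_le_mul_of_nonneg_right ?_ (by positivity)
          exact_mod_cast (Finset.card_le_card hsub).trans (card_wblock_le hP hp1 hp2 hp)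
      _ ≤ _ := by
          push_cast
          rw [← div_eq_mul_inv, div_le_div_iff₀ (by positivity) (by positivity)]
          have hmi : m ≤ i := (Finset.mem_Icc.1 hi).1
          have h1 : (2 : ℝ) ^ (i + 1 - (i + 1) / 4) * 2 ^ (m / 4) ≤ 2 * 2 ^ i := by
            rw [← pow_add, ← pow_succ']
            exact pow_le_pow_right₀ one_le_two (by omega)
          have h2 : ((p : ℝ) + 2) ≤ (L : ℝ) + 2 := by
            have : (p : ℝ) ≤ L := by exact_mod_cast hpL
            linarith
          calc 10 * ((p : ℝ) + 2) * 2 ^ (i + 1 - (i + 1) / 4) * 2 ^ (m / 4)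
              = 10 * ((p : ℝ) + 2) * ((2 : ℝ) ^ (i + 1 - (i + 1) / 4) * 2 ^ (m / 4)) := by ring
            _ ≤ 10 * ((L : ℝ) + 2) * (2 * 2 ^ i) :=
                mul_le_mul (by linarith) h1 (by positivity) (by positivity)
            _ = _ := by ring
  refine (Finset.sum_le_sum hblock).trans ?_
  rw [Finset.sum_const, nsmul_eq_mul, Nat.card_Icc, ← mul_div_assoc]
  refine div_le_div_of_nonneg_right ?_ (by positivity)
  have : ((p + 1 - m : ℕ) : ℝ) ≤ (L : ℝ) + 2 := by
    exact_mod_cast (show p + 1 - m ≤ L + 2 by omega)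
  calc ((p + 1 - m : ℕ) : ℝ) * (20 * ((L : ℝ) + 2)) ≤ ((L : ℝ) + 2) * (20 * ((L : ℝ) + 2)) :=
        mul_le_mul_of_nonneg_right this (by positivity)
    _ = _ := by ring

end Vale.Agent.P033
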