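import Vale.Agent.P033.Criterion
import Vale.Agent.P033.Wieferich

/-!
Every u with a circulant Hadamard matrix of order 4u² is exceptional, and exceptional u are few.
-/

namespace Vale.Agent.P033

open Finset

/-- The u in [1, x] such that a circulant Hadamard matrix of order 4u² exists. -/
noncomputable def orderRoots (x : ℕ) : Finset ℕ :=
  haveI := Classical.decPred fun u => IsCirculantHadamardOrder (4 * u ^ 2)
  (Icc 1 x).filter fun u => IsCirculantHadamardOrder (4 * u ^ 2)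

lemma prod_primeFactors_le_mul_totient (s : Finset ℕ) (hs : ∀ r ∈ s, 2 ≤ r) :
    ∏ r ∈ s, r ≤ (∏ r ∈ s, (r - 1)) * (s.card + 1) := by
  induction s using Finset.induction_on_max with
  | empty => simp
  | insert a s hlt ih =>
    have ha : a ∉ s := fun h => lt_irrefl a (hlt a h)
    rw [Finset.prod_insert ha, Finset.prod_insert ha, Finset.card_insert_of_notMem ha]
    have hsub : s ⊆ Finset.Ico 2 a := fun r hr =>
      Finset.mem_Ico.2 ⟨hs r (Finset.mem_insert_of_mem hr), hlt r hr⟩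
    have hcard := Finset.card_le_card hsub
    rw [Nat.card_Ico] at hcard
    have h2 := hs a (Finset.mem_insert_self a s)
    have ih' := ih fun r hr => hs r (Finset.mem_insert_of_mem hr)
    have key : a * (s.card + 1) ≤ (a - 1) * (s.card + 1 + 1) := by
      obtain ⟨b, rfl⟩ : ∃ b, a = b + 1 := ⟨a - 1, by omega⟩
      rw [Nat.add_sub_cancel]
      have : s.card + 1 ≤ b := by omega
      nlinarith
    calc a * ∏ r ∈ s, r ≤ a * ((∏ r ∈ s, (r - 1)) * (s.card + 1)) := Nat.mul_le_mul_left _ ih'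
      _ = a * (s.card + 1) * ∏ r ∈ s, (r - 1) := by ring
      _ ≤ (a - 1) * (s.card + 1 + 1) * ∏ r ∈ s, (r - 1) := Nat.mul_le_mul_right _ key
      _ = _ := by ring

lemma le_totient_mul (n : ℕ) : n ≤ n.totient * (n.primeFactors.card + 1) := by
  rcases Nat.eq_zero_or_pos n with h | h
  · subst h; simp
  have h1 := prod_primeFactors_le_mul_totient n.primeFactors
    fun r hr => (Nat.prime_of_mem_primeFactors hr).two_le
  have hpos : 0 < ∏ r ∈ n.primeFactors, r :=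
    Finset.prod_pos fun r hr => (Nat.prime_of_mem_primeFactors hr).pos
  apply Nat.le_of_mul_le_mul_right _ hpos
  calc n * ∏ r ∈ n.primeFactors, r
      ≤ n * ((∏ r ∈ n.primeFactors, (r - 1)) * (n.primeFactors.card + 1)) :=
        Nat.mul_le_mul_left _ h1
    _ = n.totient * (∏ r ∈ n.primeFactors, r) * (n.primeFactors.card + 1) := by
        rw [Nat.totient_mul_prod_primeFactors]; ring
    _ = _ := by ring

lemma two_pow_card_primeFactors_le {n : ℕ} (h : n ≠ 0) : 2 ^ n.primeFactors.card ≤ n := by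
  calc 2 ^ n.primeFactors.card = ∏ _r ∈ n.primeFactors, 2 := (Finset.prod_const 2).symm
    _ ≤ ∏ r ∈ n.primeFactors, r :=
        Finset.prod_le_prod' fun r hr => (Nat.prime_of_mem_primeFactors hr).two_le
    _ ≤ n := Nat.le_of_dvd (Nat.pos_of_ne_zero h) (Nat.prod_primeFactors_dvd n)

/-! The classes of exceptions. -/

/-- No prime factor exceeds Y. -/
def Exc1 (Y u : ℕ) : Prop := ∀ q ∈ u.primeFactors, q ≤ Y

/-- Divisible by the square of a prime above Y. -/
def Exc2 (Y u : ℕ) : Prop := ∃ P : ℕ, P.Prime ∧ Y < P ∧ P * P ∣ u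

/-- Two prime factors q < P with q > y, P > Y and q^(P-1) ≡ 1 mod P². -/
def Exc3 (Y y u : ℕ) : Prop := ∃ P q : ℕ, P.Prime ∧ q.Prime ∧ Y < P ∧ y < q ∧ q < P ∧
  q ^ (P - 1) % (P * P) = 1 ∧ P * q ∣ u

/-- The y-smooth part exceeds Z. -/
def Exc4 (y Z u : ℕ) : Prop :=
  Z < ∏ q ∈ u.primeFactors.filter (· ≤ y), q ^ u.factorization q

/-- More than r small prime factors. -/
def Exc5 (y r u : ℕ) : Prop := r < (u.primeFactors.filter (· ≤ y)).card

/-- A large prime factor modulo which a small prime has small order. -/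
def Exc6 (Y y M u : ℕ) : Prop := ∃ P q j : ℕ, P.Prime ∧ q.Prime ∧ Y < P ∧ q ≤ y ∧ 1 ≤ j ∧ j ≤ M ∧
  P ∣ q ^ j - 1 ∧ P ∣ u

/-- A large prime factor P with P - 1 having a large V-smooth divisor. -/
def Exc7 (Y V A u : ℕ) : Prop := ∃ P d : ℕ, P.Prime ∧ Y < P ∧ A < d ∧
  d.primeFactors ⊆ primesTo V ∧ d ∣ P - 1 ∧ P ∣ u

/-- A large prime factor P with P - 1 sharing a prime above V with u/P or with r - 1, r ∣ u. -/
def Exc8 (Y V u : ℕ) : Prop := ∃ P l : ℕ, P.Prime ∧ l.Prime ∧ Y < P ∧ V < l ∧ l ∣ P - 1 ∧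
  (P * l ∣ u ∨ ∃ r : ℕ, r.Prime ∧ l ∣ r - 1 ∧ P * r ∣ u)

/-- Every admissible u is exceptional. -/
theorem exceptional_of_order {u L eY m v eW eZ r0 : ℕ} (hu : u ≠ 0) (huL : u < 2 ^ (L + 1))
    (heY : m ≤ eY) (hLY : 4 * (2 * L + 8) < 2 ^ eY) (hm : 1 ≤ m) (hv : 1 ≤ v)
    (hWZ : 4 * eZ * 2 ^ r0 ≤ eW) (hord : IsCirculantHadamardOrder (4 * u ^ 2)) :
    Exc1 (2 ^ eY) u ∨ Exc2 (2 ^ eY) u ∨ Exc3 (2 ^ eY) (2 ^ m) u ∨ Exc4 (2 ^ m) (2 ^ eZ) u ∨
      Exc5 (2 ^ m) r0 u ∨ Exc6 (2 ^ eY) (2 ^ m) (2 ^ (2 * eW)) u ∨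
      Exc7 (2 ^ eY) (2 ^ v) (2 ^ eW) u ∨ Exc8 (2 ^ eY) (2 ^ v) u := by
  classical
  by_contra hne
  simp only [not_or] at hne
  obtain ⟨h1, h2, h3, h4, h5, h6, h7, h8⟩ := hne
  simp only [Exc1, not_forall, not_le] at h1
  obtain ⟨q0, hq0, hq0Y⟩ := h1
  have hne' : u.primeFactors.Nonempty := ⟨q0, hq0⟩
  set P := u.primeFactors.max' hne' with hPdef
  have hPmem : P ∈ u.primeFactors := Finset.max'_mem _ _
  obtain ⟨hP, hPu, -⟩ := Nat.mem_primeFactors.1 hPmem
  have hmax : ∀ q ∈ u.primeFactors, q ≤ P := fun q hq => Finset.le_max' _ q hq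
  have hPY : 2 ^ eY < P := lt_of_lt_of_le hq0Y (hmax q0 hq0)
  have hy2 : 2 ≤ 2 ^ m := Nat.le_self_pow (by omega) 2
  have hyY : 2 ^ m ≤ 2 ^ eY := Nat.pow_le_pow_right two_pos heY
  have : Fact P.Prime := ⟨hP⟩
  have hP2 : ¬P * P ∣ u := fun h => h2 ⟨P, hP, hPY, h⟩
  have hbig : 4 * (4 * u ^ 2) < P * (4 * u ^ 2).totient := by
    set n := 4 * u ^ 2 with hn
    have hn0 : n ≠ 0 := by positivity
    have hω : n.primeFactors.card + 1 ≤ 2 * L + 8 := by
      have h := two_pow_card_primeFactors_le hn0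
      have h2 : n < 2 ^ (2 * (L + 1) + 2) := by
        rw [pow_add, pow_mul', hn]
        have : u ^ 2 < (2 ^ (L + 1)) ^ 2 := Nat.pow_lt_pow_left huL two_ne_zero
        omega
      have := (Nat.pow_lt_pow_iff_right (le_refl 2)).1 (lt_of_le_of_lt h h2)
      omega
    have hφ : 0 < n.totient := Nat.totient_pos.2 (Nat.pos_of_ne_zero hn0)
    calc 4 * n ≤ 4 * (n.totient * (n.primeFactors.card + 1)) :=
          Nat.mul_le_mul_left _ (le_totient_mul n)
      _ ≤ 4 * (n.totient * (2 * L + 8)) := Nat.mul_le_mul_left _ (Nat.mul_le_mul_left _ hω)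
      _ = (4 * (2 * L + 8)) * n.totient := by ring
      _ < P * n.totient := (Nat.mul_lt_mul_right hφ).2 (lt_trans hLY hPY)
  refine not_order_of_criterion (u := u) (P := P) (y := 2 ^ m) (W := 2 ^ eW) (A := 2 ^ eW) hu hP hPu
    hP2 hmax hy2 (lt_of_le_of_lt hyY hPY) hbig ?_ ?_ ?_ ?_ hord
  · intro q hq hqy hqP hw
    obtain ⟨hqp, hqu, -⟩ := Nat.mem_primeFactors.1 hq
    refine h3 ⟨P, q, hP, hqp, hPY, hqy, lt_of_le_of_ne (hmax q hq) hqP, hw, ?_⟩
    exact Nat.Coprime.mul_dvd_of_dvd_of_dvd ((Nat.coprime_primes hP hqp).2 (Ne.symm hqP)) hPu hqu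
  · intro q hq hqy
    obtain ⟨hqp, hqu, -⟩ := Nat.mem_primeFactors.1 hq
    by_contra hle
    have hqP : q < P := lt_of_le_of_lt (le_trans hqy hyY) hPY
    have hq0' : (q : ZMod P) ≠ 0 := by
      rw [Ne, ZMod.natCast_eq_zero_iff]
      exact fun h => absurd (Nat.le_of_dvd hqp.pos h) (not_le.2 hqP)
    refine h6 ⟨P, q, orderOf (q : ZMod P), hP, hqp, hPY, hqy, ?_, ?_, ?_, hPu⟩
    · refine orderOf_pos_iff.2 (isOfFinOrder_iff_pow_eq_one.2 ⟨P - 1, ?_, ZMod.pow_card_sub_one_eq_one hq0'⟩)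
      have := hP.two_le; omega
    · rw [two_mul, pow_add]; omega
    · rw [← ZMod.natCast_eq_zero_iff, Nat.cast_sub (Nat.one_le_pow _ _ hqp.pos), Nat.cast_pow,
        pow_orderOf_eq_one, Nat.cast_one, sub_self]
  · by_contra hgt
    have hV2 : 2 ≤ 2 ^ v := Nat.le_self_pow (by omega) 2
    refine h7 ⟨P, _, hP, hPY, Nat.lt_of_not_le hgt, ?_, Nat.gcd_dvd_left _ _, hPu⟩
    intro l hl
    obtain ⟨hlp, hld, -⟩ := Nat.mem_primeFactors.1 hl
    rw [mem_primesTo]
    refine ⟨?_, hlp⟩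
    by_contra hlV
    have hlP : l ∣ P - 1 := hld.trans (Nat.gcd_dvd_left _ _)
    have hlM : l ∣ (4 * (u / P) ^ 2).totient := hld.trans (Nat.gcd_dvd_right _ _)
    set w := u / P with hw
    have huw : u = P * w := (Nat.mul_div_cancel' hPu).symm
    have hl' : l ∣ 4 * w ^ 2 * ∏ r ∈ (4 * w ^ 2).primeFactors, (r - 1) := by
      rw [← Nat.totient_mul_prod_primeFactors]; exact dvd_mul_of_dvd_left hlM _
    have h24 : ∀ r : ℕ, r.Prime → r ∣ 4 * w ^ 2 → r = 2 ∨ r ∣ w := by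
      intro r hr hd
      rcases hr.dvd_mul.1 hd with h | h
      · left
        have : r ∣ 2 ^ 2 := h
        exact (Nat.prime_dvd_prime_iff_eq hr Nat.prime_two).1 (hr.dvd_of_dvd_pow this)
      · exact Or.inr (hr.dvd_of_dvd_pow h)
    rcases hlp.dvd_mul.1 hl' with h | h
    · rcases h24 l hlp h with h' | h'
      · omega
      · exact h8 ⟨P, l, hP, hlp, hPY, Nat.lt_of_not_le hlV, hlP, Or.inl (huw ▸ Nat.mul_dvd_mul_left P h')⟩
    · obtain ⟨r, hr, hd⟩ := hlp.prime.exists_mem_finset_dvd h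
      obtain ⟨hrp, hrd, -⟩ := Nat.mem_primeFactors.1 hr
      rcases h24 r hrp hrd with h' | h'
      · subst h'
        have := Nat.le_of_dvd one_pos hd
        omega
      · exact h8 ⟨P, l, hP, hlp, hPY, Nat.lt_of_not_le hlV, hlP,
          Or.inr ⟨r, hrp, hd, huw ▸ Nat.mul_dvd_mul_left P h'⟩⟩
  · simp only [Exc4, not_lt] at h4
    simp only [Exc5, not_lt] at h5
    calc _ ≤ ((2 ^ eZ) ^ 4) ^ 2 ^ (u.primeFactors.filter (· ≤ 2 ^ m)).card :=
          Nat.pow_le_pow_left (Nat.pow_le_pow_left h4 4) _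
      _ ≤ ((2 ^ eZ) ^ 4) ^ 2 ^ r0 :=
          Nat.pow_le_pow_right (by positivity) (Nat.pow_le_pow_right two_pos h5)
      _ = 2 ^ (4 * eZ * 2 ^ r0) := by rw [← pow_mul, ← pow_mul]; ring_nf
      _ ≤ _ := Nat.pow_le_pow_right two_pos hWZ

/-! Counting. -/

lemma log_prod_smooth {u : ℕ} (N : ℕ) :
    ∑ q ∈ primesTo N, (u.factorization q : ℝ) * Real.log q =
      Real.log ((∏ q ∈ u.primeFactors.filter (· ≤ N), q ^ u.factorization q : ℕ) : ℝ) := by
  rw [Nat.cast_prod, Real.log_prod]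
  · have e : ∀ q : ℕ, Real.log ((q ^ u.factorization q : ℕ) : ℝ) = (u.factorization q : ℝ) * Real.log q := by
      intro q; rw [Nat.cast_pow, Real.log_pow]
    simp only [e]
    refine (Finset.sum_subset ?_ ?_).symm
    · intro q hq
      obtain ⟨h1, h2⟩ := Finset.mem_filter.1 hq
      exact mem_primesTo.2 ⟨h2, Nat.prime_of_mem_primeFactors h1⟩
    · intro q hq hn
      obtain ⟨hqN, -⟩ := mem_primesTo.1 hq
      have : q ∉ u.primeFactors := fun h => hn (Finset.mem_filter.2 ⟨h, hqN⟩)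
      rw [← Nat.support_factorization, Finsupp.notMem_support_iff] at this
      simp [this]
  · intro q hq
    have := (Nat.prime_of_mem_primeFactors (Finset.mem_filter.1 hq).1).pos
    positivity

lemma sum_log_smooth_le (x e : ℕ) :
    ∑ u ∈ Icc 1 x, ∑ q ∈ primesTo (2 ^ e), (u.factorization q : ℝ) * Real.log q ≤
      x * (2 * (e * Real.log 2) * (16 * (1 + Real.log e))) := by
  rw [Finset.sum_comm]
  have hq : ∀ q ∈ primesTo (2 ^ e), ∑ u ∈ Icc 1 x, (u.factorization q : ℝ) * Real.log q ≤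
      (x : ℝ) * (2 * (e * Real.log 2) * (q : ℝ)⁻¹) := by
    intro q hq
    obtain ⟨hqe, hqp⟩ := mem_primesTo.1 hq
    have : Fact q.Prime := ⟨hqp⟩
    have h1 : ∑ u ∈ Icc 1 x, u.factorization q = (Nat.factorial x).factorization q := by
      rw [← Finset.prod_Ico_id_eq_factorial, Finset.Ico_add_one_right_eq_Icc,
        Nat.factorization_prod (fun u hu => by have := (Finset.mem_Icc.1 hu).1; omega),
        Finsupp.finsetSum_apply]
    have h2 : (q - 1) * (Nat.factorial x).factorization q ≤ x := by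
      rw [Nat.factorization_def _ hqp, sub_one_mul_padicValNat_factorial]
      exact Nat.sub_le _ _
    have h3 : q * (Nat.factorial x).factorization q ≤ 2 * x := by
      have h4 : q ≤ 2 * (q - 1) := by have := hqp.two_le; omega
      calc q * (Nat.factorial x).factorization q ≤ 2 * (q - 1) * (Nat.factorial x).factorization q :=
            Nat.mul_le_mul_right _ h4
        _ ≤ 2 * x := by rw [mul_assoc]; exact Nat.mul_le_mul_left _ h2
    rw [← Finset.sum_mul, ← Nat.cast_sum, h1]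
    have hl0 : 0 ≤ Real.log q := Real.log_nonneg (by exact_mod_cast hqp.one_lt.le)
    have hl1 : Real.log q ≤ e * Real.log 2 := by
      rw [← Real.log_pow]
      exact Real.log_le_log (by exact_mod_cast hqp.pos) (by exact_mod_cast hqe)
    have hq0 : (0 : ℝ) < q := by exact_mod_cast hqp.pos
    have h5 : ((Nat.factorial x).factorization q : ℝ) ≤ 2 * x * (q : ℝ)⁻¹ := by
      rw [← div_eq_mul_inv, le_div_iff₀ hq0, mul_comm]
      exact_mod_cast h3
    calc _ ≤ 2 * (x : ℝ) * (q : ℝ)⁻¹ * (e * Real.log 2) :=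
          mul_le_mul h5 hl1 hl0 (by positivity)
      _ = _ := by ring
  refine (Finset.sum_le_sum hq).trans ?_
  rw [← Finset.mul_sum, ← Finset.mul_sum]
  exact mul_le_mul_of_nonneg_left (mul_le_mul_of_nonneg_left (sum_inv_primesTo_two_pow e)
    (by have := Real.log_pos one_lt_two; positivity)) (by positivity)

open Classical in
lemma card_exc1_le (x L e : ℕ) (hL : 1 ≤ L) (hxL : 2 ^ L ≤ x) :
    (((Icc 1 x).filter (Exc1 (2 ^ e))).card : ℝ) ≤
      Real.sqrt x + x * (4 * e * (16 * (1 + Real.log e)) / L) := by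
  set B := (Icc 1 x).filter (Exc1 (2 ^ e))
  rw [← Finset.card_filter_add_card_filter_not (s := B) (p := fun u => u ≤ Nat.sqrt x), Nat.cast_add]
  refine add_le_add ?_ ?_
  · calc ((B.filter fun u => u ≤ Nat.sqrt x).card : ℝ) ≤ ((Icc 1 (Nat.sqrt x)).card : ℝ) := by
          refine Nat.cast_le.2 (Finset.card_le_card fun u hu => ?_)
          obtain ⟨h1, h2⟩ := Finset.mem_filter.1 hu
          exact Finset.mem_Icc.2 ⟨(Finset.mem_Icc.1 (Finset.mem_filter.1 h1).1).1, h2⟩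
      _ ≤ _ := by rw [Nat.card_Icc, Nat.add_sub_cancel]; exact Real.nat_sqrt_le_real_sqrt
  · set B' := B.filter fun u => ¬u ≤ Nat.sqrt x
    have hlow : ∀ u ∈ B', (L : ℝ) * Real.log 2 / 2 ≤
        ∑ q ∈ primesTo (2 ^ e), (u.factorization q : ℝ) * Real.log q := by
      intro u hu
      obtain ⟨h1, h2⟩ := Finset.mem_filter.1 hu
      obtain ⟨h3, h4⟩ := Finset.mem_filter.1 h1
      have hu0 : u ≠ 0 := by have := (Finset.mem_Icc.1 h3).1; omega
      rw [log_prod_smooth]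
      have e1 : u.primeFactors.filter (· ≤ 2 ^ e) = u.primeFactors := Finset.filter_true_of_mem h4
      rw [e1, ← Nat.prod_factorization_eq_prod_primeFactors, Nat.prod_factorization_pow_eq_self hu0]
      have h5 : x < u * u := Nat.sqrt_lt.1 (Nat.lt_of_not_le h2)
      have h6 : Real.log x ≤ 2 * Real.log u := by
        rw [← Real.log_rpow (by exact_mod_cast Nat.pos_of_ne_zero hu0)]
        refine Real.log_le_log (by exact_mod_cast (lt_of_lt_of_le (Nat.two_pow_pos L) hxL)) ?_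
        rw [show (2 : ℝ) = ((2 : ℕ) : ℝ) by norm_num, Real.rpow_natCast, sq]
        exact_mod_cast h5.le
      have h7 : (L : ℝ) * Real.log 2 ≤ Real.log x := by
        rw [← Real.log_pow]
        exact Real.log_le_log (by positivity) (by exact_mod_cast hxL)
      linarith
    have h := Finset.card_nsmul_le_sum B' _ _ hlow
    rw [nsmul_eq_mul] at h
    have h2 : ∑ u ∈ B', ∑ q ∈ primesTo (2 ^ e), (u.factorization q : ℝ) * Real.log q ≤
        x * (2 * (e * Real.log 2) * (16 * (1 + Real.log e))) := by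
      refine le_trans (Finset.sum_le_sum_of_subset_of_nonneg ?_ ?_) (sum_log_smooth_le x e)
      · exact (Finset.filter_subset _ _).trans (Finset.filter_subset _ _)
      · intro u _ _
        exact Finset.sum_nonneg fun q hq => mul_nonneg (Nat.cast_nonneg _)
          (Real.log_nonneg (by exact_mod_cast (mem_primesTo.1 hq).2.one_lt.le))
    have hl := Real.log_pos one_lt_two
    have hL' : (1 : ℝ) ≤ L := by exact_mod_cast hL
    have h3 := h.trans h2
    rw [← mul_div_assoc, le_div_iff₀ (by linarith)]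
    apply le_of_mul_le_mul_right _ hl
    nlinarith

open Classical in
lemma card_exc2_le (x Y : ℕ) (hY : 1 ≤ Y) :
    (((Icc 1 x).filter (Exc2 Y)).card : ℝ) ≤ x * (Y : ℝ)⁻¹ := by
  refine (card_exists_dvd_le ((Icc 1 x).filter fun P => P.Prime ∧ Y < P) (fun P => P * P) x _ ?_).trans ?_
  · intro u hu
    obtain ⟨hu1, P, hP, hPY, hd⟩ := Finset.mem_filter.1 hu
    obtain ⟨h1, h2⟩ := Finset.mem_Icc.1 hu1
    refine ⟨h1, h2, P, Finset.mem_filter.2 ⟨Finset.mem_Icc.2 ⟨hP.pos, ?_⟩, hP, hPY⟩, hd⟩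
    exact le_trans (le_trans (Nat.le_mul_self P) (Nat.le_of_dvd (by omega) hd)) h2
  · refine mul_le_mul_of_nonneg_left ?_ (by positivity)
    push_cast
    refine sum_inv_sq_Ioc_le (x := x) hY _ fun P hP => ?_
    obtain ⟨h1, -, h2⟩ := Finset.mem_filter.1 hP
    exact ⟨h2, (Finset.mem_Icc.1 h1).2⟩

lemma sum_inv_le_log {x : ℕ} (S : Finset ℕ) (hS : ∀ P ∈ S, 1 ≤ P ∧ P ≤ x) :
    ∑ P ∈ S, (P : ℝ)⁻¹ ≤ 1 + Real.log x :=
  le_trans (Finset.sum_le_sum_of_subset_of_nonneg (fun P hP => Finset.mem_Icc.2 (hS P hP))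
    (fun i _ _ => by positivity)) (sum_inv_Icc_le x)

open Classical in
lemma card_exc3_le (x L eY m : ℕ) (hx : x < 2 ^ (L + 1)) (he : 10 ≤ eY) :
    (((Icc 1 x).filter (Exc3 (2 ^ eY) (2 ^ m))).card : ℝ) ≤
      x * ((1 + Real.log x) * (20 * ((L : ℝ) + 2) ^ 2 / 2 ^ (m / 4))) := by
  set I := ((Icc 1 x).filter fun P => P.Prime ∧ 2 ^ eY < P).sigma fun P => (Icc 1 x).filter fun q =>
    q.Prime ∧ 2 ^ m < q ∧ q < P ∧ q ^ (P - 1) % (P * P) = 1
  refine (card_exists_dvd_le I (fun a => a.1 * a.2) x _ ?_).trans ?_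
  · intro u hu
    obtain ⟨hu1, P, q, hP, hq, hPY, hqy, hqP, hw, hd⟩ := Finset.mem_filter.1 hu
    obtain ⟨h1, h2⟩ := Finset.mem_Icc.1 hu1
    have hPx : P ≤ x := le_trans (le_trans (Nat.le_mul_of_pos_right P hq.pos)
      (Nat.le_of_dvd (by omega) hd)) h2
    refine ⟨h1, h2, ⟨P, q⟩, ?_, hd⟩
    simp only [I, Finset.mem_sigma, Finset.mem_filter, Finset.mem_Icc]
    exact ⟨⟨⟨hP.pos, hPx⟩, hP, hPY⟩, ⟨hq.pos, le_trans hqP.le hPx⟩, hq, hqy, hqP, hw⟩
  · refine mul_le_mul_of_nonneg_left ?_ (by positivity)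
    simp only [I, Finset.sum_sigma]
    have hK : ∀ P ∈ (Icc 1 x).filter (fun P => P.Prime ∧ 2 ^ eY < P),
        ∑ q ∈ (Icc 1 x).filter (fun q => q.Prime ∧ 2 ^ m < q ∧ q < P ∧ q ^ (P - 1) % (P * P) = 1),
          ((P * q : ℕ) : ℝ)⁻¹ ≤ (P : ℝ)⁻¹ * (20 * ((L : ℝ) + 2) ^ 2 / 2 ^ (m / 4)) := by
      intro P hP
      obtain ⟨h1, hPp, hPY⟩ := Finset.mem_filter.1 hP
      push_cast
      simp only [mul_inv, ← Finset.mul_sum]
      refine mul_le_mul_of_nonneg_left (sum_inv_wieferich_le hPp ?_ ?_ _ ?_) (by positivity)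
      · exact le_trans (Nat.pow_le_pow_right two_pos he) hPY.le
      · exact lt_of_le_of_lt (Finset.mem_Icc.1 h1).2 hx
      · exact fun q hq => (Finset.mem_filter.1 hq).2
    refine (Finset.sum_le_sum hK).trans ?_
    rw [← Finset.sum_mul]
    refine mul_le_mul_of_nonneg_right (sum_inv_le_log _ fun P hP => ?_) (by positivity)
    exact Finset.mem_Icc.1 (Finset.mem_filter.1 hP).1

open Classical in
lemma card_exc4_le (x m eZ : ℕ) (hZ : 1 ≤ eZ) :
    (((Icc 1 x).filter (Exc4 (2 ^ m) (2 ^ eZ))).card : ℝ) ≤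
      x * (2 * m * (16 * (1 + Real.log m)) / eZ) := by
  have hlow : ∀ u ∈ (Icc 1 x).filter (Exc4 (2 ^ m) (2 ^ eZ)), (eZ : ℝ) * Real.log 2 ≤
      ∑ q ∈ primesTo (2 ^ m), (u.factorization q : ℝ) * Real.log q := by
    intro u hu
    have h := (Finset.mem_filter.1 hu).2
    rw [log_prod_smooth, ← Real.log_pow]
    exact Real.log_le_log (by positivity) (by exact_mod_cast h.le)
  have h := Finset.card_nsmul_le_sum _ _ _ hlow
  rw [nsmul_eq_mul] at h
  have h2 := (Finset.sum_le_sum_of_subset_of_nonneg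
    (Finset.filter_subset (Exc4 (2 ^ m) (2 ^ eZ)) (Icc 1 x))
    (fun u _ _ => Finset.sum_nonneg fun q hq => mul_nonneg (Nat.cast_nonneg _)
      (Real.log_nonneg (by exact_mod_cast (mem_primesTo.1 hq).2.one_lt.le)))).trans (sum_log_smooth_le x m)
  have h3 := h.trans h2
  have hl := Real.log_pos one_lt_two
  have hZ' : (1 : ℝ) ≤ eZ := by exact_mod_cast hZ
  rw [← mul_div_assoc, le_div_iff₀ (by linarith)]
  apply le_of_mul_le_mul_right _ hl
  nlinarith

open Classical in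
lemma card_exc5_le (x m r : ℕ) (hr : 1 ≤ r) :
    (((Icc 1 x).filter (Exc5 (2 ^ m) r)).card : ℝ) ≤ x * (16 * (1 + Real.log m) / r) := by
  set B := (Icc 1 x).filter (Exc5 (2 ^ m) r)
  have h1 : r * B.card ≤ ∑ u ∈ Icc 1 x, ((primesTo (2 ^ m)).filter fun q => q ∣ u).card := by
    calc r * B.card = ∑ _u ∈ B, r := by rw [Finset.sum_const, smul_eq_mul, mul_comm]
      _ ≤ ∑ u ∈ B, ((primesTo (2 ^ m)).filter fun q => q ∣ u).card := by
          refine Finset.sum_le_sum fun u hu => ?_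
          refine le_trans (Finset.mem_filter.1 hu).2.le (Finset.card_le_card fun q hq => ?_)
          obtain ⟨h1, h2⟩ := Finset.mem_filter.1 hq
          exact Finset.mem_filter.2 ⟨mem_primesTo.2 ⟨h2, Nat.prime_of_mem_primeFactors h1⟩,
            Nat.dvd_of_mem_primeFactors h1⟩
      _ ≤ _ := Finset.sum_le_sum_of_subset (Finset.filter_subset _ _)
  have h2 : ∑ u ∈ Icc 1 x, ((primesTo (2 ^ m)).filter fun q => q ∣ u).card =
      ∑ q ∈ primesTo (2 ^ m), x / q := by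
    simp only [Finset.card_filter]
    rw [Finset.sum_comm]
    refine Finset.sum_congr rfl fun q _ => ?_
    rw [← Finset.card_filter, show Icc 1 x = Ioc 0 x from rfl, Nat.Ioc_filter_dvd_card_eq_div]
  have h3 : ((r * B.card : ℕ) : ℝ) ≤ x * (16 * (1 + Real.log m)) := by
    calc ((r * B.card : ℕ) : ℝ) ≤ ((∑ q ∈ primesTo (2 ^ m), x / q : ℕ) : ℝ) := by
          exact_mod_cast h2 ▸ h1
      _ ≤ ∑ q ∈ primesTo (2 ^ m), (x : ℝ) / q := by
          push_cast; exact Finset.sum_le_sum fun q _ => Nat.cast_div_le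
      _ ≤ _ := by
          simp only [div_eq_mul_inv, ← Finset.mul_sum]
          exact mul_le_mul_of_nonneg_left (sum_inv_primesTo_two_pow m) (by positivity)
  push_cast at h3
  have hr' : (1 : ℝ) ≤ r := by exact_mod_cast hr
  rw [← mul_div_assoc, le_div_iff₀ (by linarith)]
  linarith

open Classical in
lemma card_exc6_le (x Y m M : ℕ) (hY : 1 ≤ Y) :
    (((Icc 1 x).filter (Exc6 Y (2 ^ m) M)).card : ℝ) ≤
      x * (((2 : ℝ) ^ m * 2 ^ m * M * M) / Y) := by
  set I := (primesTo (2 ^ m)).sigma fun q => (Icc 1 M).sigma fun j =>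
    (q ^ j - 1).primeFactors.filter fun P => Y < P
  refine (card_exists_dvd_le I (fun a => a.2.2) x _ ?_).trans ?_
  · intro u hu
    obtain ⟨hu1, P, q, j, hP, hq, hPY, hqy, hj1, hj2, hd, hPu⟩ := Finset.mem_filter.1 hu
    obtain ⟨h1, h2⟩ := Finset.mem_Icc.1 hu1
    refine ⟨h1, h2, ⟨q, j, P⟩, ?_, hPu⟩
    simp only [I, Finset.mem_sigma, Finset.mem_filter, Finset.mem_Icc, mem_primesTo, Nat.mem_primeFactors]
    have : 1 < q ^ j := Nat.one_lt_pow (by omega) hq.one_lt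
    exact ⟨⟨hqy, hq⟩, ⟨hj1, hj2⟩, ⟨hP, hd, by omega⟩, hPY⟩
  · refine mul_le_mul_of_nonneg_left ?_ (by positivity)
    simp only [I, Finset.sum_sigma]
    have hYp : (0 : ℝ) < Y := by exact_mod_cast hY
    calc ∑ q ∈ primesTo (2 ^ m), ∑ j ∈ Icc 1 M,
          ∑ P ∈ (q ^ j - 1).primeFactors.filter (fun P => Y < P), (P : ℝ)⁻¹
        ≤ ∑ q ∈ primesTo (2 ^ m), ∑ j ∈ Icc 1 M, ((M : ℝ) * 2 ^ m) / Y := by
          refine Finset.sum_le_sum fun q hq => Finset.sum_le_sum fun j hj => ?_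
          refine le_trans (Finset.sum_le_card_nsmul _ _ ((Y : ℝ))⁻¹ fun P hP => ?_) ?_
          · exact inv_anti₀ hYp (by exact_mod_cast (Finset.mem_filter.1 hP).2.le)
          · rw [nsmul_eq_mul, ← div_eq_mul_inv]
            refine div_le_div_of_nonneg_right ?_ hYp.le
            obtain ⟨hqe, hqp⟩ := mem_primesTo.1 hq
            obtain ⟨hj1, hj2⟩ := Finset.mem_Icc.1 hj
            have h1 : 1 < q ^ j := Nat.one_lt_pow (by omega) hqp.one_lt
            have h2 := two_pow_card_primeFactors_le (show q ^ j - 1 ≠ 0 by omega)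
            have h3 : q ^ j ≤ 2 ^ (m * j) := by rw [pow_mul]; exact Nat.pow_le_pow_left hqe j
            have h4 := (Nat.pow_le_pow_iff_right (le_refl 2)).1 (le_trans h2 (le_trans (Nat.sub_le _ _) h3))
            have h5 : ((q ^ j - 1).primeFactors.filter (fun P => Y < P)).card ≤ M * 2 ^ m := by
              refine le_trans (Finset.card_filter_le _ _) (le_trans h4 ?_)
              rw [mul_comm M]
              exact Nat.mul_le_mul Nat.lt_two_pow_self.le hj2
            exact_mod_cast h5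
      _ ≤ _ := by
          simp only [Finset.sum_const, Nat.card_Icc, Nat.add_sub_cancel, nsmul_eq_mul]
          rw [← mul_div_assoc, ← mul_div_assoc]
          refine div_le_div_of_nonneg_right ?_ hYp.le
          have hc : ((primesTo (2 ^ m)).card : ℝ) ≤ 2 ^ m := by
            have : (primesTo (2 ^ m)).card ≤ (Icc 1 (2 ^ m)).card := Finset.card_filter_le _ _
            rw [Nat.card_Icc, Nat.add_sub_cancel] at this
            exact_mod_cast this
          calc ((primesTo (2 ^ m)).card : ℝ) * ((M : ℝ) * ((M : ℝ) * 2 ^ m))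
              ≤ 2 ^ m * ((M : ℝ) * ((M : ℝ) * 2 ^ m)) := mul_le_mul_of_nonneg_right hc (by positivity)
            _ = _ := by ring

open Classical in
lemma card_exc7_le (x Y v eW : ℕ) (hv : 2 ≤ v) :
    (((Icc 1 x).filter (Exc7 Y (2 ^ v) (2 ^ eW))).card : ℝ) ≤
      x * ((1 + Real.log x) * ((((2 : ℝ) ^ eW) ^ ((1 : ℝ) / v))⁻¹ * Real.exp (128 * (1 + Real.log v)))) := by
  set D := (Icc 1 x).filter fun d => d.primeFactors ⊆ primesTo (2 ^ v) ∧ 2 ^ eW < d
  set I := D.sigma fun d => (Icc 1 x).filter fun P => 2 ≤ P ∧ d ∣ P - 1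
  refine (card_exists_dvd_le I (fun a => a.2) x _ ?_).trans ?_
  · intro u hu
    obtain ⟨hu1, P, d, hP, -, hd1, hd2, hd3, hPu⟩ := Finset.mem_filter.1 hu
    obtain ⟨h1, h2⟩ := Finset.mem_Icc.1 hu1
    refine ⟨h1, h2, ⟨d, P⟩, ?_, hPu⟩
    have hPx : P ≤ x := le_trans (Nat.le_of_dvd (by omega) hPu) h2
    have hdP : d ≤ P - 1 := Nat.le_of_dvd (by have := hP.two_le; omega) hd3
    simp only [I, D, Finset.mem_sigma, Finset.mem_filter, Finset.mem_Icc]
    exact ⟨⟨⟨Nat.one_le_of_lt hd1, by omega⟩, hd2, hd1⟩, ⟨hP.pos, hPx⟩, hP.two_le, hd3⟩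
  · refine mul_le_mul_of_nonneg_left ?_ (by positivity)
    simp only [I, Finset.sum_sigma]
    have hK : ∀ d ∈ D, ∑ P ∈ (Icc 1 x).filter (fun P => 2 ≤ P ∧ d ∣ P - 1), (P : ℝ)⁻¹ ≤
        (1 + Real.log x) * (d : ℝ)⁻¹ := by
      intro d hd
      rw [← div_eq_mul_inv]
      refine sum_inv_one_mod_le (Finset.mem_Icc.1 (Finset.mem_filter.1 hd).1).1 _ fun P hP => ?_
      obtain ⟨h1, h2, h3⟩ := Finset.mem_filter.1 hP
      exact ⟨h2, (Finset.mem_Icc.1 h1).2, h3⟩
    refine (Finset.sum_le_sum hK).trans ?_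
    rw [← Finset.mul_sum]
    refine mul_le_mul_of_nonneg_left ?_ (by have := Real.log_natCast_nonneg x; linarith)
    have h := sum_inv_smooth_le (B := x) hv (Nat.one_le_two_pow (n := eW))
    push_cast at h
    exact h

open Classical in
lemma card_exc8_le (x Y V : ℕ) (hV : 1 ≤ V) :
    (((Icc 1 x).filter (Exc8 Y V)).card : ℝ) ≤ x * ((2 + Real.log x) ^ 2 / V) := by
  set A : ℕ → Finset ℕ := fun l => (Icc 1 x).filter fun P => 2 ≤ P ∧ l ∣ P - 1
  set I := ((Icc 1 x).filter fun l => V < l).sigma fun l => A l ×ˢ (insert l (A l))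
  refine (card_exists_dvd_le I (fun a => a.2.1 * a.2.2) x _ ?_).trans ?_
  · intro u hu
    obtain ⟨hu1, P, l, hP, hl, -, hlV, hlP, h⟩ := Finset.mem_filter.1 hu
    obtain ⟨h1, h2⟩ := Finset.mem_Icc.1 hu1
    have hlP' : l ≤ P - 1 := Nat.le_of_dvd (by have := hP.two_le; omega) hlP
    rcases h with hd | ⟨r, hr, hlr, hd⟩
    · have hPx : P ≤ x := le_trans (le_trans (Nat.le_mul_of_pos_right P hl.pos)
        (Nat.le_of_dvd (by omega) hd)) h2
      refine ⟨h1, h2, ⟨l, P, l⟩, ?_, hd⟩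
      simp only [I, A, Finset.mem_sigma, Finset.mem_filter, Finset.mem_Icc, Finset.mem_product,
        Finset.mem_insert]
      exact ⟨⟨⟨hl.pos, by omega⟩, hlV⟩, ⟨⟨hP.pos, hPx⟩, hP.two_le, hlP⟩, Or.inl trivial⟩
    · have hPr := le_trans (Nat.le_of_dvd (by omega) hd) h2
      have hPx : P ≤ x := le_trans (Nat.le_mul_of_pos_right P hr.pos) hPr
      have hrx : r ≤ x := le_trans (Nat.le_mul_of_pos_left r hP.pos) hPr
      refine ⟨h1, h2, ⟨l, P, r⟩, ?_, hd⟩
      simp only [I, A, Finset.mem_sigma, Finset.mem_filter, Finset.mem_Icc, Finset.mem_product,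
        Finset.mem_insert]
      exact ⟨⟨⟨hl.pos, by omega⟩, hlV⟩, ⟨⟨hP.pos, hPx⟩, hP.two_le, hlP⟩,
        Or.inr ⟨⟨hr.pos, hrx⟩, hr.two_le, hlr⟩⟩
  · refine mul_le_mul_of_nonneg_left ?_ (by positivity)
    simp only [I, Finset.sum_sigma]
    have hlog := Real.log_natCast_nonneg x
    have hK : ∀ l ∈ (Icc 1 x).filter (fun l => V < l),
        ∑ a ∈ A l ×ˢ insert l (A l), ((a.1 * a.2 : ℕ) : ℝ)⁻¹ ≤
          (2 + Real.log x) ^ 2 * ((l : ℝ) * l)⁻¹ := by
      intro l hl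
      have hl1 := (Finset.mem_Icc.1 (Finset.mem_filter.1 hl).1).1
      have hA : ∑ P ∈ A l, (P : ℝ)⁻¹ ≤ (1 + Real.log x) * (l : ℝ)⁻¹ := by
        rw [← div_eq_mul_inv]
        refine sum_inv_one_mod_le hl1 _ fun P hP => ?_
        obtain ⟨h1, h2, h3⟩ := Finset.mem_filter.1 hP
        exact ⟨h2, (Finset.mem_Icc.1 h1).2, h3⟩
      have hB : ∑ r ∈ insert l (A l), (r : ℝ)⁻¹ ≤ (2 + Real.log x) * (l : ℝ)⁻¹ := by
        have hnot : l ∉ A l := by
          intro h
          obtain ⟨-, h2, h3⟩ := Finset.mem_filter.1 h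
          have := Nat.le_of_dvd (by omega) h3
          omega
        rw [Finset.sum_insert hnot]
        linarith
      simp only [Nat.cast_mul, mul_inv]
      rw [Finset.sum_product]
      simp only []
      rw [← Finset.sum_mul_sum]
      calc _ ≤ (1 + Real.log x) * (l : ℝ)⁻¹ * ((2 + Real.log x) * (l : ℝ)⁻¹) :=
            mul_le_mul hA hB (Finset.sum_nonneg fun i _ => by positivity) (by positivity)
        _ ≤ (2 + Real.log x) * (l : ℝ)⁻¹ * ((2 + Real.log x) * (l : ℝ)⁻¹) :=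
            mul_le_mul_of_nonneg_right
              (mul_le_mul_of_nonneg_right (by linarith) (by positivity)) (by positivity)
        _ = _ := by ring
    refine (Finset.sum_le_sum hK).trans ?_
    rw [← Finset.mul_sum, div_eq_mul_inv]
    refine mul_le_mul_of_nonneg_left (sum_inv_sq_Ioc_le (x := x) hV _ fun l hl => ?_) (by positivity)
    exact ⟨(Finset.mem_filter.1 hl).2, (Finset.mem_Icc.1 (Finset.mem_filter.1 hl).1).2⟩

open Classical in
/-- The number of admissible u up to x. -/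
theorem card_orderRoots_le {x L m v eW eZ r0 : ℕ} (hL : 1 ≤ L) (hxL : 2 ^ L ≤ x)
    (hxL' : x < 2 ^ (L + 1)) (hm : 1 ≤ m) (hmY : m ≤ 5 * eW) (hY : 10 ≤ 5 * eW)
    (hLY : 4 * (2 * L + 8) < 2 ^ (5 * eW)) (hv : 2 ≤ v) (hZ : 1 ≤ eZ) (hr : 1 ≤ r0)
    (hWZ : 4 * eZ * 2 ^ r0 ≤ eW) :
    ((orderRoots x).card : ℝ) ≤ Real.sqrt x + x * (
      4 * ((5 * eW : ℕ) : ℝ) * (16 * (1 + Real.log ((5 * eW : ℕ) : ℝ))) / L
      + ((2 ^ (5 * eW) : ℕ) : ℝ)⁻¹
      + (1 + Real.log x) * (20 * ((L : ℝ) + 2) ^ 2 / 2 ^ (m / 4))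
      + 2 * m * (16 * (1 + Real.log m)) / eZ
      + 16 * (1 + Real.log m) / r0
      + ((2 : ℝ) ^ m * 2 ^ m * ((2 ^ (2 * eW) : ℕ) : ℝ) * ((2 ^ (2 * eW) : ℕ) : ℝ)) / ((2 ^ (5 * eW) : ℕ) : ℝ)
      + (1 + Real.log x) * ((((2 : ℝ) ^ eW) ^ ((1 : ℝ) / v))⁻¹ * Real.exp (128 * (1 + Real.log v)))
      + (2 + Real.log x) ^ 2 / ((2 ^ v : ℕ) : ℝ)) := by
  have hY1 : 1 ≤ 2 ^ (5 * eW) := Nat.one_le_two_pow
  have hsub : orderRoots x ⊆
      (Icc 1 x).filter (Exc1 (2 ^ (5 * eW))) ∪ (Icc 1 x).filter (Exc2 (2 ^ (5 * eW))) ∪ (Icc 1 x).filter (Exc3 (2 ^ (5 * eW)) (2 ^ m)) ∪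
      (Icc 1 x).filter (Exc4 (2 ^ m) (2 ^ eZ)) ∪ (Icc 1 x).filter (Exc5 (2 ^ m) r0) ∪
      (Icc 1 x).filter (Exc6 (2 ^ (5 * eW)) (2 ^ m) (2 ^ (2 * eW))) ∪
      (Icc 1 x).filter (Exc7 (2 ^ (5 * eW)) (2 ^ v) (2 ^ eW)) ∪ (Icc 1 x).filter (Exc8 (2 ^ (5 * eW)) (2 ^ v)) := by
    intro u hu
    simp only [orderRoots, Finset.mem_filter] at hu
    obtain ⟨hu1, hord⟩ := hu
    obtain ⟨h1, h2⟩ := Finset.mem_Icc.1 hu1
    simp only [Finset.mem_union, Finset.mem_filter, hu1, true_and]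
    have := exceptional_of_order (u := u) (eY := 5 * eW) (m := m) (v := v) (eW := eW) (eZ := eZ)
      (r0 := r0) (by omega) (lt_of_le_of_lt h2 hxL') hmY hLY hm (by omega) hWZ hord
    simp only [or_assoc]
    exact this
  have h0 := Nat.cast_le (α := ℝ).2 ((Finset.card_le_card hsub).trans
    ((Finset.card_union_le _ _).trans (add_le_add_left ((Finset.card_union_le _ _).trans
    (add_le_add_left ((Finset.card_union_le _ _).trans (add_le_add_left ((Finset.card_union_le _ _).trans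
    (add_le_add_left ((Finset.card_union_le _ _).trans (add_le_add_left ((Finset.card_union_le _ _).trans
    (add_le_add_left (Finset.card_union_le _ _) _)) _)) _)) _)) _)) _)))
  simp only [Nat.cast_add] at h0
  have b1 := card_exc1_le x L (5 * eW) hL hxL
  have b2 := card_exc2_le x (2 ^ (5 * eW)) hY1
  have b3 := card_exc3_le x L (5 * eW) m hxL' hY
  have b4 := card_exc4_le x m eZ hZ
  have b5 := card_exc5_le x m r0 hr
  have b6 := card_exc6_le x (2 ^ (5 * eW)) m (2 ^ (2 * eW)) hY1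
  have b7 := card_exc7_le x (2 ^ (5 * eW)) v eW hv
  have b8 := card_exc8_le x (2 ^ (5 * eW)) (2 ^ v) Nat.one_le_two_pow
  linarith

end Vale.Agent.P033
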