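import Vale.Agent.P033.MultiClass
import Vale.Agent.P033.Exceptions

/-!
Arithmetic conditions under which a shift of order P fixes the primes above q, and the resulting
exclusion criterion for the orders 4u².
-/

namespace Vale.Agent.P033

open Finset

variable (n : ℕ) [NeZero n] (K : Type) [Field K] [NumberField K] [IsCyclotomicExtension {n} ℚ K]

lemma fixShift_self {P c M : ℕ} (hP : P.Prime) (hn : n = P ^ (c + 1) * M) : FixShift n K P P := by
  intro a ha
  refine fixesPrimes_of_modEq n K hP hn a (e := 0) ?_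
  rw [pow_zero]
  refine ha.of_dvd ?_
  rw [hn, pow_succ', mul_assoc, Nat.mul_div_cancel_left _ hP.pos]
  exact dvd_mul_left _ _

lemma fixShift_of_not_base {P q v R : ℕ} (hP : P.Prime) (hq : q.Prime) (hqP : q ≠ P)
    (hn : n = q ^ v * (P * P * R)) (hqR : Nat.Coprime q R) (hPR : ¬P ∣ R) (hφ : ¬P ∣ R.totient)
    (hw : q ^ (P - 1) % (P * P) ≠ 1) : FixShift n K P q := by
  intro a ha
  have hdiv : n / P = P * (R * q ^ v) := by
    rw [hn, show q ^ v * (P * P * R) = P * (P * (R * q ^ v)) by ring,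
      Nat.mul_div_cancel_left _ hP.pos]
  rw [hdiv] at ha
  have h2 : 2 ≤ P * (R * q ^ v) := by
    rcases Nat.eq_zero_or_pos (R * q ^ v) with h | h
    · have h0 := NeZero.ne n
      rw [hn] at h0
      exact absurd (show q ^ v * (P * P * R) = 0 by
        rw [show q ^ v * (P * P * R) = P * P * (R * q ^ v) by ring, h, Nat.mul_zero]) h0
    · exact le_trans hP.two_le (Nat.le_mul_of_pos_right _ h)
  have hmod : (a : ZMod n).val % (P * (R * q ^ v)) = 1 := by
    rw [ha, Nat.mod_eq_of_lt h2]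
  have hval : (a : ZMod n).val
      = 1 + P * (R * (q ^ v * ((a : ZMod n).val / (P * (R * q ^ v))))) := by
    conv_lhs => rw [← Nat.mod_add_div (a : ZMod n).val (P * (R * q ^ v)), hmod]
    ring
  obtain ⟨e, he⟩ := exists_pow_modEq hP ((Nat.coprime_primes hq hP).2 hqP) hqR hφ hw
    (Nat.Coprime.mul_left ((hP.coprime_iff_not_dvd).2 hPR) ((hP.coprime_iff_not_dvd).2 hPR))
    (q ^ v * ((a : ZMod n).val / (P * (R * q ^ v))))
  refine fixesPrimes_of_modEq n K hq hn a (e := e) ?_
  rw [hval]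
  exact he

omit [NeZero n] in
/-- The bound of the criterion, over the rationals. -/
theorem criterion {u t s : ℕ} {A : Finset ℕ} (hu : u ≠ 0) (hts : u = t * s)
    (hA : ∀ P ∈ A, P.Prime ∧ P ≠ 2 ∧ P ∣ u ∧ u.factorization P = 1 ∧
      ∀ r ∈ u.primeFactors, ¬P ∣ r - 1)
    (hfix : ∀ P ∈ A, ∀ q : ℕ, q.Prime → q ∣ t → q = P ∨ q ^ (P - 1) % (P * P) ≠ 1)
    (hord : IsCirculantHadamardOrder (4 * u ^ 2)) :
    ((∏ P ∈ A, P : ℕ) : ℝ) * (4 * u ^ 2).totient ≤
      4 * ((4 * u ^ 2 : ℕ) : ℝ) * s ^ 2 * Real.exp (∑ P ∈ A, 2 * Real.log P / P) := by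
  set n := 4 * u ^ 2 with hn
  have hn0 : n ≠ 0 := by positivity
  have : NeZero n := ⟨hn0⟩
  have : NeZero ((n : ℕ) : ℚ) := ⟨Nat.cast_ne_zero.2 hn0⟩
  have : IsCyclotomicExtension {n} ℚ (CyclotomicField n ℚ) :=
    CyclotomicField.isCyclotomicExtension n ℚ
  refine prod_totient_le_of_order n (CyclotomicField n ℚ) hn hts
    (fun P hP => ⟨(hA P hP).1, (hA P hP).2.1, (hA P hP).2.2.1⟩) ?_ hord
  intro P hP q hq hqt
  obtain ⟨hPp, hP2, hPu, hP1, hnr⟩ := hA P hP
  obtain ⟨w, hw⟩ := hPu
  have hPw : ¬P ∣ w := by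
    rintro ⟨b, rfl⟩
    have h : P ^ 2 ∣ u := ⟨b, by rw [hw]; ring⟩
    have := (hPp.pow_dvd_iff_le_factorization hu).1 h
    omega
  have hnM : n = P ^ 2 * (4 * w ^ 2) := by rw [hn, hw]; ring
  have hPM : ¬P ∣ 4 * w ^ 2 := by
    intro h
    rcases hPp.dvd_mul.1 h with h | h
    · exact hP2 ((Nat.prime_dvd_prime_iff_eq hPp Nat.prime_two).1
        (hPp.dvd_of_dvd_pow (show P ∣ 2 ^ 2 from h)))
    · exact hPw (hPp.dvd_of_dvd_pow h)
  rcases eq_or_ne q P with rfl | hqP
  · exact fixShift_self n (CyclotomicField n ℚ) (c := 1) hq hnM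
  have hbase := (hfix P hP q hq hqt).resolve_left hqP
  have hM0 : 4 * w ^ 2 ≠ 0 := fun h => hPM (h ▸ dvd_zero P)
  set R := (4 * w ^ 2) / q ^ (4 * w ^ 2).factorization q with hR
  have hRM : R ∣ 4 * w ^ 2 := Nat.ordCompl_dvd _ q
  refine fixShift_of_not_base n (CyclotomicField n ℚ) (v := (4 * w ^ 2).factorization q) (R := R)
    hPp hq hqP ?_ (Nat.coprime_ordCompl hq hM0) (fun h => hPM (h.trans hRM)) ?_ hbase
  · conv_lhs => rw [hnM, ← Nat.ordProj_mul_ordCompl_eq_self (4 * w ^ 2) q]
    ring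
  · intro hφ
    have hφ' : P ∣ (4 * w ^ 2).totient := hφ.trans (Nat.totient_dvd_of_dvd hRM)
    have h2 : P ∣ (4 * w ^ 2) * ∏ r ∈ (4 * w ^ 2).primeFactors, (r - 1) := by
      rw [← Nat.totient_mul_prod_primeFactors]; exact dvd_mul_of_dvd_left hφ' _
    rcases hPp.dvd_mul.1 h2 with h | h
    · exact hPM h
    obtain ⟨r, hr, hd⟩ := hPp.prime.exists_mem_finset_dvd h
    obtain ⟨hrp, hrd, -⟩ := Nat.mem_primeFactors.1 hr
    rcases hrp.dvd_mul.1 hrd with h | h
    · have hr2 := (Nat.prime_dvd_prime_iff_eq hrp Nat.prime_two).1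
        (hrp.dvd_of_dvd_pow (show r ∣ 2 ^ 2 from h))
      subst hr2
      exact hPp.not_dvd_one hd
    · exact hnr r (Nat.mem_primeFactors.2
        ⟨hrp, hw ▸ dvd_mul_of_dvd_right (hrp.dvd_of_dvd_pow h) P, hu⟩) hd

/-- In every set of weighted points with attached sets, some part of weight a quarter keeps at
least half of each attached set outside. -/
lemma exists_quarter (T : Finset ℕ) (D : ℕ → Finset ℕ) (ω lam : ℕ → ℝ)
    (hω : ∀ q ∈ T, 0 ≤ ω q) (hlam : ∀ q ∈ T, ∀ P ∈ D q, 0 ≤ lam P) (hself : ∀ q ∈ T, q ∉ D q) :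
    ∃ B ⊆ T, ∑ q ∈ T, ω q ≤ 4 * ∑ q ∈ B, ω q ∧
      ∀ q ∈ B, ∑ P ∈ D q, lam P ≤ 2 * ∑ P ∈ D q \ B, lam P := by
  classical
  set ok : Finset ℕ → ℕ → Prop := fun B q =>
    q ∈ B ∧ ∑ P ∈ D q, lam P ≤ 2 * ∑ P ∈ D q \ B, lam P with hok
  have hcount : ∀ q ∈ T,
      T.powerset.card ≤ 4 * (T.powerset.filter (fun B => ok B q)).card := by
    intro q hq
    set Cq := T.powerset.filter (fun B => q ∈ B) with hCq
    have hhalf : T.powerset.card ≤ 2 * Cq.card := by
      have hnot : (T.powerset.filter (fun B => ¬q ∈ B)).card ≤ Cq.card := by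
        refine Finset.card_le_card_of_injOn (insert q) ?_ ?_
        · intro B hB
          simp only [Finset.coe_filter, Finset.mem_powerset, Set.mem_ofPred_eq, hCq] at hB ⊢
          exact ⟨Finset.insert_subset hq hB.1, Finset.mem_insert_self q B⟩
        · intro B hB B' hB' h
          simp only [Finset.coe_filter, Finset.mem_powerset, Set.mem_ofPred_eq] at hB hB'
          rw [← Finset.erase_insert hB.2, ← Finset.erase_insert hB'.2, h]
      have := Finset.card_filter_add_card_filter_not (s := T.powerset) (fun B => q ∈ B)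
      rw [← hCq] at this
      omega
    have hok2 : Cq.card ≤ 2 * (T.powerset.filter (fun B => ok B q)).card := by
      have hbad : (Cq.filter (fun B => ¬ok B q)).card
          ≤ (T.powerset.filter (fun B => ok B q)).card := by
        refine Finset.card_le_card_of_injOn (fun B => insert q (T \ B)) ?_ ?_
        · intro B hB
          simp only [Finset.coe_filter, Finset.mem_filter, Finset.mem_powerset, Set.mem_ofPred_eq,
            hCq] at hB ⊢
          obtain ⟨⟨hBT, hqB⟩, hbad⟩ := hB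
          refine ⟨Finset.insert_subset hq Finset.sdiff_subset, Finset.mem_insert_self _ _, ?_⟩
          have hnb : 2 * ∑ P ∈ D q \ B, lam P < ∑ P ∈ D q, lam P := by
            by_contra h
            exact hbad ⟨hqB, not_lt.1 h⟩
          have hsub : D q ∩ B ⊆ D q \ insert q (T \ B) := by
            intro P hP
            obtain ⟨h1, h2⟩ := Finset.mem_inter.1 hP
            refine Finset.mem_sdiff.2 ⟨h1, fun h => ?_⟩
            rcases Finset.mem_insert.1 h with h | h
            · exact hself q hq (h ▸ h1)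
            · exact (Finset.mem_sdiff.1 h).2 h2
          have h1 := Finset.sum_inter_add_sum_sdiff (D q) B lam
          have h2 := Finset.sum_le_sum_of_subset_of_nonneg (f := lam) hsub
            (fun P hP _ => hlam q hq P (Finset.mem_sdiff.1 hP).1)
          linarith
        · intro B hB B' hB' h
          simp only [Finset.coe_filter, Finset.mem_filter, Finset.mem_powerset, Set.mem_ofPred_eq,
            hCq] at hB hB'
          ext P
          have hP := Finset.ext_iff.1 h P
          simp only [Finset.mem_insert, Finset.mem_sdiff] at hP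
          by_cases hPq : P = q
          · subst hPq; exact iff_of_true hB.1.2 hB'.1.2
          constructor
          · intro hPB
            by_contra hne
            exact (hP.2 (Or.inr ⟨hB.1.1 hPB, hne⟩)).elim hPq (fun h => h.2 hPB)
          · intro hPB
            by_contra hne
            exact (hP.1 (Or.inr ⟨hB'.1.1 hPB, hne⟩)).elim hPq (fun h => h.2 hPB)
      have h3 := Finset.card_filter_add_card_filter_not (s := Cq) (fun B => ok B q)
      have hsub : Cq.filter (fun B => ok B q) ⊆ T.powerset.filter (fun B => ok B q) :=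
        Finset.filter_subset_filter _ (Finset.filter_subset _ _)
      have h4 := Finset.card_le_card hsub
      omega
    omega
  obtain ⟨B, hB, hle⟩ : ∃ B ∈ T.powerset,
      ∑ q ∈ T, ω q ≤ 4 * ∑ q ∈ T, (if ok B q then ω q else 0) := by
    by_contra hno
    simp only [not_exists, not_and, not_le] at hno
    have hlt := Finset.sum_lt_sum_of_nonempty (Finset.powerset_nonempty T) hno
    rw [← Finset.mul_sum, Finset.sum_comm, Finset.sum_const, nsmul_eq_mul, Finset.mul_sum,
      Finset.mul_sum] at hlt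
    refine absurd hlt (not_lt.2 (Finset.sum_le_sum fun q hq => ?_))
    rw [← Finset.sum_filter, Finset.sum_const, nsmul_eq_mul, ← mul_assoc]
    refine mul_le_mul_of_nonneg_right ?_ (hω q hq)
    exact_mod_cast hcount q hq
  refine ⟨T.filter (fun q => ok B q), Finset.filter_subset _ _, ?_, fun q hq => ?_⟩
  · rwa [Finset.sum_filter]
  · obtain ⟨hqT, -, hok⟩ := Finset.mem_filter.1 hq
    refine hok.trans (mul_le_mul_of_nonneg_left ?_ two_pos.le)
    refine Finset.sum_le_sum_of_subset_of_nonneg ?_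
      (fun P hP _ => hlam q hqT P (Finset.mem_sdiff.1 hP).1)
    intro P hP
    obtain ⟨h1, h2⟩ := Finset.mem_sdiff.1 hP
    exact Finset.mem_sdiff.2 ⟨h1, fun h => h2 (Finset.mem_filter.1 h).2.1⟩

end Vale.Agent.P033
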