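import Vale.Agent.P033.Sparse
import Vale.Agent.P033.Moved

/-!
A circulant Hadamard order 4u² forces u to have a large smooth part, a large square divisor, or a
large squarefree divisor made of primes attached to the other primes of u.
-/

namespace Vale.Agent.P033

open Finset

/-- The smoothness level. -/
def level (x : ℕ) : ℕ := (Nat.log 2 x) ^ 240

/-- Large smooth part. -/
def BigSmooth (x : ℕ) (u : ℕ) : Prop :=
  ∃ c : ℕ, c ∣ u ∧ c.primeFactors ⊆ primesTo (level x) ∧ (x : ℝ) ^ ((1 : ℝ) / 100) < c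

/-- Large square divisor. -/
def BigSquare (x : ℕ) (u : ℕ) : Prop :=
  ∃ m : ℕ, m * m ∣ u ∧ (x : ℝ) ^ ((1 : ℝ) / 300) < m

/-- Large attached squarefree divisor. -/
def BigAttached (x : ℕ) (u : ℕ) : Prop :=
  ∃ B : Finset ℕ, ∃ w : ℕ, u = (∏ q ∈ B, q) * w ∧ (∀ q ∈ B, q ≤ x ∧ Elig (level x) w q) ∧
    (x : ℝ) ^ ((1 : ℝ) / 100) < (∏ q ∈ B, q : ℕ)

lemma log_le_half {P : ℝ} (hP : 1 ≤ P) : 2 * Real.log P ≤ P := by
  have hs : 0 < Real.sqrt P := Real.sqrt_pos.2 (by linarith)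
  have h1 := Real.log_le_sub_one_of_pos hs
  rw [Real.log_sqrt (by linarith)] at h1
  nlinarith [Real.sq_sqrt (show (0 : ℝ) ≤ P by linarith), sq_nonneg (Real.sqrt P - 2)]

lemma sum_log_eq_log_prod {T : Finset ℕ} (hT : ∀ q ∈ T, q ≠ 0) :
    ∑ q ∈ T, Real.log q = Real.log ((∏ q ∈ T, q : ℕ) : ℝ) := by
  rw [Nat.cast_prod, Real.log_prod fun q hq => Nat.cast_ne_zero.2 (hT q hq)]

lemma sum_pow_log_eq {T : Finset ℕ} {f : ℕ → ℕ} (hT : ∀ q ∈ T, q ≠ 0) :
    ∑ q ∈ T, (f q : ℝ) * Real.log q = Real.log ((∏ q ∈ T, q ^ f q : ℕ) : ℝ) := by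
  rw [Nat.cast_prod, Real.log_prod fun q hq => Nat.cast_ne_zero.2 (pow_ne_zero _ (hT q hq))]
  refine Finset.sum_congr rfl fun q _ => ?_
  rw [Nat.cast_pow, Real.log_pow]

lemma exists_attached {U par : Finset ℕ} {y q : ℕ} (hUp : ∀ r ∈ U, r.Prime) (hq : q.Prime)
    (hpar : ∀ P ∈ par, P ∈ U ∧ y < P ∧ Base P q)
    (hgood : (∃ r ∈ U, q ∣ r - 1) ∨ (∃ P ∈ par, q ≤ P ^ 8) ∨ q ≤ (∏ P ∈ par, P) ^ 16) :
    ∃ D : Finset ℕ, D ⊆ U ∧ q ∉ D ∧ D.Nonempty ∧
      ∀ D' ⊆ D, ∑ P ∈ D, Real.log (P : ℝ) ≤ 2 * ∑ P ∈ D', Real.log (P : ℝ) →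
        ((∃ r ∈ D', q ∣ r - 1) ∨ (∃ P ∈ D', y < P ∧ q ≤ P ^ 8 ∧ Base P q) ∨
          ((∀ P ∈ D', y < P) ∧ D'.Nonempty ∧ (∏ P ∈ D', P) ^ 2 ≤ q ∧ q ≤ (∏ P ∈ D', P) ^ 32 ∧
            ∀ P ∈ D', Base P q)) := by
  classical
  have hlog0 : ∀ q : ℕ, 0 ≤ Real.log (q : ℝ) := fun q => Real.log_natCast_nonneg q
  have hU0 : ∀ r ∈ U, r ≠ 0 := fun r hr => (hUp r hr).ne_zero
  have hqp := hq
  have hsingle : ∀ P ∈ U, ∀ D' ⊆ ({P} : Finset ℕ),
      ∑ R ∈ ({P} : Finset ℕ), Real.log (R : ℝ) ≤ 2 * ∑ R ∈ D', Real.log (R : ℝ) → P ∈ D' := by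
    intro P hP D' hD' hle
    rcases Finset.subset_singleton_iff.1 hD' with rfl | rfl
    · exfalso
      simp only [Finset.sum_singleton, Finset.sum_empty, mul_zero] at hle
      have : (0 : ℝ) < Real.log P := Real.log_pos (by exact_mod_cast (hUp P hP).one_lt)
      linarith
    · exact Finset.mem_singleton_self P
  have hnb : ¬Base q q := by
    intro h
    unfold Base at h
    have h1 : q ∣ q ^ (q - 1) := dvd_pow_self q (by have := hqp.two_le; omega)
    rw [← Nat.mod_add_div (q ^ (q - 1)) (q * q), h] at h1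
    exact hqp.not_dvd_one ((Nat.dvd_add_left
      (dvd_mul_of_dvd_left (dvd_mul_right q q) _)).1 h1)
  by_cases hr : ∃ r ∈ U, q ∣ r - 1
  · obtain ⟨r, hrU, hd⟩ := hr
    refine ⟨{r}, Finset.singleton_subset_iff.2 hrU, ?_, Finset.singleton_nonempty r,
      fun D' hD' hle => Or.inl ⟨r, hsingle r hrU D' hD' hle, hd⟩⟩
    rw [Finset.mem_singleton]
    rintro rfl
    have := hqp.two_le
    have := Nat.le_of_dvd (by omega) hd
    omega
  by_cases h8 : ∃ P ∈ par, q ≤ P ^ 8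
  · obtain ⟨P, hP, hq8⟩ := h8
    obtain ⟨hPU, hyP, hb⟩ := hpar P hP
    refine ⟨{P}, Finset.singleton_subset_iff.2 hPU, ?_, Finset.singleton_nonempty P,
      fun D' hD' hle => Or.inr (Or.inl ⟨P, hsingle P hPU D' hD' hle,
        hyP, hq8, hb⟩)⟩
    rw [Finset.mem_singleton]
    rintro rfl
    exact hnb hb
  have h16 : q ≤ (∏ P ∈ par, P) ^ 16 := (hgood.resolve_left hr).resolve_left h8
  obtain ⟨D, hDmem, hDmin⟩ := Finset.exists_min_image
    ((par).powerset.filter (fun D => q ≤ (∏ P ∈ D, P) ^ 16)) Finset.card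
    ⟨par, Finset.mem_filter.2 ⟨Finset.mem_powerset_self _, h16⟩⟩
  obtain ⟨hDpar, hD16⟩ := Finset.mem_filter.1 hDmem
  rw [Finset.mem_powerset] at hDpar
  have hDU : D ⊆ U := fun P hP => (hpar P (hDpar hP)).1
  have hDne : D.Nonempty := by
    rcases D.eq_empty_or_nonempty with h | h
    · rw [h, Finset.prod_empty, one_pow] at hD16
      have := hqp.two_le
      omega
    · exact h
  have hD2 : (∏ P ∈ D, P) ^ 2 ≤ q := by
    obtain ⟨P, hP⟩ := hDne
    have h1 : (∏ R ∈ D.erase P, R) ^ 16 < q := by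
      by_contra h
      have hmem : D.erase P ∈ (par).powerset.filter (fun D => q ≤ (∏ P ∈ D, P) ^ 16) :=
        Finset.mem_filter.2 ⟨Finset.mem_powerset.2 ((Finset.erase_subset _ _).trans hDpar),
          not_lt.1 h⟩
      exact absurd (hDmin _ hmem) (not_le.2 (Finset.card_erase_lt_of_mem hP))
    have h2 : P ^ 8 < q := by
      by_contra h
      exact h8 ⟨P, hDpar hP, not_lt.1 h⟩
    rw [← Finset.mul_prod_erase D (fun R => R) hP] at hD16 ⊢
    by_contra h
    rw [not_le] at h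
    have h3 := Nat.pow_lt_pow_left h (show (8 : ℕ) ≠ 0 by norm_num)
    have h4 : (P * ∏ R ∈ D.erase P, R) ^ 16 ≤ q ^ 2 * q := by
      rw [mul_pow]
      refine Nat.mul_le_mul ?_ h1.le
      rw [show P ^ 16 = (P ^ 8) ^ 2 by ring]
      exact Nat.pow_le_pow_left h2.le 2
    rw [← pow_mul, show 2 * 8 = 16 by norm_num] at h3
    have h5 : q ^ 2 * q ≤ q ^ 8 := by
      rw [← pow_succ]
      exact Nat.pow_le_pow_right hqp.pos (by norm_num)
    omega
  refine ⟨D, hDU, fun h => hnb (hpar _ (hDpar h)).2.2, hDne,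
    fun D' hD' hle => Or.inr (Or.inr ⟨fun P hP =>
      (hpar P (hDpar (hD' hP))).2.1, ?_, ?_, ?_,
      fun P hP => (hpar P (hDpar (hD' hP))).2.2⟩)⟩
  · rcases D'.eq_empty_or_nonempty with h | h
    · exfalso
      rw [h, Finset.sum_empty, mul_zero] at hle
      obtain ⟨P, hP⟩ := hDne
      have h1 : (0 : ℝ) < Real.log P := Real.log_pos (by exact_mod_cast (hUp P (hDU hP)).one_lt)
      have h2 := Finset.single_le_sum (f := fun R : ℕ => Real.log (R : ℝ))
        (fun R _ => hlog0 R) hP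
      linarith
    · exact h
  · refine le_trans (Nat.pow_le_pow_left ?_ 2) hD2
    exact Nat.le_of_dvd (Finset.prod_pos fun P hP => (hUp P (hDU hP)).pos)
      (Finset.prod_dvd_prod_of_subset _ _ _ hD')
  · refine hD16.trans ?_
    rw [show 32 = 2 * 16 by norm_num, pow_mul]
    refine Nat.pow_le_pow_left ?_ 16
    rw [sum_log_eq_log_prod (fun P hP => hU0 P (hDU hP)),
      sum_log_eq_log_prod (fun P hP => hU0 P (hDU (hD' hP))),
      show (2 : ℝ) = ((2 : ℕ) : ℝ) by norm_num, ← Real.log_pow, ← Nat.cast_pow] at hle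
    have hp1 : (0 : ℝ) < ((∏ P ∈ D, P : ℕ) : ℝ) := by
      exact_mod_cast Finset.prod_pos fun P hP => (hUp P (hDU hP)).pos
    have hp2 : (0 : ℝ) < (((∏ P ∈ D', P) ^ 2 : ℕ) : ℝ) := by
      exact_mod_cast pow_pos (Finset.prod_pos fun P hP => (hUp P (hDU (hD' hP))).pos) 2
    exact_mod_cast (Real.log_le_log_iff hp1 hp2).1 hle

lemma log_prod_le_of_criterion {x u s : ℕ} {A : Finset ℕ} (hu : u ≠ 0) (hux : u ≤ x)
    (hL : 64 ≤ Nat.log 2 x) (hx : (10 : ℝ) ^ 21 ≤ Real.log x)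
    (hLup : (Nat.log 2 x : ℝ) * Real.log 2 ≤ Real.log x)
    (hAp : ∀ P ∈ A, P.Prime) (hs0' : 0 < s)
    (hcrit : ((∏ P ∈ A, P : ℕ) : ℝ) * (4 * u ^ 2).totient ≤
      4 * ((4 * u ^ 2 : ℕ) : ℝ) * s ^ 2 * Real.exp (∑ P ∈ A, 2 * Real.log P / P)) :
    ∑ P ∈ A, Real.log (P : ℝ) ≤ (A.card : ℝ) + Real.log x / 1000 + 2 * Real.log s := by
  have hlog2 := Real.log_two_lt_d9
  have hlog2' := Real.log_two_gt_d9
  have hx21 : (10 : ℝ) ^ 21 = 1000000000000000000000 := by norm_num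
  have hlx : 0 < Real.log x := lt_of_lt_of_le (by positivity) hx
  have hn0 : 4 * u ^ 2 ≠ 0 := by positivity
  set L := Nat.log 2 x with hLdef
  have hApos : ∀ P ∈ A, P ≠ 0 := fun P hP => (hAp P hP).ne_zero
  set d := ∏ P ∈ A, P with hd
  have hd0 : (0 : ℝ) < (d : ℝ) := by
    exact_mod_cast Finset.prod_pos fun P hP => Nat.pos_of_ne_zero (hApos P hP)
  have hexp : ∑ P ∈ A, 2 * Real.log (P : ℝ) / P ≤ (A.card : ℝ) := by
    calc _ ≤ ∑ _P ∈ A, (1 : ℝ) := Finset.sum_le_sum fun P hP => by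
          have hP1 : (1 : ℝ) ≤ P := by exact_mod_cast (hAp P hP).one_lt.le
          rw [div_le_one (by linarith)]
          exact log_le_half hP1
      _ = _ := by simp
  have htot : (4 * u ^ 2 : ℕ) ≤ (4 * u ^ 2).totient * (2 * L + 6) := by
    refine (le_totient_mul _).trans (Nat.mul_le_mul_left _ ?_)
    have h := two_pow_card_primeFactors_le hn0
    have h2 : 4 * u ^ 2 < 2 ^ (2 * L + 5) := by
      have hx2 := Nat.lt_pow_succ_log_self one_lt_two x
      have hu2 : u ^ 2 < (2 ^ (L + 1)) ^ 2 := Nat.pow_lt_pow_left (lt_of_le_of_lt hux hx2) (by norm_num)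
      calc 4 * u ^ 2 < 4 * (2 ^ (L + 1)) ^ 2 := by omega
        _ ≤ 2 ^ (2 * L + 5) := by
            rw [← pow_mul, show 4 = 2 ^ 2 by norm_num, ← pow_add]
            exact Nat.pow_le_pow_right two_pos (by omega)
    have := (Nat.pow_lt_pow_iff_right (le_refl 2)).1 (lt_of_le_of_lt h h2)
    omega
  have hs0 : (0 : ℝ) < (s : ℝ) := by exact_mod_cast hs0'
  have hφ : (0 : ℝ) < ((4 * u ^ 2).totient : ℝ) := by
    exact_mod_cast Nat.totient_pos.2 (Nat.pos_of_ne_zero hn0)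
  have hmain : (d : ℝ) ≤ 4 * ((2 * L + 6 : ℕ) : ℝ) * (s : ℝ) ^ 2 * Real.exp (A.card : ℝ) := by
    refine le_of_mul_le_mul_right ?_ hφ
    refine hcrit.trans ?_
    calc 4 * ((4 * u ^ 2 : ℕ) : ℝ) * (s : ℝ) ^ 2 * Real.exp (∑ P ∈ A, 2 * Real.log (P : ℝ) / P)
        ≤ 4 * (((4 * u ^ 2).totient * (2 * L + 6) : ℕ) : ℝ) * (s : ℝ) ^ 2 * Real.exp (A.card : ℝ) :=
          mul_le_mul (mul_le_mul_of_nonneg_right (mul_le_mul_of_nonneg_left
            (Nat.cast_le.2 htot) (by norm_num)) (by positivity))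
            (Real.exp_le_exp.2 hexp) (Real.exp_pos _).le (by positivity)
      _ = _ := by push_cast; ring
  have hl := Real.log_le_log hd0 hmain
  rw [Real.log_mul (by positivity) (Real.exp_pos _).ne', Real.log_mul (by positivity) (by positivity),
    Real.log_exp, Real.log_pow, ← sum_log_eq_log_prod hApos] at hl
  have hLbig : Real.log (4 * ((2 * L + 6 : ℕ) : ℝ)) ≤ Real.log x / 1000 := by
    have hL' : (64 : ℝ) ≤ L := by exact_mod_cast hL
    have h1 : 2 * Real.log (Real.sqrt (4 * ((2 * L + 6 : ℕ) : ℝ))) ≤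
        2 * Real.sqrt (4 * ((2 * L + 6 : ℕ) : ℝ)) :=
      mul_le_mul_of_nonneg_left (Real.log_le_self (Real.sqrt_nonneg _)) two_pos.le
    rw [Real.log_sqrt (by positivity)] at h1
    have h2 : Real.sqrt (4 * ((2 * L + 6 : ℕ) : ℝ)) ≤ Real.log x / 2000 := by
      rw [Real.sqrt_le_left (by positivity)]
      push_cast
      have h3 : (L : ℝ) ≤ 2 * Real.log x := by nlinarith [hLup]
      nlinarith
    linarith
  push_cast at hl hLbig
  linarith

/-- Every large order root is exceptional. -/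
theorem exceptional_of_large {x u : ℕ} (hx : (10 : ℝ) ^ 21 ≤ Real.log x) (hux : u ≤ x)
    (hu2 : Real.log x / 2 ≤ Real.log u) (hord : IsCirculantHadamardOrder (4 * u ^ 2)) :
    BigSmooth x u ∨ BigSquare x u ∨ BigAttached x u := by
  classical
  have hlx : 0 < Real.log x := lt_of_lt_of_le (by positivity) hx
  have hx0 : (0 : ℝ) < x := by
    rcases Nat.eq_zero_or_pos x with h | h
    · rw [h, Nat.cast_zero, Real.log_zero] at hlx; exact absurd hlx (lt_irrefl 0)
    · exact_mod_cast h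
  have hu : u ≠ 0 := by
    rintro rfl
    rw [Nat.cast_zero, Real.log_zero] at hu2
    linarith
  set L := Nat.log 2 x with hLdef
  have hLlog : Real.log x ≤ ((L : ℝ) + 1) * Real.log 2 := by
    rw [show ((L : ℝ) + 1) = ((L + 1 : ℕ) : ℝ) by push_cast; ring, ← Real.log_pow]
    exact Real.log_le_log hx0 (by exact_mod_cast (Nat.lt_pow_succ_log_self one_lt_two x).le)
  have hlog2 := Real.log_two_lt_d9
  have hlog2' := Real.log_two_gt_d9
  have hx21 : (10 : ℝ) ^ 21 = 1000000000000000000000 := by norm_num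
  have hL : 64 ≤ L := by
    by_contra h
    have h' : (L : ℝ) ≤ 63 := by exact_mod_cast (show L ≤ 63 by omega)
    nlinarith
  have hLup : (L : ℝ) * Real.log 2 ≤ Real.log x := by
    rw [← Real.log_pow]
    refine Real.log_le_log (by positivity) ?_
    exact_mod_cast Nat.pow_log_le_self 2 (show x ≠ 0 by exact_mod_cast hx0.ne')
  set y := level x with hy
  have hy1 : 1 ≤ y := Nat.one_le_pow _ _ (by omega)
  have hy2 : 2 ≤ y := le_trans (show 2 ≤ L by omega) (Nat.le_self_pow (by norm_num) L)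
  have hlogy : (960 : ℝ) ≤ Real.log y := by
    rw [hy, level, Nat.cast_pow, Real.log_pow]
    have h64 : Real.log ((2 : ℝ) ^ 6) ≤ Real.log (L : ℝ) :=
      Real.log_le_log (by positivity) (by
        have : (64 : ℝ) ≤ L := by exact_mod_cast hL
        norm_num
        linarith)
    rw [Real.log_pow] at h64
    push_cast at h64 ⊢
    linarith
  set U := u.primeFactors with hU
  have hUp : ∀ q ∈ U, q.Prime := fun q hq => Nat.prime_of_mem_primeFactors hq
  have hU0 : ∀ q ∈ U, q ≠ 0 := fun q hq => (hUp q hq).ne_zero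
  have hlog0 : ∀ q : ℕ, 0 ≤ Real.log (q : ℝ) := fun q => Real.log_natCast_nonneg q
  set ε := Real.log x / 100 with hε
  set ell : ℕ → ℝ := fun q => (u.factorization q : ℝ) * Real.log q with hell
  have hell0 : ∀ q, 0 ≤ ell q := fun q => mul_nonneg (Nat.cast_nonneg _) (hlog0 q)
  have hellU : ∑ q ∈ U, ell q = Real.log u := by
    rw [hell, sum_pow_log_eq hU0]
    congr 2
    conv_rhs => rw [← Nat.prod_factorization_pow_eq_self hu,
      Nat.prod_factorization_eq_prod_primeFactors]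
  by_cases h1 : ε < ∑ q ∈ U.filter (· ≤ y), ell q
  · refine Or.inl ⟨∏ q ∈ U.filter (· ≤ y), q ^ u.factorization q, ?_, ?_, ?_⟩
    · conv_rhs => rw [← Nat.prod_factorization_pow_eq_self hu,
        Nat.prod_factorization_eq_prod_primeFactors]
      exact Finset.prod_dvd_prod_of_subset _ _ _ (Finset.filter_subset _ _)
    · intro r hr
      obtain ⟨hrp, hrd, -⟩ := Nat.mem_primeFactors.1 hr
      obtain ⟨q, hq, hd⟩ := hrp.prime.exists_mem_finset_dvd hrd
      obtain ⟨hqU, hqy⟩ := Finset.mem_filter.1 hq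
      rw [(Nat.prime_dvd_prime_iff_eq hrp (hUp q hqU)).1 (hrp.dvd_of_dvd_pow hd), mem_primesTo]
      exact ⟨hqy, hUp q hqU⟩
    · rw [hell, sum_pow_log_eq (fun q hq => hU0 q (Finset.mem_filter.1 hq).1)] at h1
      have hpos : (0 : ℝ) < ((∏ q ∈ U.filter (· ≤ y), q ^ u.factorization q : ℕ) : ℝ) := by
        exact_mod_cast Finset.prod_pos fun q hq => pow_pos (hUp q (Finset.mem_filter.1 hq).1).pos _
      rw [Real.rpow_def_of_pos hx0, ← Real.lt_log_iff_exp_lt hpos]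
      linarith
  rw [not_lt] at h1
  set Fsq := U.filter (fun q => y < q ∧ 2 ≤ u.factorization q) with hFsq
  by_cases h2 : ε < ∑ q ∈ Fsq, ell q
  · refine Or.inr (Or.inl ⟨∏ q ∈ Fsq, q ^ (u.factorization q / 2), ?_, ?_⟩)
    · rw [← Finset.prod_mul_distrib]
      conv_rhs => rw [← Nat.prod_factorization_pow_eq_self hu,
        Nat.prod_factorization_eq_prod_primeFactors]
      refine (Finset.prod_dvd_prod_of_dvd _ (fun q => q ^ u.factorization q) fun q _ => ?_).trans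
        (Finset.prod_dvd_prod_of_subset _ _ _ (Finset.filter_subset _ _))
      rw [← pow_add]
      exact pow_dvd_pow q (by omega)
    · have hle : ∑ q ∈ Fsq, ell q ≤ 3 * ∑ q ∈ Fsq, ((u.factorization q / 2 : ℕ) : ℝ) * Real.log q := by
        rw [Finset.mul_sum]
        refine Finset.sum_le_sum fun q hq => ?_
        have h2 := (Finset.mem_filter.1 hq).2.2
        rw [hell, ← mul_assoc]
        refine mul_le_mul_of_nonneg_right ?_ (hlog0 q)
        exact_mod_cast (show u.factorization q ≤ 3 * (u.factorization q / 2) by omega)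
      rw [sum_pow_log_eq (f := fun q => u.factorization q / 2)
        (fun q hq => hU0 q (Finset.mem_filter.1 hq).1)] at hle
      have hpos : (0 : ℝ) < ((∏ q ∈ Fsq, q ^ (u.factorization q / 2) : ℕ) : ℝ) := by
        exact_mod_cast Finset.prod_pos fun q hq => pow_pos (hUp q (Finset.mem_filter.1 hq).1).pos _
      rw [Real.rpow_def_of_pos hx0, ← Real.lt_log_iff_exp_lt hpos]
      linarith
  rw [not_lt] at h2
  refine Or.inr (Or.inr ?_)
  -- classification of the remaining primes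
  set U1 := U.filter (fun q => y < q ∧ u.factorization q = 1) with hU1
  set A0 := U1.filter (fun q => ∀ r ∈ U, ¬q ∣ r - 1) with hA0
  set par : ℕ → Finset ℕ := fun q => A0.filter (fun P => Base P q) with hpar
  set good : ℕ → Prop := fun q => (∃ r ∈ U, q ∣ r - 1) ∨ (∃ P ∈ par q, q ≤ P ^ 8) ∨
    q ≤ (∏ P ∈ par q, P) ^ 16 with hgood
  set Wk := U.filter (fun q => y < q ∧ ¬good q) with hWk
  set W := Wk.biUnion par with hW
  set A := A0 \ W with hA
  set G := U1.filter good with hG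
  have hA0U1 : A0 ⊆ U1 := Finset.filter_subset _ _
  have hU1U : U1 ⊆ U := Finset.filter_subset _ _
  have hparA0 : ∀ q, par q ⊆ A0 := fun q => Finset.filter_subset _ _
  have hWA0 : W ⊆ A0 := Finset.biUnion_subset.2 fun q _ => hparA0 q
  have hWlog : 16 * ∑ P ∈ W, Real.log (P : ℝ) ≤ Real.log u := by
    have h16 : ∀ q ∈ Wk, 16 * ∑ P ∈ par q, Real.log (P : ℝ) ≤ ell q := by
      intro q hq
      obtain ⟨hqU, hyq, hng⟩ := Finset.mem_filter.1 hq
      have hlt : (∏ P ∈ par q, P) ^ 16 < q := by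
        by_contra h
        exact hng (Or.inr (Or.inr (not_lt.1 h)))
      have hp : ∀ P ∈ par q, P ≠ 0 := fun P hP => hU0 P (hU1U (hA0U1 (hparA0 q hP)))
      rw [sum_log_eq_log_prod hp, show (16 : ℝ) = ((16 : ℕ) : ℝ) by norm_num, ← Real.log_pow,
        ← Nat.cast_pow]
      have hpos : (0 : ℝ) < (((∏ P ∈ par q, P) ^ 16 : ℕ) : ℝ) := by
        exact_mod_cast pow_pos (Finset.prod_pos fun P hP => Nat.pos_of_ne_zero (hp P hP)) 16
      refine (Real.log_le_log hpos (Nat.cast_le.2 hlt.le)).trans ?_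
      have h1q : 1 ≤ u.factorization q := by
        have := (Nat.mem_primeFactors.1 hqU)
        exact (this.1.dvd_iff_one_le_factorization hu).1 this.2.1
      rw [hell]
      exact le_mul_of_one_le_left (hlog0 q) (by exact_mod_cast h1q)
    calc 16 * ∑ P ∈ W, Real.log (P : ℝ) ≤ 16 * ∑ q ∈ Wk, ∑ P ∈ par q, Real.log (P : ℝ) :=
          mul_le_mul_of_nonneg_left (sum_biUnion_le _ _ hlog0) (by norm_num)
      _ = ∑ q ∈ Wk, 16 * ∑ P ∈ par q, Real.log (P : ℝ) := Finset.mul_sum _ _ _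
      _ ≤ ∑ q ∈ Wk, ell q := Finset.sum_le_sum h16
      _ ≤ ∑ q ∈ U, ell q := Finset.sum_le_sum_of_subset_of_nonneg (Finset.filter_subset _ _)
          fun q _ _ => hell0 q
      _ = _ := hellU
  -- the criterion
  set M := U.filter (fun q => ∃ P ∈ A, Base P q) with hM
  set s := ∏ q ∈ M, q ^ u.factorization q with hs
  set t := ∏ q ∈ U.filter (fun q => ¬∃ P ∈ A, Base P q), q ^ u.factorization q with ht
  have hts : u = t * s := by
    rw [ht, hs, hM, mul_comm, Finset.prod_filter_mul_prod_filter_not]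
    conv_lhs => rw [← Nat.prod_factorization_pow_eq_self hu,
      Nat.prod_factorization_eq_prod_primeFactors]
  have hAU : A ⊆ U := fun P hP => hU1U (hA0U1 (Finset.mem_sdiff.1 hP).1)
  have hcrit := criterion hu hts (A := A) (fun P hP => by
      obtain ⟨hP1, hnr⟩ := Finset.mem_filter.1 (Finset.mem_sdiff.1 hP).1
      obtain ⟨hPU, hyP, ha⟩ := Finset.mem_filter.1 hP1
      exact ⟨hUp P hPU, by omega, (Nat.mem_primeFactors.1 hPU).2.1, ha, hnr⟩)
    (fun P hP q hq hqt => by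
      obtain ⟨r, hr, hd⟩ := hq.prime.exists_mem_finset_dvd hqt
      obtain ⟨hrU, hno⟩ := Finset.mem_filter.1 hr
      rw [← (Nat.prime_dvd_prime_iff_eq hq (hUp r hrU)).1 (hq.dvd_of_dvd_pow hd)] at hno
      exact Or.inr fun hb => hno ⟨P, hP, hb⟩) hord
  have hlogs : Real.log (s : ℝ) ≤ 2 * ε + ∑ q ∈ G, Real.log (q : ℝ) := by
    have hMsub : M ⊆ U.filter (· ≤ y) ∪ Fsq ∪ G := by
      intro q hq
      obtain ⟨hqU, P, hP, hb⟩ := Finset.mem_filter.1 hq
      rcases le_or_gt q y with h | h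
      · exact Finset.mem_union_left _ (Finset.mem_union_left _ (Finset.mem_filter.2 ⟨hqU, h⟩))
      rcases le_or_gt 2 (u.factorization q) with h' | h'
      · exact Finset.mem_union_left _ (Finset.mem_union_right _ (Finset.mem_filter.2 ⟨hqU, h, h'⟩))
      have h1q : 1 ≤ u.factorization q :=
        ((hUp q hqU).dvd_iff_one_le_factorization hu).1 (Nat.mem_primeFactors.1 hqU).2.1
      refine Finset.mem_union_right _ (Finset.mem_filter.2
        ⟨Finset.mem_filter.2 ⟨hqU, h, by omega⟩, ?_⟩)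
      by_contra hng
      refine (Finset.mem_sdiff.1 hP).2 (Finset.mem_biUnion.2
        ⟨q, Finset.mem_filter.2 ⟨hqU, h, hng⟩, Finset.mem_filter.2 ⟨(Finset.mem_sdiff.1 hP).1, hb⟩⟩)
    have hGe : ∑ q ∈ G, ell q = ∑ q ∈ G, Real.log (q : ℝ) := Finset.sum_congr rfl fun q hq => by
      rw [hell]
      simp only [(Finset.mem_filter.1 (Finset.mem_filter.1 hq).1).2.2, Nat.cast_one, one_mul]
    have hunion : ∀ S T : Finset ℕ, ∑ q ∈ S ∪ T, ell q ≤ ∑ q ∈ S, ell q + ∑ q ∈ T, ell q := by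
      intro S T
      rw [← Finset.sum_union_inter]
      exact le_add_of_nonneg_right (Finset.sum_nonneg fun q _ => hell0 q)
    rw [hs, ← sum_pow_log_eq (fun q hq => hU0 q (Finset.mem_filter.1 hq).1)]
    have := Finset.sum_le_sum_of_subset_of_nonneg (f := ell) hMsub fun q _ _ => hell0 q
    have h3 := hunion (U.filter (· ≤ y) ∪ Fsq) G
    have h4 := hunion (U.filter (· ≤ y)) Fsq
    rw [hGe] at h3
    simp only [hell] at this h1 h2 h3 h4 ⊢
    linarith
  have hAcard : (A.card : ℝ) * 960 ≤ Real.log x := by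
    calc (A.card : ℝ) * 960 = ∑ _P ∈ A, (960 : ℝ) := by rw [Finset.sum_const, nsmul_eq_mul]
      _ ≤ ∑ P ∈ A, Real.log (P : ℝ) := Finset.sum_le_sum fun P hP => by
          refine hlogy.trans (Real.log_le_log (by exact_mod_cast hy1) ?_)
          exact_mod_cast (Finset.mem_filter.1 (hA0U1 (Finset.mem_sdiff.1 hP).1)).2.1.le
      _ ≤ ∑ P ∈ U, ell P := by
          refine le_trans (Finset.sum_le_sum fun P hP => ?_)
            (Finset.sum_le_sum_of_subset_of_nonneg hAU fun q _ _ => hell0 q)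
          rw [hell]
          refine le_mul_of_one_le_left (hlog0 P) ?_
          exact_mod_cast ((hUp P (hAU hP)).dvd_iff_one_le_factorization hu).1
            (Nat.mem_primeFactors.1 (hAU hP)).2.1
      _ ≤ Real.log x := by
          rw [hellU]
          exact Real.log_le_log (by exact_mod_cast Nat.pos_of_ne_zero hu) (by exact_mod_cast hux)
  have hAbound : ∑ P ∈ A, Real.log (P : ℝ) ≤
      Real.log x / 450 + 2 * (2 * ε + ∑ q ∈ G, Real.log (q : ℝ)) := by
    have hs0 : 0 < s := Finset.prod_pos fun q hq => pow_pos (hUp q (Finset.mem_filter.1 hq).1).pos _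
    have := log_prod_le_of_criterion hu hux hL hx hLup
      (fun P hP => hUp P (hAU hP)) hs0 hcrit
    linarith
  have hGbig : 2 / 15 * Real.log x ≤ ∑ q ∈ G, Real.log (q : ℝ) := by
    have hsplit : Real.log u ≤ 2 * ε + ∑ q ∈ U1, Real.log (q : ℝ) := by
      rw [← hellU]
      have e1 := Finset.sum_filter_add_sum_filter_not U (fun q => q ≤ y) ell
      have e2 : ∑ q ∈ U.filter (fun q => ¬q ≤ y), ell q ≤ ∑ q ∈ Fsq, ell q + ∑ q ∈ U1, ell q := by
        rw [← Finset.sum_union_inter]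
        refine le_trans (Finset.sum_le_sum_of_subset_of_nonneg ?_ fun q _ _ => hell0 q)
          (le_add_of_nonneg_right (Finset.sum_nonneg fun q _ => hell0 q))
        intro q hq
        obtain ⟨hqU, hqy⟩ := Finset.mem_filter.1 hq
        have h1q : 1 ≤ u.factorization q :=
          ((hUp q hqU).dvd_iff_one_le_factorization hu).1 (Nat.mem_primeFactors.1 hqU).2.1
        rcases le_or_gt 2 (u.factorization q) with h' | h'
        · exact Finset.mem_union_left _ (Finset.mem_filter.2 ⟨hqU, not_le.1 hqy, h'⟩)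
        · exact Finset.mem_union_right _ (Finset.mem_filter.2 ⟨hqU, not_le.1 hqy, by omega⟩)
      have e3 : ∑ q ∈ U1, ell q = ∑ q ∈ U1, Real.log (q : ℝ) := Finset.sum_congr rfl fun q hq => by
        rw [hell]
        simp only [(Finset.mem_filter.1 hq).2.2, Nat.cast_one, one_mul]
      linarith
    have hU1' : ∑ q ∈ U1, Real.log (q : ℝ) ≤
        ∑ q ∈ A, Real.log (q : ℝ) + ∑ q ∈ W, Real.log (q : ℝ) + ∑ q ∈ G, Real.log (q : ℝ) := by
      have hsub : U1 ⊆ A0 ∪ G := by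
        intro q hq
        by_cases h : ∀ r ∈ U, ¬q ∣ r - 1
        · exact Finset.mem_union_left _ (Finset.mem_filter.2 ⟨hq, h⟩)
        · simp only [not_forall, not_not] at h
          obtain ⟨r, hr, hd⟩ := h
          exact Finset.mem_union_right _ (Finset.mem_filter.2 ⟨hq, Or.inl ⟨r, hr, hd⟩⟩)
      have e1 := Finset.sum_le_sum_of_subset_of_nonneg (f := fun q : ℕ => Real.log (q : ℝ)) hsub
        fun q _ _ => hlog0 q
      have e2 : ∑ q ∈ A0 ∪ G, Real.log (q : ℝ) ≤ ∑ q ∈ A0, Real.log (q : ℝ) + ∑ q ∈ G, Real.log (q : ℝ) := by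
        rw [← Finset.sum_union_inter]
        exact le_add_of_nonneg_right (Finset.sum_nonneg fun q _ => hlog0 q)
      have e3 := Finset.sum_sdiff hWA0 (f := fun q : ℕ => Real.log (q : ℝ))
      simp only [← hA] at e3
      linarith
    linarith
  -- attached sets
  have hD : ∀ q ∈ G, ∃ D : Finset ℕ, D ⊆ U ∧ q ∉ D ∧ D.Nonempty ∧
      ∀ D' ⊆ D, ∑ P ∈ D, Real.log (P : ℝ) ≤ 2 * ∑ P ∈ D', Real.log (P : ℝ) →
        ((∃ r ∈ D', q ∣ r - 1) ∨ (∃ P ∈ D', y < P ∧ q ≤ P ^ 8 ∧ Base P q) ∨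
          ((∀ P ∈ D', y < P) ∧ D'.Nonempty ∧ (∏ P ∈ D', P) ^ 2 ≤ q ∧ q ≤ (∏ P ∈ D', P) ^ 32 ∧
            ∀ P ∈ D', Base P q)) := fun q hq =>
    exists_attached hUp (hUp q (hU1U (Finset.mem_filter.1 hq).1))
      (fun P hP => ⟨hU1U (hA0U1 (hparA0 q hP)),
        (Finset.mem_filter.1 (hA0U1 (hparA0 q hP))).2.1, (Finset.mem_filter.1 hP).2⟩)
      (Finset.mem_filter.1 hq).2
  choose! D hDU hDq hDne hDprop using hD
  obtain ⟨B, hBG, hBsum, hBhalf⟩ := exists_quarter G D (fun q : ℕ => Real.log (q : ℝ))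
    (fun P : ℕ => Real.log (P : ℝ)) (fun q _ => hlog0 q) (fun q _ P _ => hlog0 P) hDq
  have hBU : B ⊆ U := fun q hq => hU1U (Finset.mem_filter.1 (hBG hq)).1
  have hBdvd : (∏ q ∈ B, q) ∣ u :=
    Finset.prod_primes_dvd u (fun q hq => (hUp q (hBU hq)).prime)
      fun q hq => (Nat.mem_primeFactors.1 (hBU hq)).2.1
  obtain ⟨w, hw⟩ := hBdvd
  have hw0 : w ≠ 0 := right_ne_zero_of_mul (hw ▸ hu)
  have hwp : ∀ P ∈ U, P ∉ B → P ∈ w.primeFactors := by
    intro P hP hPB
    obtain ⟨hPp, hPu, -⟩ := Nat.mem_primeFactors.1 hP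
    rw [hw] at hPu
    rcases hPp.dvd_mul.1 hPu with h | h
    · obtain ⟨q, hq, hd⟩ := hPp.prime.exists_mem_finset_dvd h
      exact absurd ((Nat.prime_dvd_prime_iff_eq hPp (hUp q (hBU hq))).1 hd ▸ hq) hPB
    · exact Nat.mem_primeFactors.2 ⟨hPp, h, hw0⟩
  refine ⟨B, w, hw, fun q hq => ?_, ?_⟩
  · have hqG := hBG hq
    obtain ⟨hqU, hyq, -⟩ := Finset.mem_filter.1 (Finset.mem_filter.1 hqG).1
    refine ⟨(Nat.le_of_mem_primeFactors hqU).trans hux, hUp q hqU, hyq, ?_⟩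
    have hmem : ∀ P ∈ D q \ B, P ∈ w.primeFactors := fun P hP =>
      hwp P (hDU q hqG (Finset.mem_sdiff.1 hP).1) (Finset.mem_sdiff.1 hP).2
    rcases hDprop q hqG (D q \ B) Finset.sdiff_subset (hBhalf q hq) with
      ⟨r, hr, hd⟩ | ⟨P, hP, hyP, h8, hb⟩ | ⟨hy', hne, h2, h32, hb⟩
    · exact Or.inl ⟨r, hmem r hr, hd⟩
    · exact Or.inr (Or.inl ⟨P, hmem P hP, hyP, h8, hb⟩)
    · exact Or.inr (Or.inr ⟨D q \ B, fun P hP => Finset.mem_filter.2 ⟨hmem P hP, hy' P hP⟩,
        hne, h2, h32, hb⟩)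
  · have hp : ∀ q ∈ B, q ≠ 0 := fun q hq => hU0 q (hBU hq)
    have hpos : (0 : ℝ) < ((∏ q ∈ B, q : ℕ) : ℝ) := by
      exact_mod_cast Finset.prod_pos fun q hq => (hUp q (hBU hq)).pos
    rw [Real.rpow_def_of_pos hx0, ← Real.lt_log_iff_exp_lt hpos, ← sum_log_eq_log_prod hp]
    linarith

end Vale.Agent.P033
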