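import Vale.Agent.P033.Descent

/-!
No circulant Hadamard matrix of order 4u² when a prime power factor of u has very large prime.
-/

namespace Vale.Agent.P033

open Finset

lemma lt_orderOf_of_pow_lt {P q W : ℕ} (hP : P.Prime) (hq : q.Prime) (hbig : q ^ W < P) :
    W < orderOf (q : ZMod P) ∨ W = 0 := by
  have : Fact P.Prime := ⟨hP⟩
  rcases Nat.eq_zero_or_pos W with h | hW
  · exact Or.inr h
  refine Or.inl (not_le.1 fun hle => ?_)
  have hqP : q < P := lt_of_le_of_lt (Nat.le_self_pow (by omega) q) hbig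
  have hq0 : (q : ZMod P) ≠ 0 := by
    rw [Ne, ZMod.natCast_eq_zero_iff]
    exact fun h => absurd (Nat.le_of_dvd hq.pos h) (not_le.2 hqP)
  set d := orderOf (q : ZMod P)
  have hd : 0 < d := orderOf_pos_iff.2 (isOfFinOrder_iff_pow_eq_one.2
    ⟨P - 1, by have := hP.two_le; omega, ZMod.pow_card_sub_one_eq_one hq0⟩)
  have h1 : P ∣ q ^ d - 1 := by
    rw [← ZMod.natCast_eq_zero_iff, Nat.cast_sub (Nat.one_le_pow _ _ hq.pos), Nat.cast_pow,
      pow_orderOf_eq_one, Nat.cast_one, sub_self]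
  have h2 : 1 < q ^ d := Nat.one_lt_pow hd.ne' hq.one_lt
  have h3 := Nat.le_of_dvd (by omega) h1
  have h4 : q ^ d ≤ q ^ W := Nat.pow_le_pow_right hq.pos hle
  omega

/-- If P is a prime above m^W and 32 m, with W = (m^4)^(2^ω(m)), then P^k m excludes. -/
theorem not_order_of_large_prime {m P k : ℕ} (hm : m ≠ 0) (hk : k ≠ 0) (hP : P.Prime)
    (hlarge : m ^ ((m ^ 4) ^ 2 ^ m.primeFactors.card) < P) (hPm : 32 * m < P) :
    ¬IsCirculantHadamardOrder (4 * (P ^ k * m) ^ 2) := by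
  intro hord
  have : Fact P.Prime := ⟨hP⟩
  set n := 4 * (P ^ k * m) ^ 2 with hn
  set M := 4 * m ^ 2 with hM
  set W := (m ^ 4) ^ 2 ^ m.primeFactors.card with hW
  have hnM : n = P ^ (2 * k) * M := by rw [hn, hM, pow_mul']; ring
  have hn0 : n ≠ 0 := by have := hP.pos; positivity
  have : NeZero n := ⟨hn0⟩
  have hP2' : P ≠ 2 := by omega
  have hdm : ∀ r : ℕ, r.Prime → r ∣ M → r ≤ 2 * m := by
    intro r hr hd
    rcases hr.dvd_mul.1 hd with h | h
    · have : r ∣ 2 ^ 2 := h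
      have := (Nat.prime_dvd_prime_iff_eq hr Nat.prime_two).1 (hr.dvd_of_dvd_pow this)
      omega
    · have := Nat.le_of_dvd (by omega) (hr.dvd_of_dvd_pow h); omega
  have hPM : ¬P ∣ M := fun h => by have := hdm P hP h; omega
  obtain ⟨j, hj⟩ : ∃ j, 2 * k = j + 2 := ⟨2 * k - 2, by omega⟩
  have hPn : P * P ∣ n := by
    rw [hnM, hj]
    exact Dvd.intro (P ^ j * M) (by ring)
  have : CharZero ℚ := inferInstance
  have : NeZero ((n : ℕ) : ℚ) := ⟨Nat.cast_ne_zero.2 hn0⟩
  have : IsCyclotomicExtension {n} ℚ (CyclotomicField n ℚ) :=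
    CyclotomicField.isCyclotomicExtension n ℚ
  have hdiv : n / P = P ^ (j + 1) * M := by
    rw [hnM, hj, pow_succ' P (j + 1), mul_assoc, Nat.mul_div_cancel_left _ hP.pos]
  have hfix : ∀ q : ℕ, q.Prime → q ∣ P ^ k →
      FixesPrimes n (CyclotomicField n ℚ) (sh n P hPn 1) q := by
    intro q hq hqt
    obtain rfl := (Nat.prime_dvd_prime_iff_eq hq hP).1 (hq.dvd_of_dvd_pow hqt)
    refine fixesPrimes_of_modEq n (CyclotomicField n ℚ) hq (c := 2 * k) (m := M) (e := 0) hnM _ ?_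
    have hval : ((sh n q hPn 1 : ZMod n)).val ≡ 1 + n / q [MOD n] := by
      rw [← ZMod.natCast_eq_natCast_iff, ZMod.natCast_zmod_val]
      simp [sh, ZMod.val_one]
    refine (hval.of_dvd (Dvd.intro_left _ hnM.symm)).trans ?_
    rw [pow_zero, hdiv]
    exact Nat.ModEq.symm ((Nat.modEq_iff_dvd' (Nat.le_add_right 1 _)).2 (by
      rw [Nat.add_sub_cancel_left]; exact dvd_mul_left _ _))
  have hT : ∀ q ∈ m.primeFactors, ∃ g : (ZMod n)ˣ, FixesPrimes n (CyclotomicField n ℚ) g q ∧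
      W < orderOf (ZMod.castHom (dvd_n n P hPn) (ZMod P) (g : ZMod n)) := by
    intro q hq
    obtain ⟨hqp, hqm, -⟩ := Nat.mem_primeFactors.1 hq
    have hqle : q ≤ m := Nat.le_of_dvd (by omega) hqm
    have hqP : q ≠ P := by omega
    set c := n.factorization q
    set R := n / q ^ c
    have hns : n = q ^ c * R := (Nat.ordProj_mul_ordCompl_eq_self n q).symm
    have hcR : Nat.Coprime q R := Nat.coprime_ordCompl hqp hn0
    have hPR : P ∣ R := by
      have h : P ∣ q ^ c * R := hns ▸ dvd_trans (dvd_mul_left P P) hPn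
      rcases hP.dvd_mul.1 h with h | h
      · exact absurd ((Nat.prime_dvd_prime_iff_eq hP hqp).1 (hP.dvd_of_dvd_pow h)).symm hqP
      · exact h
    obtain ⟨g0, hg1, hg2⟩ := Nat.chineseRemainder (Nat.Coprime.pow_left c hcR) 1 q
    have hg0 : Nat.Coprime g0 n := by
      rw [hns]
      refine Nat.Coprime.mul_right ?_ ?_
      · exact (Nat.ModEq.gcd_eq hg1).trans (Nat.gcd_one_left _)
      · exact (Nat.ModEq.gcd_eq hg2).trans hcR
    refine ⟨ZMod.unitOfCoprime g0 hg0, ?_, ?_⟩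
    · refine fixesPrimes_of_modEq n (CyclotomicField n ℚ) hqp hns _ (e := 1) ?_
      rw [ZMod.coe_unitOfCoprime, ZMod.val_natCast, pow_one]
      exact ((Nat.mod_modEq g0 n).of_dvd (Dvd.intro_left _ hns.symm)).trans hg2
    · rw [ZMod.coe_unitOfCoprime, map_natCast]
      have hgP : (g0 : ZMod P) = (q : ZMod P) := by
        rw [ZMod.natCast_eq_natCast_iff]
        exact hg2.of_dvd hPR
      rw [hgP]
      have hlt : q ^ W < P := lt_of_le_of_lt (Nat.pow_le_pow_left hqle W) hlarge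
      exact (lt_orderOf_of_pow_lt hP hqp hlt).resolve_right
        (by rw [hW]; have : 0 < m := by omega
            positivity)
  have := mul_totient_le_of_order n (CyclotomicField n ℚ) P hPn hn rfl hP2' hfix hT le_rfl hord
  have hcop : Nat.Coprime (P ^ (2 * k)) M := Nat.Coprime.pow_left _ ((hP.coprime_iff_not_dvd).2 hPM)
  rw [hnM, Nat.totient_mul hcop, hj, Nat.totient_prime_pow hP (Nat.succ_pos _)] at this
  simp only [Nat.succ_sub_succ_eq_sub, Nat.sub_zero] at this
  have hrad : ∏ r ∈ M.primeFactors, r ∣ 2 * m := by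
    refine Finset.prod_primes_dvd _ (fun r hr => (Nat.prime_of_mem_primeFactors hr).prime) ?_
    intro r hr
    obtain ⟨hrp, hrd, -⟩ := Nat.mem_primeFactors.1 hr
    rcases hrp.dvd_mul.1 hrd with h | h
    · have h2 : r ∣ 2 ^ 2 := h
      exact dvd_mul_of_dvd_left (hrp.dvd_of_dvd_pow h2) m
    · exact dvd_mul_of_dvd_right (hrp.dvd_of_dvd_pow h) 2
  have hradle := Nat.le_of_dvd (by omega) hrad
  have hone : 1 ≤ ∏ r ∈ M.primeFactors, (r - 1) := Finset.one_le_prod' fun r hr => by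
    have := (Nat.prime_of_mem_primeFactors hr).two_le
    omega
  have hMle : M ≤ M.totient * (2 * m) := by
    calc M ≤ M * ∏ r ∈ M.primeFactors, (r - 1) := Nat.le_mul_of_pos_right _ hone
      _ = M.totient * ∏ r ∈ M.primeFactors, r := (Nat.totient_mul_prod_primeFactors M).symm
      _ ≤ _ := Nat.mul_le_mul_left _ hradle
  have hMpos : 0 < M := by positivity
  have hPpos : 0 < P ^ (j + 1) := pow_pos hP.pos _
  have h4 : (P - 1) * M.totient ≤ 4 * M := by
    refine Nat.le_of_mul_le_mul_left ?_ (Nat.mul_pos hP.pos hPpos)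
    calc P * P ^ (j + 1) * ((P - 1) * M.totient)
        = P * (P ^ (j + 1) * (P - 1) * M.totient) := by ring
      _ ≤ 4 * (P ^ (j + 2) * M) := this
      _ = P * P ^ (j + 1) * (4 * M) := by ring
  have h5 : (P - 1) * M ≤ 4 * M * (2 * m) :=
    calc (P - 1) * M ≤ (P - 1) * (M.totient * (2 * m)) := Nat.mul_le_mul_left _ hMle
      _ = (P - 1) * M.totient * (2 * m) := by ring
      _ ≤ 4 * M * (2 * m) := Nat.mul_le_mul_right _ h4
  have h6 : P - 1 ≤ 8 * m := by
    refine Nat.le_of_mul_le_mul_right (c := M) ?_ hMpos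
    calc (P - 1) * M ≤ 4 * M * (2 * m) := h5
      _ = 8 * m * M := by ring
  omega

end Vale.Agent.P033
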