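import Vale.Agent.P033.Ramified
import Vale.Agent.P033.Defs

/-!
The multi-prime bound: if u = t s and for every P in A the automorphism of order P fixes all
primes above t, then (∏ A) φ(n) ≤ 4 n s² ∏_{P ∈ A} P^(2/P).
-/

namespace Vale.Agent.P033

open NumberField Finset

variable (n : ℕ) [NeZero n] (K : Type) [Field K] [NumberField K] [IsCyclotomicExtension {n} ℚ K]

/-- The primes above q are fixed by all automorphisms that are trivial on the (n/P)-th roots. -/
def FixShift (P q : ℕ) : Prop :=
  ∀ a : (ZMod n)ˣ, (a : ZMod n).val ≡ 1 [MOD n / P] → FixesPrimes n K a q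

/-- The additive character of ZMod n given by the root of unity. -/
noncomputable def psi : AddChar (ZMod n) (𝓞 K) :=
  AddChar.zmodChar n (zI_prim n K).pow_eq_one

lemma psi_val (j : ZMod n) : psi n K j = zI n K ^ j.val := by rw [psi, AddChar.zmodChar_apply]

lemma sum_psi (b : ZMod n) : ∑ j : ZMod n, psi n K (j * b) = if b = 0 then (n : 𝓞 K) else 0 := by
  simpa [psi] using AddChar.sum_mulShift b
    (AddChar.zmodChar_primitive_of_primitive_root n (zI_prim n K))

lemma aut_psi (a : (ZMod n)ˣ) (j : ZMod n) : aut n K a (psi n K j) = psi n K ((a : ZMod n) * j) := by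
  rw [psi_val, psi_val]
  refine aut_zI_pow n K _ _ _ ?_
  simp

lemma cj_psi (j : ZMod n) : cj n K (psi n K j) = psi n K (-j) := by rw [cj, aut_psi]; simp

/-- The terms of S with exponent congruent to r modulo d. -/
noncomputable def part (S : Finset (ZMod n)) (d r : ℕ) : 𝓞 K :=
  ∑ j ∈ S.filter (fun j => j.val % d = r % d), psi n K j

/-- Sum of the logarithms of the squared absolute values of all conjugates. -/
noncomputable def lsum (x : 𝓞 K) : ℝ :=
  ∑ a : (ZMod n)ˣ, Real.log (Complex.normSq (emb K (aut n K a x)))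

lemma normSq_aut_pos {x : 𝓞 K} (hx : x ≠ 0) (a : (ZMod n)ˣ) :
    0 < Complex.normSq (emb K (aut n K a x)) := by
  rw [Complex.normSq_pos]
  intro h
  exact hx ((aut_eq_zero n K).1 (emb_inj K (by rw [h, map_zero])))

lemma lsum_mul {x y : 𝓞 K} (hx : x ≠ 0) (hy : y ≠ 0) :
    lsum n K (x * y) = lsum n K x + lsum n K y := by
  simp only [lsum, map_mul, ← Finset.sum_add_distrib]
  exact Finset.sum_congr rfl fun a _ =>
    Real.log_mul (normSq_aut_pos n K hx a).ne' (normSq_aut_pos n K hy a).ne'

lemma lsum_pow (x : 𝓞 K) (k : ℕ) : lsum n K (x ^ k) = k * lsum n K x := by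
  simp only [lsum, map_pow, Finset.mul_sum, Real.log_pow]

lemma lsum_natCast (N : ℕ) : lsum n K (N : 𝓞 K) = 2 * n.totient * Real.log N := by
  simp only [lsum, map_natCast, Complex.normSq_natCast, Finset.sum_const, Finset.card_univ,
    ZMod.card_units_eq_totient, nsmul_eq_mul]
  rw [← pow_two, Real.log_pow]
  push_cast
  ring

lemma lsum_cj (x : 𝓞 K) : lsum n K (cj n K x) = lsum n K x := by
  simp only [lsum]
  refine Finset.sum_congr rfl fun a _ => ?_
  rw [show aut n K a (cj n K x) = cj n K (aut n K a x) from aut_comm n K a (-1) x, emb_cj,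
    Complex.normSq_conj]

lemma lsum_nonneg {x : 𝓞 K} (hx : x ≠ 0) : 0 ≤ lsum n K x := by
  have : IsGalois ℚ K := IsCyclotomicExtension.isGalois {n} ℚ K
  set N : ℤ := Algebra.norm ℤ x with hN
  have hN0 : N ≠ 0 := (Algebra.norm_ne_zero_iff).2 hx
  have hprod : (∏ a : (ZMod n)ˣ, emb K (aut n K a x)) = (N : ℂ) := by
    have h1 : algebraMap ℚ K (Algebra.norm ℚ (x : K)) = ∏ σ : Gal(K/ℚ), σ (x : K) :=
      Algebra.norm_eq_prod_automorphisms ℚ (x : K)
    have h2 : (N : ℚ) = Algebra.norm ℚ (x : K) := Algebra.coe_norm_int x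
    have h3 : ((∏ a : (ZMod n)ˣ, aut n K a x : 𝓞 K) : K) = algebraMap ℚ K (N : ℚ) := by
      rw [h2, h1, RingOfIntegers.coe_eq_algebraMap, map_prod]
      exact Fintype.prod_equiv (IsCyclotomicExtension.Rat.galEquivZMod n K).symm.toEquiv _ _
        (fun a => rfl)
    have h4 : (∏ a : (ZMod n)ˣ, aut n K a x : 𝓞 K) = (N : 𝓞 K) := by
      apply RingOfIntegers.coe_injective
      show ((∏ a : (ZMod n)ˣ, aut n K a x : 𝓞 K) : K) = _
      rw [h3]; simp
    rw [← map_prod, h4, map_intCast]
  rw [lsum, ← Real.log_prod (fun a _ => (normSq_aut_pos n K hx a).ne'), ← map_prod, hprod]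
  apply Real.log_nonneg
  have h : (1 : ℤ) ≤ N * N := by have := mul_self_pos.2 hN0; omega
  rw [Complex.normSq_intCast]
  exact_mod_cast h

/-- An element lying in enough powers of all primes above T is divisible by T. -/
lemma dvd_of_forall_count {T z : 𝓞 K} (hT : T ≠ 0)
    (h : ∀ Q ∈ UniqueFactorizationMonoid.normalizedFactors (Ideal.span {T}),
      z ∈ Q ^ (UniqueFactorizationMonoid.normalizedFactors (Ideal.span {T})).count Q) :
    T ∣ z := by
  classical
  by_cases hz : z = 0
  · simp [hz]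
  have hspan : ∀ y : 𝓞 K, y ≠ 0 → Ideal.span {y} ≠ (0 : Ideal (𝓞 K)) := by
    intro y hy
    simpa [Ideal.zero_eq_bot, Ideal.span_singleton_eq_bot] using hy
  rw [← Ideal.span_singleton_le_span_singleton, ← Ideal.dvd_iff_le,
    UniqueFactorizationMonoid.dvd_iff_normalizedFactors_le_normalizedFactors (hspan _ hT)
      (hspan _ hz), Multiset.le_iff_count]
  intro Q
  by_cases hQ : Q ∈ UniqueFactorizationMonoid.normalizedFactors (Ideal.span {T})
  swap
  · rw [Multiset.count_eq_zero_of_notMem hQ]; exact Nat.zero_le _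
  have hQp : Prime Q := UniqueFactorizationMonoid.prime_of_normalized_factor Q hQ
  set v := (UniqueFactorizationMonoid.normalizedFactors (Ideal.span {T})).count Q
  have hdvd : Q ^ v ∣ Ideal.span {z} := by
    rw [Ideal.dvd_iff_le, Ideal.span_singleton_le_iff_mem]; exact h Q hQ
  rw [UniqueFactorizationMonoid.dvd_iff_normalizedFactors_le_normalizedFactors
    (pow_ne_zero _ hQp.ne_zero) (hspan _ hz), UniqueFactorizationMonoid.normalizedFactors_pow,
    UniqueFactorizationMonoid.normalizedFactors_irreducible hQp.irreducible] at hdvd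
  have := Multiset.count_le_of_le (normalize Q) hdvd
  simpa using this

lemma mem_pow_count {x : 𝓞 K} (hx : x ≠ 0) (Q : Ideal (𝓞 K)) :
    x ∈ Q ^ (UniqueFactorizationMonoid.normalizedFactors (Ideal.span {x})).count Q := by
  classical
  have h0 : Ideal.span {x} ≠ (0 : Ideal (𝓞 K)) := by
    simpa [Ideal.zero_eq_bot, Ideal.span_singleton_eq_bot] using hx
  have hdvd : Q ^ (UniqueFactorizationMonoid.normalizedFactors (Ideal.span {x})).count Q ∣
      Ideal.span {x} := by
    refine dvd_trans ?_ (UniqueFactorizationMonoid.prod_normalizedFactors h0).dvd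
    rw [← Multiset.prod_replicate]
    exact Multiset.prod_dvd_prod_of_le (Multiset.le_count_iff_replicate_le.1 le_rfl)
  exact Ideal.dvd_iff_le.1 hdvd (Ideal.mem_span_singleton_self _)

/-- At a prime fixed by all shifts of A, the parts lie in nearly the same power as the whole. -/
lemma part_mem_pow {A : Finset ℕ} (hA : ∀ P ∈ A, P.Prime ∧ P ≠ 2 ∧ P * P ∣ n) {q : ℕ}
    (hq : q.Prime) (hfix : ∀ P ∈ A, FixShift n K P q) (S : Finset (ZMod n))
    (Q : Ideal (𝓞 K)) [hQ : Q.IsPrime] (hqQ : (q : 𝓞 K) ∈ Q) {k : ℕ}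
    (hX : part n K S 1 0 ∈ Q ^ k) :
    ∀ B ⊆ A, ∀ r, part n K S (∏ P ∈ B, P) r ∈ Q ^ (k - if q ∈ B then q - 1 else 0) := by
  classical
  intro B
  induction B using Finset.induction_on with
  | empty =>
    intro _ r
    simpa [part, Nat.mod_one] using hX
  | insert P B hPB ih =>
    intro hsub r
    rw [Finset.insert_subset_iff] at hsub
    obtain ⟨hPA, hBA⟩ := hsub
    obtain ⟨hPp, hP2, hPP⟩ := hA P hPA
    have : Fact P.Prime := ⟨hPp⟩
    set d := ∏ R ∈ B, R with hd
    have hcop : Nat.Coprime P d := Nat.Coprime.prod_right fun R hR =>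
      (Nat.coprime_primes hPp (hA R (hBA hR)).1).2 fun h => hPB (h ▸ hR)
    set f : ZMod P → 𝓞 K := fun i => ∑ j ∈ (S.filter (fun j => j.val % d = r % d)).filter
      (fun j => ((j.val : ℕ) : ZMod P) = i), psi n K j with hf
    have hfc : ∀ i, IsClass n K P hPP i (f i) := by
      intro i b
      simp only [hf, map_sum, Finset.mul_sum]
      refine Finset.sum_congr rfl fun j hj => ?_
      rw [psi_val, sig_zI_pow, (Finset.mem_filter.1 hj).2]
    have hfs : ∑ i, f i = part n K S d r := by
      simp only [hf, part]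
      exact Finset.sum_fiberwise _ _ _
    have hnew : part n K S (∏ R ∈ insert P B, R) r = f (r : ZMod P) := by
      simp only [hf, part, Finset.filter_filter]
      refine Finset.sum_congr (Finset.filter_congr fun j _ => ?_) fun _ _ => rfl
      rw [Finset.prod_insert hPB, ← hd, ZMod.natCast_eq_natCast_iff]
      show j.val ≡ r [MOD P * d] ↔ j.val ≡ r [MOD d] ∧ _
      rw [← Nat.modEq_and_modEq_iff_modEq_mul hcop, and_comm]
    rw [hnew]
    have hz := ih hBA r
    rw [← hfs] at hz
    by_cases hPq : P = q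
    · subst hPq
      rw [if_neg hPB, Nat.sub_zero] at hz
      rw [if_pos (Finset.mem_insert_self P B)]
      obtain ⟨v, M, hM, hnv⟩ := Nat.exists_eq_pow_mul_and_not_dvd (NeZero.ne n) P hPp.ne_one
      have hv : 2 ≤ v := by
        by_contra h
        rcases (show v = 0 ∨ v = 1 by omega) with rfl | rfl
        · rw [pow_zero, one_mul] at hnv
          exact hM (hnv ▸ dvd_trans (dvd_mul_left P P) hPP)
        · rw [pow_one] at hnv
          exact hM (Nat.dvd_of_mul_dvd_mul_left hPp.pos (hnv ▸ hPP))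
      exact class_mem_pow_ramified n K P hPP (c := v - 2) (M := M)
        (by rw [show v - 2 + 2 = v by omega]; exact hnv) Q hqQ hM hP2 f hfc hz _
    · rw [show (if q ∈ insert P B then q - 1 else 0) = if q ∈ B then q - 1 else 0 by
        simp [Ne.symm hPq]]
      refine class_mem_pow_unramified n K P hPP Q ?_ (fun j x => ?_) f hfc hz _
      · intro hPQ
        obtain ⟨a, b, hab⟩ := Nat.Coprime.isCoprime ((Nat.coprime_primes hPp hq).2 hPq)
        refine hQ.ne_top ((Ideal.eq_top_iff_one _).2 ?_)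
        have h := congrArg (fun z : ℤ => (z : 𝓞 K)) hab
        push_cast at h
        rw [← h]
        exact add_mem (Q.mul_mem_left _ hPQ) (Q.mul_mem_left _ hqQ)
      · refine hfix P hPA (sh n P hPP j) ?_ Q hQ hqQ x
        have hdvd : n / P ∣ n := Nat.div_dvd_of_dvd (dvd_n n P hPP)
        have h1 : ((sh n P hPP j : ZMod n)).val ≡ 1 + n / P * j.val [MOD n] := by
          rw [← ZMod.natCast_eq_natCast_iff, ZMod.natCast_zmod_val]
          simp [sh]
        refine (h1.of_dvd hdvd).trans ?_
        exact Nat.ModEq.symm ((Nat.modEq_iff_dvd' (Nat.le_add_right 1 _)).2 (by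
          rw [Nat.add_sub_cancel_left]; exact dvd_mul_right _ _))

/-- The main bound. -/
theorem prod_totient_le_of_order {u t s : ℕ} {A : Finset ℕ} (hn : n = 4 * u ^ 2) (hts : u = t * s)
    (hA : ∀ P ∈ A, P.Prime ∧ P ≠ 2 ∧ P ∣ u)
    (hfix : ∀ P ∈ A, ∀ q : ℕ, q.Prime → q ∣ t → FixShift n K P q)
    (hord : IsCirculantHadamardOrder n) :
    (((∏ P ∈ A, P : ℕ) : ℝ)) * n.totient ≤
      4 * n * s ^ 2 * Real.exp (∑ P ∈ A, 2 * Real.log P / P) := by
  classical
  have hu : u ≠ 0 := by rintro rfl; exact NeZero.ne n (by simpa using hn)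
  have ht0 : t ≠ 0 := left_ne_zero_of_mul (hts ▸ hu)
  have hs0 : s ≠ 0 := right_ne_zero_of_mul (hts ▸ hu)
  have hA' : ∀ P ∈ A, P.Prime ∧ P ≠ 2 ∧ P * P ∣ n := fun P hP =>
    ⟨(hA P hP).1, (hA P hP).2.1, hn ▸ dvd_mul_of_dvd_right
      ((mul_dvd_mul (hA P hP).2.2 (hA P hP).2.2).trans (by rw [pow_two])) 4⟩
  set d := ∏ P ∈ A, P with hd
  have hd0 : 0 < d := Finset.prod_pos fun P hP => (hA P hP).1.pos
  have hdu : d ∣ u := Finset.prod_primes_dvd u (fun P hP => (hA P hP).1.prime) fun P hP =>
    (hA P hP).2.2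
  have hdn : d ∣ n := hn ▸ dvd_mul_of_dvd_right (hdu.trans (dvd_pow_self u two_ne_zero)) 4
  have hdlt : d < n := by
    have h1 := Nat.le_of_dvd (Nat.pos_of_ne_zero hu) hdu
    have h2 : u ≤ u ^ 2 := Nat.le_self_pow two_ne_zero u
    omega
  obtain ⟨g, hpm, hg⟩ := hord.exists_zmod
  set S := (Finset.univ : Finset (ZMod n)).filter fun j => g j = 1 with hS
  set x : ℕ → 𝓞 K := fun r => part n K S d r with hxdef
  set X : 𝓞 K := part n K S 1 0 with hX
  -- the parts in terms of g
  have htwo : ∀ e r : ℕ, 0 < e → e ∣ n → e < n →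
      ∑ j ∈ univ.filter (fun j : ZMod n => j.val % e = r % e), (g j : 𝓞 K) * psi n K j
        = 2 * part n K S e r := by
    intro e r he hen helt
    set T := univ.filter (fun j : ZMod n => j.val % e = r % e) with hT
    have hsum0 : ∑ j ∈ T, psi n K j = 0 := by
      have hne : (e : ZMod n) ≠ 0 := by
        rw [Ne, ZMod.natCast_eq_zero_iff]
        exact fun h => absurd (Nat.le_of_dvd he h) (not_le.2 helt)
      have hshift : ∑ j ∈ T, psi n K j = psi n K (e : ZMod n) * ∑ j ∈ T, psi n K j := by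
        rw [Finset.mul_sum]
        simp only [← AddChar.map_add_eq_mul]
        refine (Finset.sum_equiv (Equiv.addLeft (e : ZMod n)) ?_ (fun j _ => rfl)).symm
        intro j
        simp only [hT, Finset.mem_filter, Finset.mem_univ, true_and, Equiv.coe_addLeft]
        rw [ZMod.val_add, ZMod.val_natCast, Nat.mod_eq_of_lt helt, Nat.mod_mod_of_dvd _ hen,
          Nat.add_mod_left]
      have h1 : psi n K (e : ZMod n) ≠ 1 := by
        rw [psi_val, ZMod.val_natCast, Nat.mod_eq_of_lt helt]
        exact (zI_prim n K).pow_ne_one_of_pos_of_lt he.ne' helt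
      by_contra h
      exact h1 (mul_right_cancel₀ h (hshift.symm.trans (one_mul _).symm))
    have : ∀ j, (g j : 𝓞 K) * psi n K j
        = (if g j = 1 then 2 * psi n K j else 0) - psi n K j := by
      intro j
      rcases hpm j with h | h <;> rw [h]
      · simp; ring
      · simp
    rw [Finset.sum_congr rfl fun j _ => this j, Finset.sum_sub_distrib, hsum0, sub_zero,
      ← Finset.sum_filter, ← Finset.mul_sum, part, hS, hT, Finset.filter_filter, Finset.filter_filter]
    congr 1
    refine Finset.sum_congr ?_ fun _ _ => rfl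
    ext j
    simp [and_comm]
  have horth : ∀ e : ℕ, 0 < e → e ∣ n → e < n →
      ∑ r ∈ range e, part n K S e r * cj n K (part n K S e r) = ((u ^ 2 : ℕ) : 𝓞 K) := by
    intro e he hen helt
    apply mul_left_cancel₀ (show (4 : 𝓞 K) ≠ 0 by norm_num)
    rw [Finset.mul_sum]
    have h4 : ∀ r, 4 * (part n K S e r * cj n K (part n K S e r))
        = (2 * part n K S e r) * cj n K (2 * part n K S e r) := by
      intro r; rw [map_mul, map_ofNat]; ring
    simp only [h4, ← htwo e _ he hen helt, map_sum, map_mul, map_intCast, cj_psi,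
      Finset.sum_mul_sum, Finset.sum_filter, apply_ite (cj n K), map_zero, ite_mul, mul_ite,
      zero_mul, mul_zero, Finset.sum_ite_irrel, Finset.sum_const_zero]
    rw [Finset.sum_comm]
    have e1 : ∀ k : ZMod n, ∑ r ∈ range e, ∑ j : ZMod n, (if j.val % e = r % e then
        (if k.val % e = r % e then
          (g k : 𝓞 K) * psi n K k * ((g j : 𝓞 K) * psi n K (-j)) else 0) else 0)
        = ∑ j : ZMod n, if k.val % e = j.val % e then
          ((g j * g k : ℤ) : 𝓞 K) * psi n K (k - j) else 0 := by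
      intro k
      rw [Finset.sum_comm]
      refine Finset.sum_congr rfl fun j _ => ?_
      rw [Finset.sum_eq_single (k.val % e) (fun r hr hne => ?_)
        (fun h => absurd (Finset.mem_range.2 (Nat.mod_lt _ he)) h), Nat.mod_mod, if_pos rfl]
      · by_cases h : j.val % e = k.val % e
        · rw [if_pos h, if_pos h.symm, sub_eq_add_neg k j, AddChar.map_add_eq_mul]; push_cast; ring
        · rw [if_neg h, if_neg (Ne.symm h)]
      · split_ifs with h1 h2
        · exact absurd (by rw [h2, Nat.mod_eq_of_lt (Finset.mem_range.1 hr)]) hne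
        · rfl
        · rfl
    rw [Finset.sum_congr rfl fun k _ => e1 k, Finset.sum_comm]
    have e2 : ∀ j : ZMod n, (∑ k : ZMod n, if k.val % e = j.val % e then
        ((g j * g k : ℤ) : 𝓞 K) * psi n K (k - j) else 0)
        = ∑ a : ZMod n, if a.val % e = 0 then
          ((g (j + a) * g j : ℤ) : 𝓞 K) * psi n K a else 0 := by
      intro j
      refine (Fintype.sum_equiv (Equiv.addLeft j) _ _ fun a => ?_).symm
      simp only [Equiv.coe_addLeft, add_sub_cancel_left]
      have hiff : (j + a).val % e = j.val % e ↔ a.val % e = 0 := by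
        rw [ZMod.val_add, Nat.mod_mod_of_dvd _ hen]
        constructor
        · intro h
          have : j.val + a.val ≡ j.val + 0 [MOD e] := by rw [Nat.add_zero]; exact h
          exact Nat.ModEq.add_left_cancel' _ this
        · intro h
          rw [Nat.add_mod, h, Nat.add_zero, Nat.mod_mod]
      simp only [hiff, mul_comm (g j)]
    rw [Finset.sum_congr rfl fun j _ => e2 j, Finset.sum_comm]
    have e3 : ∀ a : ZMod n, (∑ j : ZMod n, if a.val % e = 0 then
        ((g (j + a) * g j : ℤ) : 𝓞 K) * psi n K a else 0)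
        = if a = 0 then (n : 𝓞 K) else 0 := by
      intro a
      by_cases h : a.val % e = 0
      · simp only [if_pos h, ← Finset.sum_mul, ← Int.cast_sum, hg]
        split_ifs with h0
        · subst h0; simp
        · simp
      · simp only [if_neg h, Finset.sum_const_zero]
        rw [if_neg]
        rintro rfl
        simp at h
    rw [Finset.sum_congr rfl fun a _ => e3 a, Finset.sum_ite_eq' univ (0 : ZMod n),
      if_pos (Finset.mem_univ _)]
    rw [hn]; push_cast; ring
  have hXX : X * cj n K X = ((u ^ 2 : ℕ) : 𝓞 K) := by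
    have := horth 1 one_pos (one_dvd n) (by omega)
    simpa using this
  have hX0 : X ≠ 0 := by
    intro h
    rw [h, zero_mul] at hXX
    exact hu (by simpa using (Nat.cast_eq_zero.1 hXX.symm))
  have hcX : cj n K X ≠ 0 := fun h => hX0 ((aut_eq_zero n K).1 h)
  -- the correction at the primes of A dividing t
  set A₀ := A.filter (fun P => P ∣ t) with hA₀
  set π : ℕ → 𝓞 K := fun P => eta n K (n / P ^ n.factorization P) - 1 with hπ
  set Cf : 𝓞 K := ∏ P ∈ A₀, π P ^ (2 * (P - 1)) with hCf
  have hnP : ∀ P ∈ A, ∃ c, n = P ^ (c + 2) * (n / P ^ n.factorization P) ∧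
      n.factorization P = c + 2 ∧ ¬P ∣ n / P ^ n.factorization P := by
    intro P hP
    obtain ⟨hPp, -, hPP⟩ := hA' P hP
    have h2 : 2 ≤ n.factorization P :=
      (hPp.pow_dvd_iff_le_factorization (NeZero.ne n)).1 (by rwa [pow_two])
    refine ⟨n.factorization P - 2, ?_, by omega, Nat.not_dvd_ordCompl hPp (NeZero.ne n)⟩
    rw [show n.factorization P - 2 + 2 = n.factorization P by omega]
    exact (Nat.ordProj_mul_ordCompl_eq_self n P).symm
  have hπ0 : ∀ P ∈ A, π P ≠ 0 := by
    intro P hP
    obtain ⟨c, hc, -, -⟩ := hnP P hP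
    have : Fact P.Prime := ⟨(hA P hP).1⟩
    exact sub_ne_zero.2 ((eta_prim n K P hc).ne_one (Nat.one_lt_pow (by omega) (hA P hP).1.one_lt))
  have hCf0 : Cf ≠ 0 := Finset.prod_ne_zero_iff.2 fun P hP =>
    pow_ne_zero _ (hπ0 P (Finset.mem_filter.1 hP).1)
  have hlC : lsum n K Cf ≤ 2 * n.totient * ∑ P ∈ A, 2 * Real.log P / P := by
    have hprod : ∀ F ⊆ A₀, lsum n K (∏ P ∈ F, π P ^ (2 * (P - 1)))
        = ∑ P ∈ F, ((2 * (P - 1) : ℕ) : ℝ) * lsum n K (π P) := by
      intro F
      induction F using Finset.induction_on with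
      | empty => intro _; simp [lsum]
      | insert P F hPF ih =>
        intro hsub
        rw [Finset.insert_subset_iff] at hsub
        rw [Finset.prod_insert hPF, Finset.sum_insert hPF, lsum_mul n K
          (pow_ne_zero _ (hπ0 P (Finset.mem_filter.1 hsub.1).1))
          (Finset.prod_ne_zero_iff.2 fun R hR =>
            pow_ne_zero _ (hπ0 R (Finset.mem_filter.1 (hsub.2 hR)).1)),
          lsum_pow, ih hsub.2]
    rw [hCf, hprod A₀ subset_rfl, Finset.mul_sum]
    refine le_trans (Finset.sum_le_sum fun P hP => ?_)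
      (Finset.sum_le_sum_of_subset_of_nonneg (Finset.filter_subset _ _) fun P hP _ => ?_)
    swap
    · have := (hA P hP).1.one_lt
      have : (0 : ℝ) ≤ Real.log P := Real.log_natCast_nonneg P
      positivity
    have hPA := (Finset.mem_filter.1 hP).1
    obtain ⟨c, hc, -, -⟩ := hnP P hPA
    have : Fact P.Prime := ⟨(hA P hPA).1⟩
    obtain ⟨e, he⟩ := associated_pow_sub_one K P (k := c + 1) (eta_prim n K P hc)
    have h1 := congrArg (lsum n K) he
    rw [lsum_mul n K (pow_ne_zero _ (hπ0 P hPA)) e.ne_zero, lsum_pow, lsum_natCast] at h1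
    have h2 := lsum_nonneg n K (e.ne_zero : (e : 𝓞 K) ≠ 0)
    have h3 : P * (P - 1) ≤ (P ^ (c + 1 + 1)).totient := by
      rw [Nat.totient_prime_pow (hA P hPA).1 (Nat.succ_pos _)]
      simp only [Nat.succ_sub_succ_eq_sub, Nat.sub_zero, Nat.add_sub_cancel]
      exact Nat.mul_le_mul_right _ (Nat.le_self_pow (by omega) P)
    have hl0 : 0 ≤ lsum n K (π P) := lsum_nonneg n K (hπ0 P hPA)
    have hP0 : (0 : ℝ) < P := by exact_mod_cast (hA P hPA).1.pos
    have h4 : ((P * (P - 1) : ℕ) : ℝ) * lsum n K (π P) ≤ 2 * n.totient * Real.log P := by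
      have := mul_le_mul_of_nonneg_right (Nat.cast_le (α := ℝ).2 h3) hl0
      simp only [hπ] at this h1 ⊢
      linarith
    rw [show (2 : ℝ) * n.totient * (2 * Real.log P / P) = 2 * (2 * n.totient * Real.log P) / P by ring,
      le_div_iff₀ hP0]
    push_cast at h4 ⊢
    linarith
  -- divisibility
  have hdiv : ∀ r, ((t ^ 2 : ℕ) : 𝓞 K) ∣ x r * cj n K (x r) * Cf := by
    intro r
    have hT0 : ((t ^ 2 : ℕ) : 𝓞 K) ≠ 0 := Nat.cast_ne_zero.2 (pow_ne_zero 2 ht0)
    refine dvd_of_forall_count K hT0 fun Q hQmem => ?_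
    have hQp : Prime Q := UniqueFactorizationMonoid.prime_of_normalized_factor Q hQmem
    have hQP : Q.IsPrime := Ideal.isPrime_of_prime hQp
    have htQ : (t : 𝓞 K) ∈ Q := by
      refine hQP.mem_of_pow_mem 2 ?_
      rw [← Nat.cast_pow]
      exact Ideal.dvd_iff_le.1 (UniqueFactorizationMonoid.dvd_of_mem_normalizedFactors hQmem)
        (Ideal.mem_span_singleton_self _)
    obtain ⟨q, hq, hqt, hqQ⟩ : ∃ q : ℕ, q.Prime ∧ q ∣ t ∧ (q : 𝓞 K) ∈ Q := by
      have hl : ((t.primeFactorsList).map (fun i : ℕ => (i : 𝓞 K))).prod ∈ Q := by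
        rw [← Nat.cast_list_prod, Nat.prod_primeFactorsList ht0]; exact htQ
      rw [← Multiset.prod_coe, hQP.multiset_prod_mem_iff_exists_mem] at hl
      simp only [Multiset.mem_coe, List.mem_map] at hl
      obtain ⟨_, ⟨q, hq, rfl⟩, hqQ⟩ := hl
      exact ⟨q, Nat.prime_of_mem_primeFactorsList hq, Nat.dvd_of_mem_primeFactorsList hq, hqQ⟩
    set k := (UniqueFactorizationMonoid.normalizedFactors (Ideal.span {X})).count Q with hk
    set k' := (UniqueFactorizationMonoid.normalizedFactors (Ideal.span {cj n K X})).count Q with hk'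
    set v := (UniqueFactorizationMonoid.normalizedFactors
      (Ideal.span {((t ^ 2 : ℕ) : 𝓞 K)})).count Q with hv
    have hvle : v ≤ k + k' := by
      have hspan : ∀ y : 𝓞 K, y ≠ 0 → Ideal.span {y} ≠ (0 : Ideal (𝓞 K)) := by
        intro y hy
        simpa [Ideal.zero_eq_bot, Ideal.span_singleton_eq_bot] using hy
      have h : ((t ^ 2 : ℕ) : 𝓞 K) ∣ X * cj n K X := by
        rw [hXX, hts, mul_pow, Nat.cast_mul]; exact dvd_mul_right _ _
      rw [← Ideal.span_singleton_le_span_singleton, ← Ideal.dvd_iff_le,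
        ← Ideal.span_singleton_mul_span_singleton,
        UniqueFactorizationMonoid.dvd_iff_normalizedFactors_le_normalizedFactors (hspan _ hT0)
          (mul_ne_zero (hspan _ hX0) (hspan _ hcX)),
        UniqueFactorizationMonoid.normalizedFactors_mul (hspan _ hX0) (hspan _ hcX),
        Multiset.le_iff_count] at h
      simpa only [Multiset.count_add] using h Q
    set l := if q ∈ A then q - 1 else 0 with hl
    have hfixq : ∀ P ∈ A, FixShift n K P q := fun P hP => hfix P hP q hq hqt
    have h1 : x r ∈ Q ^ (k - l) :=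
      part_mem_pow n K hA' hq hfixq S Q hqQ (mem_pow_count K hX0 Q) A subset_rfl r
    have hcc : ∀ y, cj n K (cj n K y) = y := cj_cj n K
    set Q' := Q.comap (cj n K) with hQ'
    have hXQ' : X ∈ Q' ^ k' := by
      have hle : Q.map (cj n K) ≤ Q' := by
        rw [Ideal.map_le_iff_le_comap]
        intro y hy
        simp only [hQ', Ideal.mem_comap, hcc]; exact hy
      have h := Ideal.mem_map_of_mem (cj n K) (mem_pow_count K hcX Q)
      rw [Ideal.map_pow, hcc] at h
      exact Ideal.pow_right_mono hle k' h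
    have hQ'P : Q'.IsPrime := Ideal.comap_isPrime _ _
    have h2 : cj n K (x r) ∈ Q ^ (k' - l) := by
      have h := part_mem_pow n K hA' hq hfixq S Q' (by simpa [hQ'] using hqQ) hXQ' A subset_rfl r
      have h' := Ideal.mem_map_of_mem (cj n K) h
      rw [Ideal.map_pow] at h'
      exact Ideal.pow_right_mono Ideal.map_comap_le _ h'
    have h3 : Cf ∈ Q ^ (2 * l) := by
      by_cases hqA : q ∈ A
      · rw [hl, if_pos hqA]
        obtain ⟨c, hc, -, -⟩ := hnP q hqA
        have : Fact q.Prime := ⟨hq⟩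
        obtain ⟨w, hw⟩ := Finset.dvd_prod_of_mem (fun P => π P ^ (2 * (P - 1)))
          (show q ∈ A₀ from Finset.mem_filter.2 ⟨hqA, hqt⟩)
        rw [hCf, hw]
        exact Ideal.mul_mem_right _ _ (Ideal.pow_mem_pow (pi_mem n K q hc Q hqQ) _)
      · simp [hl, hqA]
    refine Ideal.pow_le_pow_right (show v ≤ (k - l) + (k' - l) + 2 * l by omega) ?_
    rw [pow_add, pow_add]
    exact Ideal.mul_mem_mul (Ideal.mul_mem_mul h1 h2) h3
  -- each nonzero part is large
  set Lam := Real.exp (∑ P ∈ A, 2 * Real.log P / P) with hLam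
  set R := (range d).filter (fun r => x r ≠ 0) with hR
  have htpos : (0 : ℝ) < t := by exact_mod_cast Nat.pos_of_ne_zero ht0
  have hφ : (0 : ℝ) < n.totient := by exact_mod_cast Nat.totient_pos.2 (NeZero.pos n)
  have hbig : ∀ r ∈ R, (n.totient : ℝ) * ((t : ℝ) ^ 2 / Lam) ≤
      ∑ a : (ZMod n)ˣ, Complex.normSq (emb K (aut n K a (x r))) := by
    intro r hr
    have hx0 := (Finset.mem_filter.1 hr).2
    have hcx0 : cj n K (x r) ≠ 0 := fun h => hx0 ((aut_eq_zero n K).1 h)
    obtain ⟨w, hw⟩ := hdiv r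
    have hw0 : w ≠ 0 := by
      rintro rfl
      rw [mul_zero] at hw
      exact mul_ne_zero (mul_ne_zero hx0 hcx0) hCf0 hw
    have h := congrArg (lsum n K) hw
    rw [lsum_mul n K (mul_ne_zero hx0 hcx0) hCf0, lsum_mul n K hx0 hcx0, lsum_cj,
      lsum_mul n K (Nat.cast_ne_zero.2 (pow_ne_zero 2 ht0)) hw0, lsum_natCast, Nat.cast_pow,
      Real.log_pow] at h
    have hwn := lsum_nonneg n K hw0
    set c := (t : ℝ) ^ 2 / Lam with hc
    have hc0 : 0 < c := by positivity
    have hlc : Real.log c = 2 * Real.log t - ∑ P ∈ A, 2 * Real.log P / P := by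
      rw [hc, Real.log_div (by positivity) (by positivity), hLam, Real.log_exp, Real.log_pow]
      norm_num
    have hl : (n.totient : ℝ) * Real.log c ≤ lsum n K (x r) := by
      rw [hlc]; push_cast at h; nlinarith
    have hle : ∀ a : (ZMod n)ˣ, Real.log (Complex.normSq (emb K (aut n K a (x r)))) ≤
        Complex.normSq (emb K (aut n K a (x r))) / c - 1 + Real.log c := by
      intro a
      have hp := normSq_aut_pos n K hx0 a
      have := Real.log_le_sub_one_of_pos (div_pos hp hc0)
      rw [Real.log_div hp.ne' hc0.ne'] at this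
      linarith
    have hsum := Finset.sum_le_sum (s := Finset.univ) fun a _ => hle a
    rw [Finset.sum_add_distrib, Finset.sum_sub_distrib, ← Finset.sum_div, Finset.sum_const,
      Finset.sum_const, Finset.card_univ, ZMod.card_units_eq_totient, nsmul_eq_mul, nsmul_eq_mul,
      mul_one] at hsum
    have h5 : (n.totient : ℝ) ≤ (∑ a : (ZMod n)ˣ, Complex.normSq (emb K (aut n K a (x r)))) / c := by
      simp only [lsum] at hl; linarith
    rwa [le_div_iff₀ hc0] at h5
  have henergy : ∀ a : (ZMod n)ˣ,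
      ∑ r ∈ range d, Complex.normSq (emb K (aut n K a (x r))) = (u : ℝ) ^ 2 := by
    intro a
    have h := congrArg (fun y => emb K (aut n K a y)) (horth d hd0 hdn hdlt)
    simp only [map_sum, map_natCast, map_mul] at h
    have hcjv : ∀ y, emb K (aut n K a y) * emb K (aut n K a (cj n K y))
        = ((Complex.normSq (emb K (aut n K a y)) : ℝ) : ℂ) := by
      intro y
      rw [show aut n K a (cj n K y) = cj n K (aut n K a y) from aut_comm n K a (-1) y, ← map_mul,
        emb_mul_cj]
    simp only [hxdef, hcjv] at h ⊢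
    rw [← Complex.ofReal_sum] at h
    exact_mod_cast h
  have htot : ∑ r ∈ R, ∑ a : (ZMod n)ˣ, Complex.normSq (emb K (aut n K a (x r)))
      = (n.totient : ℝ) * (u : ℝ) ^ 2 := by
    rw [hR, Finset.sum_filter_of_ne (fun r _ h => ?_), Finset.sum_comm]
    · simp only [henergy, Finset.sum_const, Finset.card_univ, ZMod.card_units_eq_totient,
        nsmul_eq_mul]
    · intro h0
      exact h (by simp [h0])
  have hupper : (R.card : ℝ) * (t : ℝ) ^ 2 ≤ Lam * (u : ℝ) ^ 2 := by
    have h := Finset.sum_le_sum hbig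
    rw [Finset.sum_const, nsmul_eq_mul, htot] at h
    have h2 : (R.card : ℝ) * ((t : ℝ) ^ 2 / Lam) ≤ (u : ℝ) ^ 2 :=
      le_of_mul_le_mul_left (by linarith) hφ
    rw [← mul_div_assoc, div_le_iff₀ (Real.exp_pos _)] at h2
    linarith
  -- each part is small
  have hsmall : ∀ r, d * ∑ a : (ZMod n)ˣ, Complex.normSq (emb K (aut n K a (x r)))
      ≤ (n : ℝ) * n := by
    intro r
    set F := S.filter (fun j => j.val % d = r % d) with hF
    have hFc : F.card * d ≤ n := by
      have : F.card ≤ (range (n / d)).card := by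
        refine Finset.card_le_card_of_injOn (fun j => j.val / d) ?_ ?_
        · intro j _
          simp only [Finset.coe_range, Set.mem_Iio]
          exact Nat.div_lt_div_of_lt_of_dvd hdn (ZMod.val_lt j)
        · intro a ha b hb hab
          simp only [hF, Finset.coe_filter, Set.mem_ofPred_eq] at ha hb
          apply ZMod.val_injective
          rw [← Nat.mod_add_div a.val d, ← Nat.mod_add_div b.val d, ha.2, hb.2]
          simp only at hab
          rw [hab]
      rw [Finset.card_range] at this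
      calc F.card * d ≤ n / d * d := Nat.mul_le_mul_right _ this
        _ = n := Nat.div_mul_cancel hdn
    set Y : ZMod n → 𝓞 K := fun a => ∑ j ∈ F, psi n K (a * j) with hY
    have hpars : ∑ a, Y a * cj n K (Y a) = ((n * F.card : ℕ) : 𝓞 K) := by
      simp only [hY, map_sum, cj_psi, Finset.sum_mul_sum, ← AddChar.map_add_eq_mul]
      rw [Finset.sum_comm]
      have : ∀ j ∈ F, ∑ a : ZMod n, ∑ k ∈ F, psi n K (a * j + -(a * k)) = (n : 𝓞 K) := by
        intro j hj
        rw [Finset.sum_comm]
        simp only [← mul_neg, ← mul_add, sum_psi, ← sub_eq_add_neg, sub_eq_zero]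
        simp [hj]
      rw [Finset.sum_congr rfl this]
      simp [mul_comm]
    have h := congrArg (emb K) hpars
    rw [map_sum] at h
    simp only [emb_mul_cj, map_natCast] at h
    have h' : ∑ a, Complex.normSq (emb K (Y a)) = ((n * F.card : ℕ) : ℝ) := by exact_mod_cast h
    have hle : ∑ a : (ZMod n)ˣ, Complex.normSq (emb K (aut n K a (x r)))
        ≤ ((n * F.card : ℕ) : ℝ) := by
      rw [← h']
      calc _ = ∑ a : (ZMod n)ˣ, Complex.normSq (emb K (Y a)) :=
            Finset.sum_congr rfl fun a _ => by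
              simp only [hxdef, part, map_sum, aut_psi, hY, hF]
        _ ≤ _ := by
          rw [← Finset.sum_image (g := fun a : (ZMod n)ˣ => (a : ZMod n))
            (f := fun a => Complex.normSq (emb K (Y a))) (fun _ _ _ _ h => Units.ext h)]
          exact Finset.sum_le_sum_of_subset_of_nonneg (Finset.subset_univ _)
            (fun a _ _ => Complex.normSq_nonneg _)
    calc _ ≤ (d : ℝ) * ((n * F.card : ℕ) : ℝ) := mul_le_mul_of_nonneg_left hle (Nat.cast_nonneg d)
      _ = (n : ℝ) * ((F.card * d : ℕ) : ℝ) := by push_cast; ring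
      _ ≤ _ := mul_le_mul_of_nonneg_left (Nat.cast_le.2 hFc) (Nat.cast_nonneg n)
  have hlower : (d : ℝ) * ((n.totient : ℝ) * (u : ℝ) ^ 2) ≤ R.card * ((n : ℝ) * n) := by
    rw [← htot, Finset.mul_sum]
    refine le_trans (Finset.sum_le_sum fun r _ => hsmall r) (le_of_eq ?_)
    rw [Finset.sum_const, nsmul_eq_mul]
  have hnr : (n : ℝ) = 4 * (u : ℝ) ^ 2 := by exact_mod_cast hn
  have hu0 : (0 : ℝ) < u := by exact_mod_cast Nat.pos_of_ne_zero hu
  have hus : (u : ℝ) = t * s := by exact_mod_cast hts
  have hRs : (R.card : ℝ) ≤ Lam * (s : ℝ) ^ 2 := by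
    refine le_of_mul_le_mul_right ?_ (pow_pos htpos 2)
    rw [hus] at hupper; linarith [hupper]
  have hfin : (d : ℝ) * n.totient ≤ R.card * (4 * n) := by
    refine le_of_mul_le_mul_right ?_ (pow_pos hu0 2)
    calc (d : ℝ) * n.totient * (u : ℝ) ^ 2 ≤ R.card * ((n : ℝ) * n) := by linarith [hlower]
      _ = _ := by rw [hnr]; ring
  calc (d : ℝ) * n.totient ≤ R.card * (4 * n) := hfin
    _ ≤ Lam * (s : ℝ) ^ 2 * (4 * n) := mul_le_mul_of_nonneg_right hRs (by positivity)
    _ = _ := by ring

end Vale.Agent.P033
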