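import Vale.Agent.P033.Exceptional
import Vale.Agent.P033.Density

/-!
The number of orders of circulant Hadamard matrices has a power saving over the number of
candidates 4u².
-/

namespace Vale.Agent.P033

open Finset

lemma card_multiples (d x : ℕ) :
    (((Icc 1 x).filter (d ∣ ·)).card : ℝ) ≤ (x : ℝ) / d := by
  rw [show Icc 1 x = Ioc 0 x by ext; simp only [Finset.mem_Icc, Finset.mem_Ioc]; omega, Nat.Ioc_filter_dvd_card_eq_div]
  exact Nat.cast_div_le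

lemma sigma_mul_rpow_le (σ : ℝ) (h0 : 0 ≤ σ) (h1 : σ ≤ 1) {i : ℕ} (hi : 1 ≤ i) :
    σ * (i : ℝ) ^ (σ - 1) ≤ (i : ℝ) ^ σ - ((i - 1 : ℕ) : ℝ) ^ σ := by
  have hi0 : (0 : ℝ) < i := by exact_mod_cast hi
  have hi1 : (i : ℝ)⁻¹ ≤ 1 := inv_le_one_of_one_le₀ (by exact_mod_cast hi)
  have hb := rpow_one_add_le_one_add_mul_self (s := -(i : ℝ)⁻¹) (by linarith) h0 h1
  have e : ((i - 1 : ℕ) : ℝ) = (i : ℝ) * (1 + -(i : ℝ)⁻¹) := by
    rw [Nat.cast_sub hi, mul_add, mul_neg, mul_inv_cancel₀ hi0.ne']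
    push_cast; ring
  rw [e, Real.mul_rpow hi0.le (by linarith), Real.rpow_sub hi0, Real.rpow_one]
  have := mul_le_mul_of_nonneg_left hb (Real.rpow_nonneg hi0.le σ)
  have e2 : σ * ((i : ℝ) ^ σ / i) = (i : ℝ) ^ σ * (σ * (i : ℝ)⁻¹) := by ring
  linarith

lemma sum_rpow_le (σ : ℝ) (h0 : 0 < σ) (h1 : σ ≤ 1) (y : ℕ) :
    ∑ i ∈ Icc 1 y, (i : ℝ) ^ (σ - 1) ≤ (y : ℝ) ^ σ / σ := by
  rw [le_div_iff₀ h0]
  induction y with
  | zero => simp [Real.zero_rpow h0.ne']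
  | succ y ih =>
    rw [Finset.sum_Icc_succ_top (by omega), add_mul]
    have := sigma_mul_rpow_le σ h0.le h1 (Nat.le_add_left 1 y)
    rw [Nat.add_sub_cancel] at this
    linarith

/-- The Euler product over the smooth primes. -/
lemma prod_smooth_le (σ : ℝ) (h0 : 0 < σ) (h1 : σ ≤ 1 / 2) (y : ℕ) :
    ∏ l ∈ primesTo y, (1 - (l : ℝ) ^ (σ - 1))⁻¹ ≤ Real.exp (4 * ((y : ℝ) ^ σ / σ)) := by
  have hfac : ∀ l ∈ primesTo y, 0 ≤ (1 - (l : ℝ) ^ (σ - 1))⁻¹ ∧
      (1 - (l : ℝ) ^ (σ - 1))⁻¹ ≤ Real.exp (4 * (l : ℝ) ^ (σ - 1)) := by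
    intro l hl
    have hl2 : (2 : ℝ) ≤ l := by exact_mod_cast (mem_primesTo.1 hl).2.two_le
    have h34 : (2 : ℝ) ^ (-(1 / 2) : ℝ) ≤ 3 / 4 := by
      rw [Real.rpow_neg two_pos.le, ← Real.sqrt_eq_rpow,
        inv_le_iff_one_le_mul₀ (Real.sqrt_pos.2 two_pos)]
      nlinarith [Real.mul_self_sqrt (two_pos.le : (0 : ℝ) ≤ 2), Real.sqrt_nonneg 2]
    have ht : (l : ℝ) ^ (σ - 1) ≤ 3 / 4 :=
      le_trans (Real.rpow_le_rpow_of_nonpos two_pos hl2 (by linarith))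
        (le_trans (Real.rpow_le_rpow_of_exponent_le one_le_two (by linarith)) h34)
    have ht0 : 0 ≤ (l : ℝ) ^ (σ - 1) := Real.rpow_nonneg (by linarith) _
    refine ⟨inv_nonneg.2 (by linarith), le_trans ?_ (Real.add_one_le_exp _)⟩
    rw [inv_le_iff_one_le_mul₀ (by linarith)]
    nlinarith
  refine (Finset.prod_le_prod (fun l hl => (hfac l hl).1) fun l hl => (hfac l hl).2).trans ?_
  rw [← Real.exp_sum, ← Finset.mul_sum]
  refine Real.exp_le_exp.2 (mul_le_mul_of_nonneg_left ?_ (by norm_num))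
  refine le_trans (Finset.sum_le_sum_of_subset_of_nonneg ?_
    fun i _ _ => Real.rpow_nonneg (Nat.cast_nonneg i) _) (sum_rpow_le σ h0 (by linarith) y)
  intro l hl
  obtain ⟨h, hp⟩ := mem_primesTo.1 hl
  exact Finset.mem_Icc.2 ⟨hp.one_lt.le, h⟩

open Classical in
lemma card_bigSmooth {x : ℕ} (hx : 1 ≤ x) :
    (((Icc 1 x).filter (BigSmooth x)).card : ℝ) ≤
      (x : ℝ) * (x : ℝ) ^ (-(1 : ℝ) / 48000) * Real.exp (1920 * Real.sqrt (Nat.log 2 x)) := by
  have hx0 : (0 : ℝ) < x := by exact_mod_cast hx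
  set Z := (x : ℝ) ^ ((1 : ℝ) / 100) with hZ
  have hZ0 : 0 < Z := Real.rpow_pos_of_pos hx0 _
  set I := (Icc 1 x).filter (fun c : ℕ => c.primeFactors ⊆ primesTo (level x) ∧ Z < (c : ℝ)) with hI
  have hsub : (Icc 1 x).filter (BigSmooth x) ⊆ I.biUnion (fun c => (Icc 1 x).filter (c ∣ ·)) := by
    intro u hu
    obtain ⟨hu1, c, hcu, hcp, hcZ⟩ := Finset.mem_filter.1 hu
    obtain ⟨h1, h2⟩ := Finset.mem_Icc.1 hu1
    refine Finset.mem_biUnion.2 ⟨c, Finset.mem_filter.2 ⟨Finset.mem_Icc.2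
      ⟨Nat.pos_of_dvd_of_pos hcu h1, (Nat.le_of_dvd h1 hcu).trans h2⟩, hcp, hcZ⟩, ?_⟩
    exact Finset.mem_filter.2 ⟨hu1, hcu⟩
  have h := (Nat.cast_le (α := ℝ)).2 ((Finset.card_le_card hsub).trans Finset.card_biUnion_le)
  rw [Nat.cast_sum] at h
  refine h.trans ?_
  have hstep : ∀ c ∈ I, (((Icc 1 x).filter (c ∣ ·)).card : ℝ) ≤
      (x : ℝ) * (Z ^ ((1 : ℝ) / 480))⁻¹ * (c : ℝ) ^ ((1 : ℝ) / 480 - 1) := by
    intro c hc
    obtain ⟨hc1, -, hcZ⟩ := Finset.mem_filter.1 hc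
    have hc0 : (0 : ℝ) < c := by exact_mod_cast (Finset.mem_Icc.1 hc1).1
    refine (card_multiples c x).trans ?_
    rw [Real.rpow_sub hc0, Real.rpow_one]
    have hge : (Z : ℝ) ^ ((1 : ℝ) / 480) ≤ (c : ℝ) ^ ((1 : ℝ) / 480) :=
      Real.rpow_le_rpow hZ0.le hcZ.le (by norm_num)
    have hZ480 : 0 < Z ^ ((1 : ℝ) / 480) := Real.rpow_pos_of_pos hZ0 _
    calc (x : ℝ) / c = (x : ℝ) / c * 1 := (mul_one _).symm
      _ ≤ (x : ℝ) / c * ((c : ℝ) ^ ((1 : ℝ) / 480) / Z ^ ((1 : ℝ) / 480)) :=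
          mul_le_mul_of_nonneg_left ((one_le_div hZ480).2 hge) (by positivity)
      _ = _ := by ring
  refine (Finset.sum_le_sum hstep).trans ?_
  rw [← Finset.mul_sum]
  have hsum : ∑ c ∈ I, (c : ℝ) ^ ((1 : ℝ) / 480 - 1)
      ≤ Real.exp (1920 * Real.sqrt (Nat.log 2 x)) := by
    refine le_trans (Finset.sum_le_sum_of_subset_of_nonneg ?_
      fun c _ _ => Real.rpow_nonneg (Nat.cast_nonneg c) _)
      ((sum_rpow_factored_le (primesTo (level x)) (fun l hl => (mem_primesTo.1 hl).2) x _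
        (by norm_num)).trans ?_)
    · intro c hc
      obtain ⟨hc1, hcp, -⟩ := Finset.mem_filter.1 hc
      exact Finset.mem_filter.2 ⟨hc1, hcp⟩
    refine (prod_smooth_le _ (by norm_num) (by norm_num) _).trans (Real.exp_le_exp.2 ?_)
    rw [level, Nat.cast_pow, ← Real.rpow_natCast, ← Real.rpow_mul (Nat.cast_nonneg _),
      Real.sqrt_eq_rpow]
    norm_num
    linarith
  refine (mul_le_mul_of_nonneg_left hsum (by positivity)).trans (le_of_eq ?_)
  rw [hZ, ← Real.rpow_mul hx0.le, ← Real.rpow_neg hx0.le]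
  norm_num

open Classical in
lemma card_bigSquare {x : ℕ} (hx : 1 ≤ x) :
    (((Icc 1 x).filter (BigSquare x)).card : ℝ) ≤ 2 * ((x : ℝ) * (x : ℝ) ^ (-(1 : ℝ) / 300)) := by
  have hx0 : (0 : ℝ) < x := by exact_mod_cast hx
  set Z := (x : ℝ) ^ ((1 : ℝ) / 300) with hZ
  have hZ1 : 1 ≤ Z := Real.one_le_rpow (by exact_mod_cast hx) (by norm_num)
  set Y := ⌊Z⌋₊ with hY
  have hY1 : 1 ≤ Y := Nat.one_le_floor_iff _ |>.2 hZ1
  set I := Ioc Y x with hI
  have hsub : (Icc 1 x).filter (BigSquare x) ⊆ I.biUnion (fun m => (Icc 1 x).filter (m * m ∣ ·)) := by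
    intro u hu
    obtain ⟨hu1, m, hmu, hmZ⟩ := Finset.mem_filter.1 hu
    obtain ⟨h1, h2⟩ := Finset.mem_Icc.1 hu1
    refine Finset.mem_biUnion.2 ⟨m, Finset.mem_Ioc.2 ⟨(Nat.floor_lt (by linarith)).2 hmZ, ?_⟩,
      Finset.mem_filter.2 ⟨hu1, hmu⟩⟩
    exact (Nat.le_of_dvd h1 (dvd_trans (dvd_mul_right m m) hmu)).trans h2
  have h := (Nat.cast_le (α := ℝ)).2 ((Finset.card_le_card hsub).trans Finset.card_biUnion_le)
  rw [Nat.cast_sum] at h
  refine h.trans ((Finset.sum_le_sum fun m _ => card_multiples (m * m) x).trans ?_)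
  simp only [Nat.cast_mul, div_eq_mul_inv]
  rw [← Finset.mul_sum]
  have hY' : (Z : ℝ) / 2 ≤ Y := by
    have := Nat.lt_floor_add_one Z
    rw [← hY] at this
    have : (1 : ℝ) ≤ Y := by exact_mod_cast hY1
    linarith
  calc (x : ℝ) * ∑ m ∈ I, ((m : ℝ) * m)⁻¹ ≤ (x : ℝ) * (Z / 2)⁻¹ :=
        mul_le_mul_of_nonneg_left ((sum_inv_sq_Ioc_le hY1 I fun i hi => Finset.mem_Ioc.1 hi).trans
          (inv_anti₀ (by linarith) hY')) hx0.le
    _ = _ := by
        rw [show (-1 : ℝ) * (300 : ℝ)⁻¹ = -((1 : ℝ) / 300) by norm_num, Real.rpow_neg hx0.le,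
          ← hZ]
        ring

open Classical in
lemma card_bigAttached {x : ℕ} (hx : 2 ^ 64 ≤ x) :
    (((Icc 1 x).filter (BigAttached x)).card : ℝ) ≤
      Real.exp 3 * ((x : ℝ) * (x : ℝ) ^ (-(1 : ℝ) / 25600)) * (1 + Real.log x) := by
  have hx1 : 1 ≤ x := le_trans Nat.one_le_two_pow hx
  have hx0 : (0 : ℝ) < x := by exact_mod_cast hx1
  set Z := (x : ℝ) ^ ((1 : ℝ) / 100) with hZ
  have hZ0 : 0 < Z := Real.rpow_pos_of_pos hx0 _
  set E : ℕ → Finset ℕ := fun w => (Icc 1 x).filter (Elig (level x) w) with hE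
  set Bs : ℕ → Finset (Finset ℕ) := fun w => (E w).powerset.filter
    (fun B => Z < ((∏ q ∈ B, q : ℕ) : ℝ) ∧ (∏ q ∈ B, q) * w ≤ x) with hBs
  have hsub : (Icc 1 x).filter (BigAttached x) ⊆
      (Icc 1 x).biUnion (fun w => (Bs w).image (fun B => (∏ q ∈ B, q) * w)) := by
    intro u hu
    obtain ⟨hu1, B, w, hBw, hBel, hBZ⟩ := Finset.mem_filter.1 hu
    obtain ⟨h1, h2⟩ := Finset.mem_Icc.1 hu1
    have hw0 : 0 < w := Nat.pos_of_ne_zero fun h => by rw [hBw, h, Nat.mul_zero] at h1; omega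
    have hwu : w ≤ u := Nat.le_of_dvd h1 ⟨∏ q ∈ B, q, by rw [hBw, mul_comm]⟩
    refine Finset.mem_biUnion.2 ⟨w, Finset.mem_Icc.2 ⟨hw0, hwu.trans h2⟩,
      Finset.mem_image.2 ⟨B, Finset.mem_filter.2 ⟨Finset.mem_powerset.2 fun q hq => ?_, hBZ,
        hBw ▸ h2⟩, hBw.symm⟩⟩
    obtain ⟨hqx, hel⟩ := hBel q hq
    exact Finset.mem_filter.2 ⟨Finset.mem_Icc.2 ⟨hel.1.one_lt.le, hqx⟩, hel⟩
  have h := (Nat.cast_le (α := ℝ)).2 (((Finset.card_le_card hsub).trans Finset.card_biUnion_le).trans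
    (Finset.sum_le_sum fun w _ => Finset.card_image_le))
  rw [Nat.cast_sum] at h
  refine h.trans ?_
  have hstep : ∀ w ∈ Icc 1 x, ((Bs w).card : ℝ) ≤
      (x : ℝ) * (Z ^ ((1 : ℝ) / 256))⁻¹ * Real.exp 3 * (w : ℝ)⁻¹ := by
    intro w hw
    obtain ⟨hw1, hwx⟩ := Finset.mem_Icc.1 hw
    have hw0 : (0 : ℝ) < w := by exact_mod_cast hw1
    set C := (x : ℝ) * (Z ^ ((1 : ℝ) / 256))⁻¹ * (w : ℝ)⁻¹ with hC
    have hC0 : 0 ≤ C := by positivity
    have hone : ∀ B ∈ Bs w, 1 ≤ C * ∏ q ∈ B, wt q := by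
      intro B hB
      obtain ⟨hBE, hBZ, hBx⟩ := Finset.mem_filter.1 hB
      set d := ∏ q ∈ B, q with hd
      have hd0 : (0 : ℝ) < d := lt_trans hZ0 hBZ
      have hprod : ∏ q ∈ B, wt q = (d : ℝ) ^ ((1 : ℝ) / 256 - 1) := by
        simp only [wt, hd, Nat.cast_prod]
        exact Real.finsetProd_rpow _ _ (fun q _ => Nat.cast_nonneg q) _
      rw [hprod, Real.rpow_sub hd0, Real.rpow_one, hC]
      have h1 : 1 ≤ (x : ℝ) / ((d : ℝ) * w) := by
        rw [one_le_div (mul_pos hd0 hw0)]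
        exact_mod_cast hBx
      have h2 : 1 ≤ (d : ℝ) ^ ((1 : ℝ) / 256) / Z ^ ((1 : ℝ) / 256) := by
        rw [one_le_div (Real.rpow_pos_of_pos hZ0 _)]
        exact Real.rpow_le_rpow hZ0.le hBZ.le (by norm_num)
      calc (1 : ℝ) ≤ (x : ℝ) / ((d : ℝ) * w) * ((d : ℝ) ^ ((1 : ℝ) / 256) / Z ^ ((1 : ℝ) / 256)) :=
            one_le_mul_of_one_le_of_one_le h1 h2
        _ = _ := by ring
    calc ((Bs w).card : ℝ) = ∑ _B ∈ Bs w, (1 : ℝ) := by simp
      _ ≤ ∑ B ∈ Bs w, C * ∏ q ∈ B, wt q := Finset.sum_le_sum hone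
      _ ≤ C * ∑ B ∈ (E w).powerset, ∏ q ∈ B, wt q := by
          rw [← Finset.mul_sum]
          exact mul_le_mul_of_nonneg_left (Finset.sum_le_sum_of_subset_of_nonneg
            (Finset.filter_subset _ _) fun B _ _ => Finset.prod_nonneg fun q _ => wt_nonneg q) hC0
      _ ≤ C * Real.exp 3 := by
          refine mul_le_mul_of_nonneg_left ?_ hC0
          rw [← Finset.prod_one_add]
          refine le_trans (Finset.prod_le_prod (fun q _ => by have := wt_nonneg q; linarith)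
            fun q _ => (add_comm 1 (wt q)).trans_le (Real.add_one_le_exp _)) ?_
          rw [← Real.exp_sum]
          refine Real.exp_le_exp.2 (sum_wt_elig (x := x) (by omega) hwx hx le_rfl _ fun q hq => ?_)
          obtain ⟨hqI, hel⟩ := Finset.mem_filter.1 hq
          exact ⟨(Finset.mem_Icc.1 hqI).2, hel⟩
      _ = _ := by rw [hC]; ring
  refine (Finset.sum_le_sum hstep).trans ?_
  rw [← Finset.mul_sum]
  refine (mul_le_mul_of_nonneg_left (sum_inv_Icc_le x) (by positivity)).trans (le_of_eq ?_)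
  rw [hZ, ← Real.rpow_mul hx0.le, ← Real.rpow_neg hx0.le]
  norm_num
  left
  ring

lemma mul_exp_le {x : ℕ} (hx : 0 < x) {a : ℝ} (h : a ≤ -(1 / 50000 : ℝ) * Real.log x) :
    (x : ℝ) * Real.exp a ≤ (x : ℝ) ^ (1 - (1 / 50000 : ℝ)) := by
  have hx0 : (0 : ℝ) < x := by exact_mod_cast hx
  rw [sub_eq_add_neg, Real.rpow_add hx0, Real.rpow_one, Real.rpow_def_of_pos hx0]
  exact mul_le_mul_of_nonneg_left (Real.exp_le_exp.2 (by linarith)) hx0.le

/-- Power saving for the admissible u. -/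
theorem card_orderRoots_power_saving : ∃ C : ℝ, 0 < C ∧ ∀ x : ℕ,
    ((orderRoots x).card : ℝ) ≤ C * (x : ℝ) ^ (1 - (1 / 50000 : ℝ)) := by
  classical
  refine ⟨5 + Real.exp ((10 : ℝ) ^ 21), by positivity, fun x => ?_⟩
  rcases Nat.eq_zero_or_pos x with rfl | hx
  · have : orderRoots 0 = ∅ := by simp [orderRoots]
    rw [this, Finset.card_empty, Nat.cast_zero]
    positivity
  have hx0 : (0 : ℝ) < x := by exact_mod_cast hx
  have hpow0 : 0 < (x : ℝ) ^ (1 - (1 / 50000 : ℝ)) := Real.rpow_pos_of_pos hx0 _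
  by_cases hbig : (10 : ℝ) ^ 21 ≤ Real.log x
  swap
  · rw [not_le] at hbig
    have hcard : ((orderRoots x).card : ℝ) ≤ x := by
      have h := Finset.card_filter_le (Icc 1 x) (fun u => IsCirculantHadamardOrder (4 * u ^ 2))
      rw [Nat.card_Icc, Nat.add_sub_cancel] at h
      unfold orderRoots
      exact_mod_cast h
    refine hcard.trans ?_
    have hle : (x : ℝ) ^ (1 / 50000 : ℝ) ≤ Real.exp ((10 : ℝ) ^ 21) := by
      rw [Real.rpow_def_of_pos hx0]
      refine Real.exp_le_exp.2 ?_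
      have := Real.log_nonneg (show (1 : ℝ) ≤ x by exact_mod_cast hx)
      nlinarith
    calc (x : ℝ) = (x : ℝ) ^ (1 / 50000 : ℝ) * (x : ℝ) ^ (1 - (1 / 50000 : ℝ)) := by
          rw [← Real.rpow_add hx0]; norm_num
      _ ≤ _ := mul_le_mul_of_nonneg_right (by linarith [Real.exp_pos ((10 : ℝ) ^ 21)]) hpow0.le
  set l := Real.log x with hl
  have hl0 : 0 < l := lt_of_lt_of_le (by positivity) hbig
  have hl21 : (1000000000000000000000 : ℝ) ≤ l := by norm_num at hbig ⊢; exact hbig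
  set L := Nat.log 2 x with hLdef
  have hlog2 := Real.log_two_lt_d9
  have hlog2' := Real.log_two_gt_d9
  have hLup : (L : ℝ) * Real.log 2 ≤ l := by
    rw [← Real.log_pow]
    exact Real.log_le_log (by positivity) (by exact_mod_cast Nat.pow_log_le_self 2 hx.ne')
  have hx64 : 2 ^ 64 ≤ x := by
    have h : Real.log ((2 : ℝ) ^ 64) ≤ Real.log x := by
      rw [Real.log_pow, ← hl]; push_cast; linarith
    exact_mod_cast (Real.log_le_log_iff (by positivity) hx0).1 h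
  have hsub : orderRoots x ⊆ Icc 1 (Nat.sqrt x) ∪ (Icc 1 x).filter (BigSmooth x) ∪
      (Icc 1 x).filter (BigSquare x) ∪ (Icc 1 x).filter (BigAttached x) := by
    intro u hu
    simp only [orderRoots, Finset.mem_filter] at hu
    obtain ⟨hu1, hord⟩ := hu
    obtain ⟨h1, h2⟩ := Finset.mem_Icc.1 hu1
    simp only [Finset.mem_union, Finset.mem_filter, hu1, true_and]
    by_cases hhalf : l / 2 ≤ Real.log u
    · rcases exceptional_of_large hbig h2 hhalf hord with h | h | h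
      · exact Or.inl (Or.inl (Or.inr h))
      · exact Or.inl (Or.inr h)
      · exact Or.inr h
    · refine Or.inl (Or.inl (Or.inl (Finset.mem_Icc.2 ⟨h1, Nat.le_sqrt.2 ?_⟩)))
      have hu0 : (0 : ℝ) < u := by exact_mod_cast h1
      have h3 : Real.log (((u * u : ℕ)) : ℝ) < Real.log x := by
        rw [Nat.cast_mul, Real.log_mul hu0.ne' hu0.ne', ← hl]; linarith
      exact_mod_cast ((Real.log_lt_log_iff (by positivity) hx0).1 h3).le
  have h0 := (Nat.cast_le (α := ℝ)).2 ((Finset.card_le_card hsub).trans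
    ((Finset.card_union_le _ _).trans (add_le_add ((Finset.card_union_le _ _).trans
      (add_le_add (Finset.card_union_le _ _) le_rfl)) le_rfl)))
  push_cast at h0
  have hP : ∀ e : ℝ, (x : ℝ) * (x : ℝ) ^ e = (x : ℝ) * Real.exp (l * e) := fun e => by
    rw [Real.rpow_def_of_pos hx0]
  have hsq : Real.sqrt (L : ℝ) ≤ l / 4000000000 := by
    rw [Real.sqrt_le_left (by positivity)]
    nlinarith
  have b0 : ((Icc 1 (Nat.sqrt x)).card : ℝ) ≤ (x : ℝ) ^ (1 - (1 / 50000 : ℝ)) := by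
    rw [Nat.card_Icc, Nat.add_sub_cancel]
    refine Real.nat_sqrt_le_real_sqrt.trans ?_
    rw [Real.sqrt_eq_rpow]
    exact Real.rpow_le_rpow_of_exponent_le (by exact_mod_cast hx) (by norm_num)
  have b1 := card_bigSmooth (x := x) hx
  rw [← hLdef, hP, mul_assoc, ← Real.exp_add] at b1
  have c1 := b1.trans (mul_exp_le hx (by rw [← hl]; linarith))
  have b2 := card_bigSquare (x := x) hx
  rw [hP] at b2
  have c2 := b2.trans (mul_le_mul_of_nonneg_left (mul_exp_le hx (by rw [← hl]; linarith))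
    two_pos.le)
  have b3 := card_bigAttached hx64
  have hlog : 1 + l ≤ Real.exp (2 * Real.sqrt (1 + l)) := by
    have h1 := Real.log_le_self (Real.sqrt_nonneg (1 + l))
    rw [Real.log_sqrt (by linarith)] at h1
    calc 1 + l = Real.exp (Real.log (1 + l)) := (Real.exp_log (by linarith)).symm
      _ ≤ _ := Real.exp_le_exp.2 (by linarith)
  have hsq2 : Real.sqrt (1 + l) ≤ l / 1000000 := by
    rw [Real.sqrt_le_left (by positivity)]
    nlinarith
  have c3 : (((Icc 1 x).filter (BigAttached x)).card : ℝ) ≤ (x : ℝ) ^ (1 - (1 / 50000 : ℝ)) := by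
    refine b3.trans ?_
    rw [hP, ← hl]
    calc Real.exp 3 * ((x : ℝ) * Real.exp (l * (-(1 : ℝ) / 25600))) * (1 + l)
        ≤ Real.exp 3 * ((x : ℝ) * Real.exp (l * (-(1 : ℝ) / 25600))) * Real.exp (2 * Real.sqrt (1 + l)) :=
          mul_le_mul_of_nonneg_left hlog (by positivity)
      _ = (x : ℝ) * Real.exp (3 + l * (-(1 : ℝ) / 25600) + 2 * Real.sqrt (1 + l)) := by
          rw [Real.exp_add, Real.exp_add]; ring
      _ ≤ _ := mul_exp_le hx (by rw [← hl]; linarith)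
  calc ((orderRoots x).card : ℝ) ≤ 5 * (x : ℝ) ^ (1 - (1 / 50000 : ℝ)) := by linarith
    _ ≤ _ := mul_le_mul_of_nonneg_right (by linarith [Real.exp_pos ((10 : ℝ) ^ 21)]) hpow0.le

/-- Power saving for the orders. -/
theorem card_orders_power_saving : ∃ C : ℝ, 0 < C ∧ ∀ N : ℕ, ∀ s : Finset ℕ,
    (∀ n ∈ s, 1 ≤ n ∧ n ≤ N ∧ IsCirculantHadamardOrder n) →
    (s.card : ℝ) ≤ C * (N : ℝ) ^ ((1 : ℝ) / 2 - 1 / 100000) := by
  classical
  obtain ⟨C, hC, hb⟩ := card_orderRoots_power_saving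
  refine ⟨C + 1, by linarith, fun N s hs => ?_⟩
  rcases Nat.eq_zero_or_pos N with rfl | hN
  · have : s = ∅ := Finset.eq_empty_of_forall_notMem fun n hn => by
      obtain ⟨h1, h2, -⟩ := hs n hn; omega
    simp [this]; positivity
  have hN1 : (1 : ℝ) ≤ N := by exact_mod_cast hN
  have hle : s.card ≤ 1 + (orderRoots (Nat.sqrt N)).card := by
    calc s.card ≤ (insert 1 ((orderRoots (Nat.sqrt N)).image fun u => 4 * u ^ 2)).card := by
          refine Finset.card_le_card fun n hn => ?_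
          obtain ⟨h3, h4, h2⟩ := hs n hn
          rw [Finset.mem_insert]
          rcases eq_or_lt_of_le h3 with h5 | h5
          · exact Or.inl h5.symm
          right
          obtain ⟨u, rfl⟩ := eq_four_mul_sq_of_order h5 h2
          refine Finset.mem_image.2 ⟨u, ?_, rfl⟩
          simp only [orderRoots, Finset.mem_filter, Finset.mem_Icc]
          refine ⟨⟨?_, Nat.le_sqrt.2 ?_⟩, h2⟩
          · rcases Nat.eq_zero_or_pos u with hu | hu
            · subst hu; simp at h5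
            · exact hu
          · rw [← sq]; omega
      _ ≤ _ := by
          refine (Finset.card_insert_le _ _).trans ?_
          have := Finset.card_image_le (s := orderRoots (Nat.sqrt N)) (f := fun u => 4 * u ^ 2)
          omega
  have hle' : (s.card : ℝ) ≤ 1 + ((orderRoots (Nat.sqrt N)).card : ℝ) := by exact_mod_cast hle
  have h1 : ((Nat.sqrt N : ℕ) : ℝ) ^ (1 - (1 / 50000 : ℝ)) ≤ (N : ℝ) ^ ((1 : ℝ) / 2 - 1 / 100000) := by
    refine (Real.rpow_le_rpow (Nat.cast_nonneg _) Real.nat_sqrt_le_real_sqrt (by norm_num)).trans ?_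
    rw [Real.sqrt_eq_rpow, ← Real.rpow_mul (by linarith)]
    norm_num
  have h2 : 1 ≤ (N : ℝ) ^ ((1 : ℝ) / 2 - 1 / 100000) := Real.one_le_rpow hN1 (by norm_num)
  calc (s.card : ℝ) ≤ 1 + C * ((Nat.sqrt N : ℕ) : ℝ) ^ (1 - (1 / 50000 : ℝ)) :=
        hle'.trans (add_le_add le_rfl (hb _))
    _ ≤ (N : ℝ) ^ ((1 : ℝ) / 2 - 1 / 100000) + C * (N : ℝ) ^ ((1 : ℝ) / 2 - 1 / 100000) :=
        add_le_add h2 (mul_le_mul_of_nonneg_left h1 hC.le)
    _ = _ := by ring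

end Vale.Agent.P033
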