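import Vale.Agent.P033.Exceptional

/-!
No circulant Hadamard order 4u² when a prime power part of u has prime above about the square
of the rest of u.
-/

namespace Vale.Agent.P033

open Finset

/-- If P > 13 (ω(m) + 2) m², then 4 (P^k m)² is not an order. -/
theorem not_order_of_prime_part {m P k : ℕ} (hm : m ≠ 0) (hP : P.Prime)
    (hlarge : 13 * (m.primeFactors.card + 2) * m ^ 2 < P) (hk : k ≠ 0) :
    ¬IsCirculantHadamardOrder (4 * (P ^ k * m) ^ 2) := by
  classical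
  intro hord
  set n := 4 * (P ^ k * m) ^ 2 with hn
  have hn0 : n ≠ 0 := by have := hP.pos; positivity
  have : NeZero n := ⟨hn0⟩
  have : NeZero ((n : ℕ) : ℚ) := ⟨Nat.cast_ne_zero.2 hn0⟩
  have : IsCyclotomicExtension {n} ℚ (CyclotomicField n ℚ) :=
    CyclotomicField.isCyclotomicExtension n ℚ
  have hm2 : m ≤ m ^ 2 := Nat.le_self_pow two_ne_zero m
  have h13 : 26 * m ^ 2 ≤ 13 * (m.primeFactors.card + 2) * m ^ 2 :=
    Nat.mul_le_mul_right _ (by omega)
  have hm1 : 1 ≤ m ^ 2 := Nat.one_le_pow _ _ (Nat.pos_of_ne_zero hm)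
  have hP2 : P ≠ 2 := by omega
  set M := 4 * m ^ 2 with hM
  have hnM : n = P ^ (2 * k) * M := by rw [hn, hM, pow_mul']; ring
  obtain ⟨j, hj⟩ : ∃ j, 2 * k = j + 2 := ⟨2 * k - 2, by omega⟩
  have hfix : ∀ R ∈ ({P} : Finset ℕ), ∀ q : ℕ, q.Prime → q ∣ P ^ k →
      FixShift n (CyclotomicField n ℚ) R q := by
    intro R hR q hq hqt
    rw [Finset.mem_singleton] at hR
    subst hR
    obtain rfl := (Nat.prime_dvd_prime_iff_eq hq hP).1 (hq.dvd_of_dvd_pow hqt)
    exact fixShift_self n (CyclotomicField n ℚ) (c := j + 1) (M := M) hq (by rw [hnM, hj])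
  have h := prod_totient_le_of_order n (CyclotomicField n ℚ) (u := P ^ k * m) (t := P ^ k) (s := m)
    (A := {P}) hn rfl (fun R hR => by
      rw [Finset.mem_singleton] at hR
      subst hR
      exact ⟨hP, hP2, dvd_mul_of_dvd_left (dvd_pow_self _ hk) m⟩) hfix hord
  rw [Finset.prod_singleton, Finset.sum_singleton] at h
  have hexp : Real.exp (2 * Real.log (P : ℝ) / P) ≤ 3 := by
    refine le_trans (Real.exp_le_exp.2 ?_) (Real.exp_one_lt_d9.le.trans (by norm_num))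
    rw [div_le_one (by exact_mod_cast hP.pos)]
    exact log_le_half (by exact_mod_cast hP.one_lt.le)
  have h' : P * n.totient ≤ 4 * n * m ^ 2 * 3 := by
    have hr : (P : ℝ) * n.totient ≤ ((4 * n * m ^ 2 * 3 : ℕ) : ℝ) := by
      refine h.trans ?_
      push_cast
      exact mul_le_mul_of_nonneg_left hexp (by positivity)
    exact_mod_cast hr
  have hPM : ¬P ∣ M := by
    intro hd
    rcases hP.dvd_mul.1 hd with hd | hd
    · exact hP2 ((Nat.prime_dvd_prime_iff_eq hP Nat.prime_two).1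
        (hP.dvd_of_dvd_pow (show P ∣ 2 ^ 2 from hd)))
    · have := Nat.le_of_dvd (Nat.pos_of_ne_zero hm) (hP.dvd_of_dvd_pow hd)
      omega
  have hMt : M ≤ M.totient * (m.primeFactors.card + 2) := by
    refine (le_totient_mul M).trans (Nat.mul_le_mul_left _ ?_)
    have hsub : M.primeFactors ⊆ insert 2 m.primeFactors := by
      intro r hr
      obtain ⟨hrp, hrd, -⟩ := Nat.mem_primeFactors.1 hr
      rcases hrp.dvd_mul.1 hrd with hd | hd
      · exact Finset.mem_insert.2 (Or.inl ((Nat.prime_dvd_prime_iff_eq hrp Nat.prime_two).1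
          (hrp.dvd_of_dvd_pow (show r ∣ 2 ^ 2 from hd))))
      · exact Finset.mem_insert.2 (Or.inr (Nat.mem_primeFactors.2
          ⟨hrp, hrp.dvd_of_dvd_pow hd, hm⟩))
    have := (Finset.card_le_card hsub).trans (Finset.card_insert_le _ _)
    omega
  rw [hnM, Nat.totient_mul (Nat.Coprime.pow_left _ ((hP.coprime_iff_not_dvd).2 hPM)), hj,
    Nat.totient_prime_pow hP (Nat.succ_pos _)] at h'
  simp only [Nat.succ_sub_succ_eq_sub, Nat.sub_zero] at h'
  set c := m.primeFactors.card + 2 with hc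
  have hM0 : 0 < M := by positivity
  have h5 : (P - 1) * M.totient ≤ 12 * M * m ^ 2 := by
    refine Nat.le_of_mul_le_mul_left ?_ (Nat.mul_pos hP.pos (pow_pos hP.pos (j + 1)))
    calc P * P ^ (j + 1) * ((P - 1) * M.totient)
        = P * (P ^ (j + 1) * (P - 1) * M.totient) := by ring
      _ ≤ 4 * (P ^ (j + 2) * M) * m ^ 2 * 3 := h'
      _ = P * P ^ (j + 1) * (12 * M * m ^ 2) := by ring
  have h6 : (P - 1) ≤ 12 * c * m ^ 2 := by
    refine Nat.le_of_mul_le_mul_right (c := M) ?_ hM0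
    calc (P - 1) * M ≤ (P - 1) * (M.totient * c) := Nat.mul_le_mul_left _ hMt
      _ = (P - 1) * M.totient * c := by ring
      _ ≤ 12 * M * m ^ 2 * c := Nat.mul_le_mul_right _ h5
      _ = _ := by ring
  have h7 : 12 * c * m ^ 2 + 2 ≤ 13 * c * m ^ 2 := by
    have h8 : 2 * 1 ≤ c * m ^ 2 := Nat.mul_le_mul (by omega) hm1
    have h9 : 13 * c * m ^ 2 = 12 * c * m ^ 2 + c * m ^ 2 := by ring
    omega
  omega

/-- The multi-prime criterion. -/
theorem prod_le_of_order {u t s : ℕ} {A : Finset ℕ} (hu : u ≠ 0) (hts : u = t * s)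
    (hA : ∀ P ∈ A, P.Prime ∧ P ≠ 2 ∧ P ∣ u ∧ ¬P * P ∣ u ∧ ∀ r ∈ u.primeFactors, ¬P ∣ r - 1)
    (hfix : ∀ P ∈ A, ∀ q : ℕ, q.Prime → q ∣ t → q = P ∨ q ^ (P - 1) % (P * P) ≠ 1)
    (hord : IsCirculantHadamardOrder (4 * u ^ 2)) :
    ((∏ P ∈ A, P : ℕ) : ℝ) * (4 * u ^ 2).totient ≤
      4 * ((4 * u ^ 2 : ℕ) : ℝ) * s ^ 2 * Real.exp (∑ P ∈ A, 2 * Real.log P / P) := by
  refine criterion hu hts (fun P hP => ?_) hfix hord
  obtain ⟨hPp, hP2, hPu, hPP, hr⟩ := hA P hP
  refine ⟨hPp, hP2, hPu, ?_, hr⟩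
  have h1 := (hPp.dvd_iff_one_le_factorization hu).1 hPu
  by_contra h
  exact hPP (pow_two P ▸ (hPp.pow_dvd_iff_le_factorization hu).2 (by omega))

end Vale.Agent.P033
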