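import Mathlib

/-!
Elementary bounds: sums over primes, smooth numbers, counting multiples.
-/

namespace Vale.Agent.P033

open Finset

/-- The primes up to N. -/
def primesTo (N : ℕ) : Finset ℕ := (Finset.Icc 1 N).filter Nat.Prime

lemma mem_primesTo {N q : ℕ} : q ∈ primesTo N ↔ q ≤ N ∧ q.Prime := by
  simp only [primesTo, Finset.mem_filter, Finset.mem_Icc]
  exact ⟨fun h => ⟨h.1.2, h.2⟩, fun h => ⟨⟨h.2.pos, h.1⟩, h.2⟩⟩

lemma card_primesTo (N : ℕ) : (primesTo N).card = Nat.primeCounting N := by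
  rw [Nat.primeCounting, Nat.primeCounting', Nat.count_eq_card_filter_range]
  congr 1
  ext q
  rw [mem_primesTo, Finset.mem_filter, Finset.mem_range]
  exact ⟨fun h => ⟨Nat.lt_succ_of_le h.1, h.2⟩, fun h => ⟨Nat.le_of_lt_succ h.1, h.2⟩⟩

lemma sq_le_sixteen_two_pow (i : ℕ) : i ^ 2 ≤ 16 * 2 ^ i := by
  induction i with
  | zero => simp
  | succ i ih =>
    rcases Nat.lt_or_ge i 3 with h | h
    · interval_cases i <;> norm_num
    · rw [pow_succ 2 i]; nlinarith

lemma card_primesTo_two_pow (i : ℕ) :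
    ((primesTo (2 ^ (i + 1))).card : ℝ) ≤ 8 * 2 ^ (i + 1) / (i + 1) := by
  have hx : (1 : ℝ) < ((2 ^ (i + 1) : ℕ) : ℝ) := by
    exact_mod_cast Nat.one_lt_two_pow (Nat.succ_ne_zero i)
  have h := Chebyshev.pi_le_log4_mul_div hx
  rw [Nat.floor_natCast, ← card_primesTo] at h
  push_cast at h
  refine h.trans ?_
  have hl : Real.log (Real.sqrt (2 ^ (i + 1))) = (i + 1) * Real.log 2 / 2 := by
    rw [Real.log_sqrt (by positivity), Real.log_pow]; push_cast; ring
  have h4 : Real.log 4 = 2 * Real.log 2 := by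
    rw [show (4 : ℝ) = 2 ^ 2 by norm_num, Real.log_pow]; norm_num
  rw [hl, h4]
  have hl2 : (0 : ℝ) < Real.log 2 := Real.log_pos one_lt_two
  have hi : (0 : ℝ) < (i : ℝ) + 1 := by positivity
  have h1 : 2 * Real.log 2 * (2 : ℝ) ^ (i + 1) / ((i + 1) * Real.log 2 / 2) =
      4 * 2 ^ (i + 1) / (i + 1) := by field_simp; ring
  have hs : Real.sqrt (2 ^ (i + 1)) ≤ 4 * 2 ^ (i + 1) / (i + 1) := by
    rw [le_div_iff₀ hi]
    have h2 : ((i : ℝ) + 1) ≤ 4 * Real.sqrt (2 ^ (i + 1)) := by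
      rw [← sq_le_sq₀ hi.le (by positivity), mul_pow, Real.sq_sqrt (by positivity)]
      have := sq_le_sixteen_two_pow (i + 1)
      have h3 : (((i + 1) ^ 2 : ℕ) : ℝ) ≤ ((16 * 2 ^ (i + 1) : ℕ) : ℝ) := by exact_mod_cast this
      push_cast at h3
      linarith
    have h3 := mul_le_mul_of_nonneg_left h2 (Real.sqrt_nonneg ((2 : ℝ) ^ (i + 1)))
    rw [show Real.sqrt ((2 : ℝ) ^ (i + 1)) * (4 * Real.sqrt (2 ^ (i + 1))) =
      4 * (Real.sqrt (2 ^ (i + 1)) * Real.sqrt (2 ^ (i + 1))) by ring,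
      Real.mul_self_sqrt (by positivity)] at h3
    exact h3
  rw [h1, show (8 : ℝ) * 2 ^ (i + 1) / (i + 1) = 4 * 2 ^ (i + 1) / (i + 1) + 4 * 2 ^ (i + 1) / (i + 1) by ring]
  linarith

/-- The sum of reciprocals of the primes up to 2^m is O(log m). -/
lemma sum_inv_primesTo_two_pow (m : ℕ) :
    ∑ q ∈ primesTo (2 ^ m), (q : ℝ)⁻¹ ≤ 16 * (1 + Real.log m) := by
  have hmain : ∀ m : ℕ, ∑ q ∈ primesTo (2 ^ m), (q : ℝ)⁻¹ ≤ ∑ i ∈ range m, 16 / ((i : ℝ) + 1) := by
    intro m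
    induction m with
    | zero =>
      rw [show primesTo (2 ^ 0) = ∅ by decide]
      simp
    | succ m ih =>
      rw [Finset.sum_range_succ,
        ← Finset.sum_filter_add_sum_filter_not (primesTo (2 ^ (m + 1))) (fun q => q ≤ 2 ^ m)]
      refine add_le_add ?_ ?_
      · refine le_trans (le_of_eq ?_) ih
        refine Finset.sum_congr ?_ fun _ _ => rfl
        ext q
        simp only [Finset.mem_filter, mem_primesTo]
        exact ⟨fun h => ⟨h.2, h.1.2⟩,
          fun h => ⟨⟨h.1.trans (Nat.pow_le_pow_right two_pos m.le_succ), h.2⟩, h.1⟩⟩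
      · refine le_trans (Finset.sum_le_card_nsmul _ _ ((2 : ℝ) ^ m)⁻¹ ?_) ?_
        · intro q hq
          have h := (Finset.mem_filter.1 hq).2
          refine inv_anti₀ (by positivity) ?_
          exact_mod_cast (Nat.lt_of_not_le h).le
        · rw [nsmul_eq_mul]
          have h1 : ((((primesTo (2 ^ (m + 1))).filter fun q => ¬q ≤ 2 ^ m).card : ℕ) : ℝ) ≤
              8 * 2 ^ (m + 1) / (m + 1) :=
            le_trans (by exact_mod_cast Finset.card_filter_le _ _) (card_primesTo_two_pow m)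
          refine le_trans (mul_le_mul_of_nonneg_right h1 (by positivity)) (le_of_eq ?_)
          have : ((2 : ℝ) ^ m) ≠ 0 := by positivity
          field_simp
          ring
  refine (hmain m).trans ?_
  have h := harmonic_le_one_add_log m
  have e : ∑ i ∈ range m, 16 / ((i : ℝ) + 1) = 16 * (harmonic m : ℝ) := by
    rw [harmonic, Rat.cast_sum, Finset.mul_sum]
    refine Finset.sum_congr rfl fun i _ => ?_
    push_cast; ring
  rw [e]
  linarith

lemma sum_inv_Icc_le (N : ℕ) : ∑ i ∈ Icc 1 N, (i : ℝ)⁻¹ ≤ 1 + Real.log N := by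
  refine le_trans (le_of_eq ?_) (harmonic_le_one_add_log N)
  rw [harmonic_eq_sum_Icc, Rat.cast_sum]
  simp

/-- Counting the integers up to x divisible by some d(a). -/
lemma card_exists_dvd_le {α : Type*} (I : Finset α) (d : α → ℕ) (x : ℕ) (B : Finset ℕ)
    (hB : ∀ u ∈ B, 1 ≤ u ∧ u ≤ x ∧ ∃ a ∈ I, d a ∣ u) :
    (B.card : ℝ) ≤ x * ∑ a ∈ I, (d a : ℝ)⁻¹ := by
  classical
  have h : B ⊆ I.biUnion fun a => (Ioc 0 x).filter fun u => d a ∣ u := by
    intro u hu
    obtain ⟨h1, h2, a, ha, hd⟩ := hB u hu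
    simp only [Finset.mem_biUnion, Finset.mem_filter, Finset.mem_Ioc]
    exact ⟨a, ha, ⟨h1, h2⟩, hd⟩
  have h2 := (Finset.card_le_card h).trans Finset.card_biUnion_le
  simp only [Nat.Ioc_filter_dvd_card_eq_div] at h2
  calc (B.card : ℝ) ≤ ((∑ a ∈ I, x / d a : ℕ) : ℝ) := by exact_mod_cast h2
    _ ≤ ∑ a ∈ I, (x : ℝ) / d a := by
      push_cast; exact Finset.sum_le_sum fun a _ => Nat.cast_div_le
    _ = _ := by rw [Finset.mul_sum]; simp [div_eq_mul_inv]

/-- Reciprocals of the numbers congruent to 1 modulo d. -/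
lemma sum_inv_one_mod_le {d x : ℕ} (hd : 1 ≤ d) (S : Finset ℕ)
    (hS : ∀ P ∈ S, 2 ≤ P ∧ P ≤ x ∧ d ∣ P - 1) :
    ∑ P ∈ S, (P : ℝ)⁻¹ ≤ (1 + Real.log x) / d := by
  calc ∑ P ∈ S, (P : ℝ)⁻¹ ≤ ∑ P ∈ S, ((d : ℝ) * ((P - 1) / d : ℕ))⁻¹ := by
        refine Finset.sum_le_sum fun P hP => ?_
        obtain ⟨h2, _, hdvd⟩ := hS P hP
        have e : (d : ℕ) * ((P - 1) / d) = P - 1 := Nat.mul_div_cancel' hdvd
        rw [← Nat.cast_mul, e]
        refine inv_anti₀ ?_ ?_
        · have : 0 < P - 1 := by omega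
          exact_mod_cast this
        · exact_mod_cast Nat.sub_le P 1
    _ = ∑ i ∈ S.image (fun P => (P - 1) / d), ((d : ℝ) * (i : ℕ))⁻¹ := by
        rw [Finset.sum_image]
        intro a ha b hb hab
        obtain ⟨ha2, _, had⟩ := hS a ha
        obtain ⟨hb2, _, hbd⟩ := hS b hb
        have e1 := Nat.mul_div_cancel' had
        have e2 := Nat.mul_div_cancel' hbd
        simp only at hab
        rw [hab, e2] at e1
        omega
    _ ≤ ∑ i ∈ Icc 1 x, ((d : ℝ) * (i : ℕ))⁻¹ := by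
        refine Finset.sum_le_sum_of_subset_of_nonneg ?_ (fun i _ _ => by positivity)
        intro i hi
        obtain ⟨P, hP, rfl⟩ := Finset.mem_image.1 hi
        obtain ⟨h2, hx, hdvd⟩ := hS P hP
        rw [Finset.mem_Icc]
        refine ⟨Nat.div_pos (Nat.le_of_dvd (by omega) hdvd) (by omega), ?_⟩
        exact le_trans (Nat.div_le_self _ _) (by omega)
    _ = (∑ i ∈ Icc 1 x, (i : ℝ)⁻¹) / d := by
        rw [Finset.sum_div]
        refine Finset.sum_congr rfl fun i _ => ?_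
        rw [mul_inv, div_eq_mul_inv, mul_comm]
    _ ≤ _ := div_le_div_of_nonneg_right (sum_inv_Icc_le x) (by positivity)

lemma sum_inv_sq_Ioc_le {Y x : ℕ} (hY : 1 ≤ Y) (S : Finset ℕ) (hS : ∀ i ∈ S, Y < i ∧ i ≤ x) :
    ∑ i ∈ S, ((i : ℝ) * i)⁻¹ ≤ (Y : ℝ)⁻¹ := by
  rcases S.eq_empty_or_nonempty with h | ⟨j, hj⟩
  · subst h; simp
  have hYx : Y ≤ x := le_trans (hS j hj).1.le (hS j hj).2
  calc ∑ i ∈ S, ((i : ℝ) * i)⁻¹ ≤ ∑ i ∈ Ioc Y x, ((i : ℝ) * i)⁻¹ :=
        Finset.sum_le_sum_of_subset_of_nonneg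
          (fun i hi => Finset.mem_Ioc.2 (hS i hi)) (fun i _ _ => by positivity)
    _ = ∑ i ∈ Ioc Y x, ((i : ℝ) ^ 2)⁻¹ := by simp [sq]
    _ ≤ (Y : ℝ)⁻¹ - (x : ℝ)⁻¹ := sum_Ioc_inv_sq_le_sub (by omega) hYx
    _ ≤ _ := by
      have : (0 : ℝ) ≤ (x : ℝ)⁻¹ := by positivity
      linarith

/-- Rankin's bound for sums over numbers with all prime factors in T. -/
lemma sum_rpow_factored_le (T : Finset ℕ) (hT : ∀ l ∈ T, Nat.Prime l) (B : ℕ) (a : ℝ) (ha : a < 0) :
    ∑ d ∈ (Icc 1 B).filter (fun d => d.primeFactors ⊆ T), (d : ℝ) ^ a ≤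
      ∏ l ∈ T, (1 - (l : ℝ) ^ a)⁻¹ := by
  classical
  induction T using Finset.induction with
  | empty =>
    calc _ ≤ ∑ d ∈ ({1} : Finset ℕ), (d : ℝ) ^ a := by
          refine Finset.sum_le_sum_of_subset_of_nonneg ?_ (fun i _ _ => Real.rpow_nonneg (by positivity) _)
          intro d hd
          simp only [Finset.mem_filter, Finset.mem_Icc, Finset.subset_empty, Nat.primeFactors_eq_empty] at hd
          simp; omega
      _ = _ := by simp
  | insert l T hl ih =>
    have hlp := hT l (Finset.mem_insert_self l T)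
    have ht : (l : ℝ) ^ a < 1 :=
      Real.rpow_lt_one_of_one_lt_of_neg (by exact_mod_cast hlp.one_lt) ha
    have ht0 : 0 ≤ (l : ℝ) ^ a := Real.rpow_nonneg (by positivity) _
    rw [Finset.prod_insert hl]
    set S := (Icc 1 B).filter (fun d => d.primeFactors ⊆ T)
    set f : ℕ → ℕ × ℕ := fun d => (d.factorization l, d / l ^ d.factorization l) with hf
    have hinj : Set.InjOn f ((Icc 1 B).filter (fun d => d.primeFactors ⊆ insert l T) : Set ℕ) := by
      intro x _ y _ h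
      simp only [hf, Prod.mk.injEq] at h
      rw [← Nat.ordProj_mul_ordCompl_eq_self x l, ← Nat.ordProj_mul_ordCompl_eq_self y l, h.2, h.1]
    calc ∑ d ∈ (Icc 1 B).filter (fun d => d.primeFactors ⊆ insert l T), (d : ℝ) ^ a
        = ∑ p ∈ ((Icc 1 B).filter (fun d => d.primeFactors ⊆ insert l T)).image f,
            ((l : ℝ) ^ a) ^ p.1 * (p.2 : ℝ) ^ a := by
          rw [Finset.sum_image hinj]
          refine Finset.sum_congr rfl fun d _ => ?_
          conv_lhs => rw [← Nat.ordProj_mul_ordCompl_eq_self d l]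
          rw [Nat.cast_mul, Real.mul_rpow (by positivity) (by positivity), Nat.cast_pow,
            ← Real.rpow_natCast, ← Real.rpow_mul (by positivity), mul_comm _ a,
            Real.rpow_mul (by positivity), Real.rpow_natCast]
      _ ≤ ∑ p ∈ range (B + 1) ×ˢ S, ((l : ℝ) ^ a) ^ p.1 * (p.2 : ℝ) ^ a := by
          refine Finset.sum_le_sum_of_subset_of_nonneg ?_
            (fun p _ _ => mul_nonneg (pow_nonneg ht0 _) (Real.rpow_nonneg (by positivity) _))
          intro p hp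
          obtain ⟨d, hd, rfl⟩ := Finset.mem_image.1 hp
          obtain ⟨hd1, hd2⟩ := Finset.mem_filter.1 hd
          rw [Finset.mem_Icc] at hd1
          simp only [hf, Finset.mem_product, Finset.mem_range, S, Finset.mem_filter, Finset.mem_Icc]
          have hd0 : d ≠ 0 := by omega
          have hlv : d.factorization l < 2 ^ d.factorization l := Nat.lt_two_pow_self
          have hle : l ^ d.factorization l ≤ d := Nat.le_of_dvd (by omega) (Nat.ordProj_dvd d l)
          have h2 : 2 ^ d.factorization l ≤ l ^ d.factorization l :=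
            Nat.pow_le_pow_left hlp.two_le _
          refine ⟨by omega, ⟨Nat.ordCompl_pos l hd0, le_trans (Nat.div_le_self _ _) hd1.2⟩, ?_⟩
          intro r hr
          obtain ⟨hrp, hrd, _⟩ := Nat.mem_primeFactors.1 hr
          have hrl : r ≠ l := by
            rintro rfl
            exact Nat.not_dvd_ordCompl hrp hd0 hrd
          rcases Finset.mem_insert.1 (hd2 (Nat.mem_primeFactors.2
            ⟨hrp, hrd.trans (Nat.ordCompl_dvd d l), hd0⟩)) with h | h
          · exact absurd h hrl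
          · exact h
      _ = (∑ j ∈ range (B + 1), ((l : ℝ) ^ a) ^ j) * ∑ d ∈ S, (d : ℝ) ^ a := by
          rw [Finset.sum_product, Finset.sum_mul_sum]
      _ ≤ _ := by
          refine mul_le_mul ?_ (ih fun r hr => hT r (Finset.mem_insert_of_mem hr))
            (Finset.sum_nonneg fun d _ => Real.rpow_nonneg (by positivity) _)
            (inv_nonneg.2 (by linarith))
          rw [geom_sum_eq ht.ne, ← neg_div_neg_eq, neg_sub, neg_sub, div_eq_mul_inv]
          have : 0 ≤ ((l : ℝ) ^ a) ^ (B + 1) := pow_nonneg ht0 _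
          exact mul_le_of_le_one_left (inv_nonneg.2 (by linarith)) (by linarith)

lemma smooth_factor_bound {v l : ℕ} (hv : 2 ≤ v) (hl : l ∈ primesTo (2 ^ v)) :
    0 ≤ (1 - (l : ℝ) ^ ((1 : ℝ) / v - 1))⁻¹ ∧
      (1 - (l : ℝ) ^ ((1 : ℝ) / v - 1))⁻¹ ≤ Real.exp (8 * (l : ℝ)⁻¹) := by
  obtain ⟨hlV, hlp⟩ := mem_primesTo.1 hl
  have hl2 : (2 : ℝ) ≤ l := by exact_mod_cast hlp.two_le
  have hv' : (2 : ℝ) ≤ v := by exact_mod_cast hv
  set η : ℝ := (1 : ℝ) / v with hη
  have hη0 : 0 < η := by rw [hη]; positivity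
  have hη1 : η ≤ 1 / 2 := by rw [hη]; exact one_div_le_one_div_of_le two_pos hv'
  have h34 : (2 : ℝ) ^ (-(1 / 2) : ℝ) ≤ 3 / 4 := by
    rw [Real.rpow_neg two_pos.le, ← Real.sqrt_eq_rpow,
      inv_le_iff_one_le_mul₀ (Real.sqrt_pos.2 two_pos)]
    nlinarith [Real.mul_self_sqrt (two_pos.le : (0 : ℝ) ≤ 2), Real.sqrt_nonneg 2]
  have hbase : (l : ℝ) ^ (η - 1) ≤ 3 / 4 :=
    le_trans (Real.rpow_le_rpow_of_nonpos two_pos hl2 (by linarith))
      (le_trans (Real.rpow_le_rpow_of_exponent_le one_le_two (by linarith)) h34)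
  have hpow : (l : ℝ) ^ η ≤ 2 := by
    refine le_trans (Real.rpow_le_rpow (by positivity)
      (show (l : ℝ) ≤ (2 : ℝ) ^ (v : ℕ) by exact_mod_cast hlV) hη0.le) (le_of_eq ?_)
    rw [← Real.rpow_natCast, ← Real.rpow_mul two_pos.le, hη, mul_one_div,
      div_self (by positivity), Real.rpow_one]
  have hup : (l : ℝ) ^ (η - 1) ≤ 2 * (l : ℝ)⁻¹ := by
    rw [Real.rpow_sub (by linarith), Real.rpow_one, div_eq_mul_inv]
    exact mul_le_mul_of_nonneg_right hpow (by positivity)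
  have ht0 : 0 ≤ (l : ℝ) ^ (η - 1) := Real.rpow_nonneg (by positivity) _
  refine ⟨inv_nonneg.2 (by linarith), ?_⟩
  refine le_trans ?_ (Real.add_one_le_exp _)
  refine le_trans ?_ (show 1 + 4 * (l : ℝ) ^ (η - 1) ≤ 8 * (l : ℝ)⁻¹ + 1 by linarith)
  rw [inv_le_iff_one_le_mul₀ (by linarith)]
  nlinarith

/-- The reciprocal sum of V-smooth numbers exceeding W. -/
lemma sum_inv_smooth_le {v W B : ℕ} (hv : 2 ≤ v) (hW : 1 ≤ W) :
    ∑ d ∈ (Icc 1 B).filter (fun d => d.primeFactors ⊆ primesTo (2 ^ v) ∧ W < d), (d : ℝ)⁻¹ ≤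
      ((W : ℝ) ^ ((1 : ℝ) / v))⁻¹ * Real.exp (128 * (1 + Real.log v)) := by
  set η : ℝ := (1 : ℝ) / v with hη
  have hv' : (2 : ℝ) ≤ v := by exact_mod_cast hv
  have hη0 : 0 < η := by rw [hη]; positivity
  have hη1 : η ≤ 1 / 2 := by
    rw [hη]; exact one_div_le_one_div_of_le two_pos hv'
  have hWp : (0 : ℝ) < W := by exact_mod_cast hW
  calc _ ≤ ∑ d ∈ (Icc 1 B).filter (fun d => d.primeFactors ⊆ primesTo (2 ^ v) ∧ W < d),
        ((W : ℝ) ^ η)⁻¹ * (d : ℝ) ^ (η - 1) := by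
        refine Finset.sum_le_sum fun d hd => ?_
        have hWd : (W : ℝ) ≤ d := by exact_mod_cast (Finset.mem_filter.1 hd).2.2.le
        have hd0 : (0 : ℝ) < d := lt_of_lt_of_le hWp hWd
        rw [Real.rpow_sub hd0, Real.rpow_one, div_eq_mul_inv, ← mul_assoc]
        refine le_mul_of_one_le_left (by positivity) ?_
        rw [← div_eq_inv_mul, le_div_iff₀ (Real.rpow_pos_of_pos hWp _), one_mul]
        exact Real.rpow_le_rpow hWp.le hWd hη0.le
    _ ≤ ((W : ℝ) ^ η)⁻¹ * ∑ d ∈ (Icc 1 B).filter (fun d => d.primeFactors ⊆ primesTo (2 ^ v)),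
        (d : ℝ) ^ (η - 1) := by
        rw [← Finset.mul_sum]
        refine mul_le_mul_of_nonneg_left ?_ (by positivity)
        refine Finset.sum_le_sum_of_subset_of_nonneg ?_ (fun i _ _ => Real.rpow_nonneg (by positivity) _)
        intro d hd
        simp only [Finset.mem_filter] at hd ⊢
        exact ⟨hd.1, hd.2.1⟩
    _ ≤ ((W : ℝ) ^ η)⁻¹ * ∏ l ∈ primesTo (2 ^ v), (1 - (l : ℝ) ^ (η - 1))⁻¹ :=
        mul_le_mul_of_nonneg_left
          (sum_rpow_factored_le _ (fun l hl => (mem_primesTo.1 hl).2) B _ (by linarith)) (by positivity)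
    _ ≤ ((W : ℝ) ^ η)⁻¹ * ∏ l ∈ primesTo (2 ^ v), Real.exp (8 * (l : ℝ)⁻¹) :=
        mul_le_mul_of_nonneg_left
          (Finset.prod_le_prod (fun l hl => (smooth_factor_bound hv hl).1)
            (fun l hl => (smooth_factor_bound hv hl).2)) (by positivity)
    _ ≤ _ := by
        rw [← Real.exp_sum, ← Finset.mul_sum]
        refine mul_le_mul_of_nonneg_left (Real.exp_le_exp.2 ?_) (by positivity)
        have := sum_inv_primesTo_two_pow v
        linarith

end Vale.Agent.P033
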