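import Vale.Agent.P033.Cyclo

/-!
The primes above a totally ramified P: an element in a high power of such a prime has all its
classes of exponents modulo P in nearly the same power.
-/

namespace Vale.Agent.P033

open NumberField Finset

variable (n : ℕ) [NeZero n] (K : Type) [Field K] [NumberField K] [IsCyclotomicExtension {n} ℚ K]
variable (P : ℕ) [hPp : Fact P.Prime] {c M : ℕ}

/-- The primitive root of order the full power of P. -/
noncomputable def eta (M : ℕ) : 𝓞 K := zI n K ^ M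

omit hPp in
lemma eta_prim (hn : n = P ^ (c + 2) * M) : IsPrimitiveRoot (eta n K M) (P ^ (c + 2)) :=
  (zI_prim n K).pow (NeZero.pos n) (by rw [hn, mul_comm])

/-- A prime number is an associate of the power φ(P^(k+1)) of ξ - 1. -/
lemma associated_pow_sub_one {k : ℕ} {ξ : 𝓞 K} (hξ : IsPrimitiveRoot ξ (P ^ (k + 1))) :
    Associated ((ξ - 1) ^ (P ^ (k + 1)).totient) (P : 𝓞 K) := by
  have h1 : (P : 𝓞 K) = ∏ μ ∈ primitiveRoots (P ^ (k + 1)) (𝓞 K), (1 - μ) := by
    rw [← Polynomial.eval_one_cyclotomic_prime_pow (R := 𝓞 K) k,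
      Polynomial.cyclotomic_eq_prod_X_sub_primitiveRoots hξ, Polynomial.eval_prod]
    simp
  rw [h1, ← hξ.card_primitiveRoots, ← Finset.prod_const]
  refine Associated.prod _ _ _ fun μ hμ => ?_
  have hμ' := isPrimitiveRoot_of_mem_primitiveRoots hμ
  obtain ⟨i, _, hi, rfl⟩ := (hξ.isPrimitiveRoot_iff).1 hμ'
  refine (hξ.associated_sub_one_pow_sub_one_of_coprime hi).trans ?_
  rw [← neg_sub (1 : 𝓞 K)]
  exact (Associated.refl _).neg_left

include hPp in
/-- π^φ is associated to P, and η^P - 1 to π^P. -/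
lemma associated_pi0 (hn : n = P ^ (c + 2) * M) (hP2 : P ≠ 2) :
    Associated ((eta n K M) ^ P - 1) ((eta n K M - 1) ^ P) := by
  have hη := eta_prim n K P hn
  have hη0 : IsPrimitiveRoot ((eta n K M) ^ P) (P ^ (c + 1)) :=
    hη.pow (pow_pos hPp.out.pos _) (by ring)
  have hA := associated_pow_sub_one K P (k := c + 1) hη
  have hB := associated_pow_sub_one K P (k := c) hη0
  set π := eta n K M - 1 with hπ
  have hdvd : π ^ P ∣ (eta n K M) ^ P - 1 := by
    obtain ⟨r, hr⟩ := exists_add_pow_prime_eq hPp.out π 1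
    have e : eta n K M = π + 1 := by rw [hπ]; ring
    rw [e, hr, one_pow, mul_one]
    have hle : P ≤ (P ^ (c + 1 + 1)).totient := by
      rw [Nat.totient_prime_pow hPp.out (Nat.succ_pos _)]
      have := hPp.out.two_le
      simp only [Nat.succ_sub_succ_eq_sub, Nat.sub_zero, Nat.add_sub_cancel]
      calc P = P ^ 1 * 1 := by simp
        _ ≤ _ := Nat.mul_le_mul (Nat.pow_le_pow_right hPp.out.pos (by omega)) (by omega)
    have hP' : π ^ P ∣ (P : 𝓞 K) := (pow_dvd_pow _ hle).trans hA.dvd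
    rw [show π ^ P + 1 + (P : 𝓞 K) * π * r - 1 = π ^ P + (P : 𝓞 K) * (π * r) by ring]
    exact dvd_add dvd_rfl (dvd_mul_of_dvd_left hP' _)
  obtain ⟨v, hv⟩ := hdvd
  have htot : (P ^ (c + 1 + 1)).totient = P * (P ^ (c + 1)).totient := by
    rw [Nat.totient_prime_pow hPp.out (Nat.succ_pos _), Nat.totient_prime_pow hPp.out (Nat.succ_pos _)]
    simp only [Nat.succ_sub_succ_eq_sub, Nat.sub_zero, Nat.add_sub_cancel]
    ring
  have h := hA.trans hB.symm
  rw [hv, mul_pow, ← pow_mul, ← htot] at h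
  obtain ⟨e, he⟩ := h
  have hπ0 : π ^ (P ^ (c + 1 + 1)).totient ≠ 0 := pow_ne_zero _
    (sub_ne_zero.2 (hη.ne_one (Nat.one_lt_pow (by omega) hPp.out.one_lt)))
  have hu : IsUnit (v ^ (P ^ (c + 1)).totient) := by
    rw [← mul_left_cancel₀ hπ0 he]
    exact e.isUnit
  have hv' : IsUnit v :=
    (isUnit_pow_iff (Nat.totient_pos.2 (pow_pos hPp.out.pos _)).ne').1 hu
  rw [hv]
  exact associated_mul_unit_left _ _ hv'

section

variable (hn : n = P ^ (c + 2) * M) (Q : Ideal (𝓞 K)) [hQ : Q.IsPrime] (hPQ : (P : 𝓞 K) ∈ Q)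

include hn hPQ in
lemma pi_mem : eta n K M - 1 ∈ Q := by
  have h := (associated_pow_sub_one K P (k := c + 1) (eta_prim n K P hn))
  obtain ⟨e, he⟩ := h
  rw [← he] at hPQ
  rcases hQ.mem_or_mem hPQ with h | h
  · exact hQ.mem_of_pow_mem _ h
  · exact absurd (Ideal.eq_top_of_isUnit_mem _ h e.isUnit) hQ.ne_top

include hn hPQ in
/-- The quotient by π has no nilpotents. -/
lemma dvd_of_dvd_sq (hM : ¬P ∣ M) {y : 𝓞 K} (h : eta n K M - 1 ∣ y ^ 2) :
    eta n K M - 1 ∣ y := by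
  have hM0 : M ≠ 0 := fun h => hM (h ▸ dvd_zero P)
  set π := eta n K M - 1 with hπdef
  have hπQ : π ∈ Q := pi_mem n K P hn Q hPQ
  have hle : Ideal.span {π} ≤ Q := (Ideal.span_singleton_le_iff_mem _).2 hπQ
  have : Nontrivial (𝓞 K ⧸ Ideal.span {π}) :=
    Ideal.Quotient.nontrivial_iff.2 fun htop => hQ.ne_top (top_le_iff.1 (htop ▸ hle))
  set R := 𝓞 K ⧸ Ideal.span {π}
  set mk := Ideal.Quotient.mk (Ideal.span {π}) with hmk
  have hP0 : (P : R) = 0 := by
    rw [← map_natCast mk, hmk, Ideal.Quotient.eq_zero_iff_dvd]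
    exact (dvd_pow_self π (Nat.totient_pos.2 (pow_pos hPp.out.pos _)).ne').trans
      (associated_pow_sub_one K P (k := c + 1) (eta_prim n K P hn)).dvd
  have : CharP R P := (CharP.charP_iff_prime_eq_zero hPp.out).2 hP0
  set z := mk (zI n K) with hz
  have hzM : z ^ M = 1 := by
    rw [hz, ← map_pow, ← sub_eq_zero, ← map_one mk, ← map_sub, hmk,
      Ideal.Quotient.eq_zero_iff_dvd]
    exact dvd_refl _
  obtain ⟨f, hf⟩ : ∃ f, f = M.totient := ⟨_, rfl⟩
  have hf0 : 0 < f := hf ▸ Nat.totient_pos.2 (Nat.pos_of_ne_zero hM0)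
  have hPM : Nat.Coprime P M := (hPp.out.coprime_iff_not_dvd).2 hM
  have hfix : (iterateFrobenius R P f).comp mk = mk := by
    apply ringHom_ext_zI n K
    simp only [RingHom.coe_comp, Function.comp_apply, iterateFrobenius_def]
    obtain ⟨t, ht⟩ := (Nat.modEq_iff_dvd' (Nat.one_le_pow _ _ hPp.out.pos)).1
      (Nat.ModEq.pow_totient hPM).symm
    rw [← hf] at ht
    rw [show P ^ f = 1 + M * t by
      have := Nat.one_le_pow f P hPp.out.pos
      rw [← ht]; omega]
    rw [pow_add, pow_mul, hzM, one_pow, mul_one, pow_one]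
  rw [← Ideal.Quotient.eq_zero_iff_dvd] at h ⊢
  have hy := RingHom.congr_fun hfix y
  simp only [RingHom.coe_comp, Function.comp_apply, iterateFrobenius_def] at hy
  rw [← hy]
  refine pow_eq_zero_of_le ?_ (by rwa [map_pow] at h)
  calc 2 ≤ P ^ 1 := by rw [pow_one]; exact hPp.out.two_le
    _ ≤ P ^ f := Nat.pow_le_pow_right hPp.out.pos hf0

include hn hPQ in
/-- (π) = Q J with J not inside Q. -/
lemma exists_complement (hM : ¬P ∣ M) :
    ∃ J : Ideal (𝓞 K), Ideal.span {eta n K M - 1} = Q * J ∧ ¬J ≤ Q := by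
  set π := eta n K M - 1
  have hπ0 : π ≠ 0 := sub_ne_zero.2
    ((eta_prim n K P hn).ne_one (Nat.one_lt_pow (by omega) hPp.out.one_lt))
  obtain ⟨J, hJ⟩ := Ideal.dvd_iff_le.2
    ((Ideal.span_singleton_le_iff_mem _).2 (pi_mem n K P hn Q hPQ))
  refine ⟨J, hJ, fun hle => ?_⟩
  have hJle : J ≤ Ideal.span {π} := by
    intro y hy
    rw [Ideal.mem_span_singleton]
    refine dvd_of_dvd_sq n K P hn Q hPQ hM ?_
    rw [← Ideal.mem_span_singleton, hJ, pow_two]
    exact Ideal.mul_mem_mul (hle hy) hy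
  have heq : J = Q * J := le_antisymm (hJ ▸ hJle) Ideal.mul_le_right
  have hJ0 : J ≠ ⊥ := by
    intro h
    rw [h, Ideal.mul_bot, Ideal.span_singleton_eq_bot] at hJ
    exact hπ0 hJ
  exact hQ.ne_top ((mul_right_cancel₀ hJ0 ((one_mul J).trans heq)).symm.trans Ideal.one_eq_top)

include hn hPQ in
lemma prime_ideal : Prime Q := by
  refine Ideal.prime_of_isPrime ?_ hQ
  intro h
  rw [h, Ideal.mem_bot] at hPQ
  exact hPp.out.ne_zero (Nat.cast_eq_zero.1 hPQ)

include hn hPQ in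
/-- Multiplying by π^l raises the power of Q by exactly l. -/
lemma mem_pow_of_mul_pi (hM : ¬P ∣ M) {y : 𝓞 K} {a l : ℕ}
    (h : y * (eta n K M - 1) ^ l ∈ Q ^ (a + l)) : y ∈ Q ^ a := by
  obtain ⟨J, hJ, hJQ⟩ := exists_complement n K P hn Q hPQ hM
  have hp := prime_ideal n K P hn Q hPQ
  rw [← Ideal.span_singleton_le_iff_mem, ← Ideal.dvd_iff_le,
    ← Ideal.span_singleton_mul_span_singleton, ← Ideal.span_singleton_pow, hJ, mul_pow,
    pow_add, mul_comm (Q ^ l) (J ^ l), ← mul_assoc] at h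
  have h2 := (mul_dvd_mul_iff_right (pow_ne_zero l hp.ne_zero)).1 h
  rw [← Ideal.span_singleton_le_iff_mem, ← Ideal.dvd_iff_le]
  refine hp.pow_dvd_of_dvd_mul_right a ?_ h2
  exact fun hd => hJQ (Ideal.dvd_iff_le.1 (hp.dvd_of_dvd_pow hd))

include hn hPQ in
lemma prime_mem_pow : (P : 𝓞 K) ∈ Q ^ P := by
  obtain ⟨e, he⟩ := associated_pow_sub_one K P (k := c + 1) (eta_prim n K P hn)
  rw [← he]
  refine Ideal.mul_mem_right _ _ (Ideal.pow_le_pow_right ?_
    (Ideal.pow_mem_pow (pi_mem n K P hn Q hPQ) _))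
  rw [Nat.totient_prime_pow hPp.out (Nat.succ_pos _)]
  have := hPp.out.two_le
  simp only [Nat.succ_sub_succ_eq_sub, Nat.sub_zero, Nat.add_sub_cancel]
  calc P = P ^ 1 * 1 := by simp
    _ ≤ _ := Nat.mul_le_mul (Nat.pow_le_pow_right hPp.out.pos (by omega)) (by omega)

end

section

variable (hP : P * P ∣ n)

/-- Class 0 means: a P-th power modulo P. -/
lemma exists_pow_rep {y : 𝓞 K} (hy : IsClass n K P hP 0 y)
    (Q : Ideal (𝓞 K)) [hQ : Q.IsPrime] (hPQ : (P : 𝓞 K) ∈ Q) :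
    ∃ z : 𝓞 K, (P : 𝓞 K) ∣ y - z ^ P := by
  obtain ⟨d, e, he⟩ := exists_rep n K y
  have hle : Ideal.span {(P : 𝓞 K)} ≤ Q := (Ideal.span_singleton_le_iff_mem _).2 hPQ
  have : Nontrivial (𝓞 K ⧸ Ideal.span {(P : 𝓞 K)}) :=
    Ideal.Quotient.nontrivial_iff.2 fun htop => hQ.ne_top (top_le_iff.1 (htop ▸ hle))
  set R := 𝓞 K ⧸ Ideal.span {(P : 𝓞 K)}
  set mk := Ideal.Quotient.mk (Ideal.span {(P : 𝓞 K)}) with hmk
  have : CharP R P := (CharP.charP_iff_prime_eq_zero hPp.out).2 (by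
    rw [← map_natCast mk, hmk, Ideal.Quotient.eq_zero_iff_dvd])
  have hy' : y = ∑ m ∈ (range d).filter (P ∣ ·), (e m : 𝓞 K) * zI n K ^ m := by
    apply mul_left_cancel₀ (show (P : 𝓞 K) ≠ 0 from Nat.cast_ne_zero.2 hPp.out.ne_zero)
    have h1 : ∑ j : ZMod P, sig n K P hP j y = (P : 𝓞 K) * y := by
      have hyj : ∀ j, sig n K P hP j y = y := fun j => (hy j).trans (by simp)
      simp only [hyj, Finset.sum_const, Finset.card_univ, ZMod.card, nsmul_eq_mul]
    rw [← h1, he]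
    simp only [map_sum, map_mul, map_intCast, sig_zI_pow]
    rw [Finset.sum_comm, Finset.sum_filter, Finset.mul_sum]
    refine Finset.sum_congr rfl fun m _ => ?_
    rw [← Finset.mul_sum, ← Finset.sum_mul, sum_chi]
    simp only [ZMod.natCast_eq_zero_iff]
    split_ifs <;> ring
  refine ⟨∑ m ∈ (range d).filter (P ∣ ·), (e m : 𝓞 K) * zI n K ^ (m / P), ?_⟩
  rw [← Ideal.Quotient.eq_zero_iff_dvd, map_sub, sub_eq_zero, hy', map_pow, map_sum, map_sum]
  rw [sum_pow_char]
  refine Finset.sum_congr rfl fun m hm => ?_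
  rw [map_mul, map_mul, mul_pow, map_intCast, map_pow, map_pow, ← pow_mul,
    Nat.div_mul_cancel (Finset.mem_filter.1 hm).2]
  congr 1
  exact (map_intCast (frobenius R P) (e m)).symm

/-- Every P-th power is congruent to an element of class 0. -/
lemma exists_class_zero (z : 𝓞 K) (Q : Ideal (𝓞 K)) [hQ : Q.IsPrime] (hPQ : (P : 𝓞 K) ∈ Q) :
    ∃ y : 𝓞 K, IsClass n K P hP 0 y ∧ (P : 𝓞 K) ∣ y - z ^ P := by
  obtain ⟨d, e, he⟩ := exists_rep n K z
  have hle : Ideal.span {(P : 𝓞 K)} ≤ Q := (Ideal.span_singleton_le_iff_mem _).2 hPQ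
  have : Nontrivial (𝓞 K ⧸ Ideal.span {(P : 𝓞 K)}) :=
    Ideal.Quotient.nontrivial_iff.2 fun htop => hQ.ne_top (top_le_iff.1 (htop ▸ hle))
  set R := 𝓞 K ⧸ Ideal.span {(P : 𝓞 K)}
  set mk := Ideal.Quotient.mk (Ideal.span {(P : 𝓞 K)}) with hmk
  have : CharP R P := (CharP.charP_iff_prime_eq_zero hPp.out).2 (by
    rw [← map_natCast mk, hmk, Ideal.Quotient.eq_zero_iff_dvd])
  refine ⟨∑ m ∈ range d, (e m : 𝓞 K) * zI n K ^ (m * P), fun j => ?_, ?_⟩
  · simp [map_sum, sig_zI_pow]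
  · rw [← Ideal.Quotient.eq_zero_iff_dvd, map_sub, sub_eq_zero, he, map_pow, map_sum, map_sum]
    rw [sum_pow_char]
    refine Finset.sum_congr rfl fun m _ => ?_
    rw [map_mul, map_mul, mul_pow, map_intCast, map_pow, map_pow, ← pow_mul]
    congr 1
    exact (map_intCast (frobenius R P) (e m)).symm

variable (hn : n = P ^ (c + 2) * M) (Q : Ideal (𝓞 K)) [hQ : Q.IsPrime] (hPQ : (P : 𝓞 K) ∈ Q)

include hn hPQ in
/-- For class 0 the exponent of Q is a multiple of P. -/
lemma class_zero_mem (hM : ¬P ∣ M) (hP2 : P ≠ 2) {y : 𝓞 K} (hy : IsClass n K P hP 0 y) {j : ℕ}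
    (h : y ∈ Q ^ (j * P + 1)) : y ∈ Q ^ ((j + 1) * P) := by
  have hP0 := hPp.out.ne_zero
  set π := eta n K M - 1 with hπ
  have hbase : ∀ {w : 𝓞 K}, IsClass n K P hP 0 w → w ∈ Q → w ∈ Q ^ P := by
    intro w hw hwQ
    obtain ⟨z, r, hr⟩ := exists_pow_rep n K P hP hw Q hPQ
    have hz : z ∈ Q := hQ.mem_of_pow_mem P (by
      rw [show z ^ P = w - (P : 𝓞 K) * r by rw [← hr]; ring]
      exact sub_mem hwQ (Q.mul_mem_right r hPQ))
    rw [show w = z ^ P + (P : 𝓞 K) * r by rw [← hr]; ring]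
    exact add_mem (Ideal.pow_mem_pow hz P)
      (Ideal.mul_mem_right r _ (prime_mem_pow n K P hn Q hPQ))
  obtain ⟨J, hJ, hJQ⟩ := exists_complement n K P hn Q hPQ hM
  obtain ⟨g₀, hg₀J, hg₀Q⟩ := SetLike.not_le_iff_exists.1 hJQ
  obtain ⟨g, hg, r, hgr⟩ := exists_class_zero n K P hP g₀ Q hPQ
  have hge : g = g₀ ^ P + (P : 𝓞 K) * r := by rw [← hgr]; ring
  have hgQ : g ∉ Q := by
    intro hg'
    refine hg₀Q (hQ.mem_of_pow_mem P ?_)
    rw [show g₀ ^ P = g - (P : 𝓞 K) * r by rw [hge]; ring]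
    exact sub_mem hg' (Q.mul_mem_right r hPQ)
  have hgJ : g ∈ J := by
    rw [hge]
    refine add_mem (J.pow_mem_of_mem hg₀J P hPp.out.pos) (J.mul_mem_right r ?_)
    have hmem : (P : 𝓞 K) ∈ Ideal.span {π} := Ideal.mem_span_singleton.2
      ((dvd_pow_self π (Nat.totient_pos.2 (pow_pos hPp.out.pos _)).ne').trans
        (associated_pow_sub_one K P (k := c + 1) (eta_prim n K P hn)).dvd)
    rw [hJ] at hmem
    exact Ideal.mul_le_right hmem
  set π₀ := (eta n K M) ^ P - 1 with hπ₀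
  obtain ⟨y₁, hy₁⟩ : π₀ ^ j ∣ g ^ (j * P) * y := by
    refine (((associated_pi0 n K P hn hP2).pow_pow (n := j)).dvd).trans ?_
    rw [← hπ, ← pow_mul, mul_comm P j, ← Ideal.mem_span_singleton,
      ← Ideal.span_singleton_pow, hJ, mul_pow, mul_comm (Q ^ (j * P))]
    exact Ideal.mul_mem_mul (Ideal.pow_mem_pow hgJ (j * P)) (Ideal.pow_le_pow_right (Nat.le_succ (j * P)) h)
  have hπ₀c : ∀ a, sig n K P hP a π₀ = π₀ := by
    intro a
    rw [hπ₀, map_sub, map_one, eta, ← pow_mul, sig_zI_pow]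
    simp
  have hπ₀0 : π₀ ≠ 0 := by
    intro hz
    have := (associated_pi0 n K P hn hP2).eq_zero_iff.1 hz
    exact sub_ne_zero.2 ((eta_prim n K P hn).ne_one (Nat.one_lt_pow (by omega) hPp.out.one_lt))
      (pow_eq_zero_iff hP0 |>.1 this)
  have hy₁c : IsClass n K P hP 0 y₁ := by
    intro a
    have h1 := congrArg (sig n K P hP a) hy₁
    rw [map_mul, map_mul, map_pow, map_pow, hπ₀c, hg a, hy a] at h1
    simp only [mul_zero, AddChar.map_zero_eq_one, one_mul] at h1 ⊢
    exact mul_left_cancel₀ (pow_ne_zero j hπ₀0) (h1.symm.trans hy₁)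
  have hy₁Q : y₁ ∈ Q := by
    have hmem : g ^ (j * P) * y ∈ Q ^ ((j * P) + 1) := Ideal.mul_mem_left _ _ h
    rw [hy₁] at hmem
    rcases Ideal.IsPrime.mem_pow_mul Q hmem with h1 | h1
    swap
    · exact h1
    exfalso
    have h2 : π ^ (j * P) ∈ Q ^ ((j * P) + 1) := by
      have hd : π₀ ^ j ∣ π ^ (j * P) := by
        rw [mul_comm j P, pow_mul]
        exact ((associated_pi0 n K P hn hP2).pow_pow (n := j)).dvd
      obtain ⟨t, ht⟩ := hd
      rw [ht]
      exact Ideal.mul_mem_right _ _ h1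
    have := mem_pow_of_mul_pi n K P hn Q hPQ hM (y := 1) (a := 1) (l := (j * P))
      (by rwa [one_mul, add_comm])
    rw [pow_one] at this
    exact hQ.ne_top ((Ideal.eq_top_iff_one _).2 this)
  have hmem2 : g ^ (j * P) * y ∈ Q ^ ((j + 1) * P) := by
    rw [hy₁, show (j + 1) * P = j * P + P by ring, pow_add]
    refine Ideal.mul_mem_mul ?_ (hbase hy₁c hy₁Q)
    obtain ⟨t, ht⟩ := ((associated_pi0 n K P hn hP2).pow_pow (n := j)).symm.dvd
    rw [ht, ← hπ, ← pow_mul, mul_comm P j]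
    exact Ideal.mul_mem_right _ _ (Ideal.pow_mem_pow (pi_mem n K P hn Q hPQ) _)
  rcases Ideal.IsPrime.mul_mem_pow Q hmem2 with h1 | h1
  · exact absurd (hQ.mem_of_pow_mem (j * P) h1) hgQ
  · exact h1

include hn hPQ in
/-- All classes of z lie in nearly the same power of Q as z. -/
lemma class_mem_pow_ramified (hM : ¬P ∣ M) (hP2 : P ≠ 2) (f : ZMod P → 𝓞 K)
    (hf : ∀ i, IsClass n K P hP i (f i)) {k : ℕ} (hz : ∑ i, f i ∈ Q ^ k) (i : ZMod P) :
    f i ∈ Q ^ (k - (P - 1)) := by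
  set η := eta n K M with hη
  set π := η - 1 with hπ
  have hη1 : η ^ (P ^ (c + 2)) = 1 := (eta_prim n K P hn).pow_eq_one
  set η' := η ^ (P ^ (c + 2) - 1) with hη'
  have hinv : η' * η = 1 := by
    rw [hη', ← pow_succ, Nat.sub_add_cancel (Nat.one_le_pow _ _ hPp.out.pos), hη1]
  have hM0 : (M : ZMod P) ≠ 0 := by rwa [Ne, ZMod.natCast_eq_zero_iff]
  set y : ℕ → 𝓞 K := fun a => f ((a : ZMod P) * M) * η' ^ a with hy
  have hyc : ∀ a, IsClass n K P hP 0 (y a) := by
    intro a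
    have h1 : IsClass n K P hP (-((a : ZMod P) * M)) (η' ^ a) := by
      intro b
      rw [hη', hη, eta, ← pow_mul, ← pow_mul, sig_zI_pow]
      congr 2
      push_cast
      have h2 : ((P ^ (c + 2) - 1 : ℕ) : ZMod P) = -1 := by
        rw [Nat.cast_sub (Nat.one_le_pow _ _ hPp.out.pos)]
        simp
      rw [h2]; ring
    have := isClass_mul n K P hP (hf ((a : ZMod P) * M)) h1
    rwa [add_neg_cancel] at this
  have hsum : ∑ a ∈ range P, y a * η ^ a = ∑ i, f i := by
    refine Finset.sum_bij (fun a _ => (a : ZMod P) * M) (fun a _ => Finset.mem_univ _) ?_ ?_ ?_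
    · intro a ha b hb hab
      have := mul_right_cancel₀ hM0 hab
      rw [ZMod.natCast_eq_natCast_iff', Nat.mod_eq_of_lt (Finset.mem_range.1 ha),
        Nat.mod_eq_of_lt (Finset.mem_range.1 hb)] at this
      exact this
    · intro i _
      refine ⟨(i * (M : ZMod P)⁻¹).val, Finset.mem_range.2 (ZMod.val_lt _), ?_⟩
      rw [ZMod.natCast_zmod_val, mul_assoc, inv_mul_cancel₀ hM0, mul_one]
    · intro a _
      rw [hy, mul_assoc, ← mul_pow, hinv, one_pow, mul_one]
  set w : ℕ → 𝓞 K := fun l => ∑ a ∈ range P, (a.choose l : 𝓞 K) * y a with hw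
  have hwsum : ∑ l ∈ range P, w l * π ^ l = ∑ i, f i := by
    rw [← hsum]
    simp only [hw, Finset.sum_mul]
    rw [Finset.sum_comm]
    refine Finset.sum_congr rfl fun a ha => ?_
    rw [show η = π + 1 by rw [hπ]; ring, add_pow, Finset.mul_sum]
    symm
    rw [← Finset.sum_subset (s₁ := range (a + 1)) (s₂ := range P)]
    · refine Finset.sum_congr rfl fun l _ => ?_
      ring
    · intro l hl
      have := Finset.mem_range.1 ha
      have := Finset.mem_range.1 hl
      exact Finset.mem_range.2 (by omega)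
    · intro l _ hl
      rw [Finset.mem_range] at hl
      rw [Nat.choose_eq_zero_of_lt (by omega)]
      simp
  have hwc : ∀ l, IsClass n K P hP 0 (w l) := by
    intro l b
    simp only [hw, map_sum, map_mul, map_natCast, fun a => hyc a b, Finset.mul_sum]
    refine Finset.sum_congr rfl fun a _ => ?_
    ring
  have hyofw : ∀ I : Ideal (𝓞 K), (∀ l < P, w l ∈ I) → ∀ a < P, y a ∈ I := by
    intro I hI
    suffices H : ∀ m a, a < P → P ≤ a + m → y a ∈ I by
      intro a ha; exact H P a ha (by omega)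
    intro m
    induction m with
    | zero => intro a ha hm; omega
    | succ m ih =>
      intro a ha hm
      have h1 := hI a ha
      simp only [hw] at h1
      rw [Finset.sum_eq_add_sum_sdiff_singleton_of_mem (Finset.mem_range.2 ha), Nat.choose_self,
        Nat.cast_one, one_mul] at h1
      refine (Ideal.add_mem_iff_left _ (I.sum_mem fun b hb => ?_)).1 h1
      rw [Finset.mem_sdiff, Finset.mem_range, Finset.mem_singleton] at hb
      rcases Nat.lt_or_ge b a with h | h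
      · simp [Nat.choose_eq_zero_of_lt h]
      · exact I.mul_mem_left _ (ih b hb.1 (by omega))
  have hmain : ∀ j, j * P ≤ k → ∀ l < P, w l ∈ Q ^ (j * P) := by
    intro j
    induction j with
    | zero => intro _ l _; simp
    | succ j ih =>
      intro hj
      have hjk : j * P ≤ k := le_trans (Nat.mul_le_mul_right _ (Nat.le_succ j)) hj
      intro l
      induction l using Nat.strong_induction_on with
      | _ l ihl =>
        intro hl
        refine class_zero_mem n K P hP hn Q hPQ hM hP2 (hwc l) ?_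
        refine mem_pow_of_mul_pi n K P hn Q hPQ hM (l := l) ?_
        rw [← hη, ← hπ]
        have hrest : ∀ b ∈ range P \ {l}, w b * π ^ b ∈ Q ^ (j * P + 1 + l) := by
          intro b hb
          rw [Finset.mem_sdiff, Finset.mem_range, Finset.mem_singleton] at hb
          rcases Nat.lt_or_ge b l with h | h
          · refine Ideal.mul_mem_right _ _ (Ideal.pow_le_pow_right ?_ (ihl b h hb.1))
            rw [add_mul, one_mul]; omega
          · refine Ideal.pow_le_pow_right (show j * P + 1 + l ≤ j * P + b by omega) ?_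
            rw [pow_add]
            exact Ideal.mul_mem_mul (ih hjk b hb.1)
              (Ideal.pow_mem_pow (pi_mem n K P hn Q hPQ) _)
        have hz' : ∑ b ∈ range P, w b * π ^ b ∈ Q ^ (j * P + 1 + l) := by
          rw [hwsum]
          refine Ideal.pow_le_pow_right ?_ hz
          rw [add_mul, one_mul] at hj
          omega
        rw [Finset.sum_eq_add_sum_sdiff_singleton_of_mem (Finset.mem_range.2 hl)] at hz'
        exact (Ideal.add_mem_iff_left _ ((Q ^ _).sum_mem hrest)).1 hz'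
  set j := k / P with hj
  have hjP : j * P ≤ k := Nat.div_mul_le_self k P
  have hy' := hyofw _ (hmain j hjP)
  have hk : k - (P - 1) ≤ j * P := by
    have h1 := Nat.div_add_mod k P
    have h2 := Nat.mod_lt k hPp.out.pos
    rw [hj, mul_comm (k / P) P]
    omega
  refine Ideal.pow_le_pow_right hk ?_
  obtain ⟨a, ha, hia⟩ : ∃ a < P, i = (a : ZMod P) * M :=
    ⟨(i * (M : ZMod P)⁻¹).val, ZMod.val_lt _,
      by rw [ZMod.natCast_zmod_val, mul_assoc, inv_mul_cancel₀ hM0, mul_one]⟩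
  have := Ideal.mul_mem_right (η ^ a) _ (hy' a ha)
  rw [hy, mul_assoc, ← mul_pow, hinv, one_pow, mul_one, ← hia] at this
  exact this

end

/-- Away from P the classes lie in the same power of a fixed prime. -/
lemma class_mem_pow_unramified (hP : P * P ∣ n) (Q : Ideal (𝓞 K)) [hQ : Q.IsPrime]
    (hPQ : (P : 𝓞 K) ∉ Q) (hfix : ∀ j x, sig n K P hP j x ∈ Q ↔ x ∈ Q) (f : ZMod P → 𝓞 K)
    (hf : ∀ i, IsClass n K P hP i (f i)) {k : ℕ} (hz : ∑ i, f i ∈ Q ^ k) (i : ZMod P) :
    f i ∈ Q ^ k := by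
  have hmap : ∀ j, Q.map (sig n K P hP j) ≤ Q := fun j => by
    rw [Ideal.map_le_iff_le_comap]
    intro x hx
    exact (hfix j x).2 hx
  have h : (P : 𝓞 K) * f i ∈ Q ^ k := by
    rw [class_eq_average n K P hP f hf i]
    refine (Q ^ k).sum_mem fun j _ => Ideal.mul_mem_left _ _ ?_
    have := Ideal.mem_map_of_mem (sig n K P hP j) hz
    rw [Ideal.map_pow] at this
    exact Ideal.pow_right_mono (hmap j) k this
  exact (Ideal.IsPrime.mul_mem_pow Q h).resolve_left hPQ

end Vale.Agent.P033
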