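import Vale.Agent.P033.Wieferich

/-!
The primes that can be moved by a given set of primes are sparse.
-/

namespace Vale.Agent.P033

open Finset

/-- q is a Wieferich base for P. -/
def Base (P q : ℕ) : Prop := q ^ (P - 1) % (P * P) = 1

/-- The three ways in which a prime q above y can be attached to the primes of w. -/
def Elig (y w q : ℕ) : Prop :=
  q.Prime ∧ y < q ∧ ((∃ r ∈ w.primeFactors, q ∣ r - 1) ∨
    (∃ P ∈ w.primeFactors, y < P ∧ q ≤ P ^ 8 ∧ Base P q) ∨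
    (∃ D ⊆ w.primeFactors.filter (y < ·), D.Nonempty ∧ (∏ P ∈ D, P) ^ 2 ≤ q ∧
      q ≤ (∏ P ∈ D, P) ^ 32 ∧ ∀ P ∈ D, Base P q))

/-- The weight of a prime q. -/
noncomputable def wt (q : ℕ) : ℝ := (q : ℝ) ^ ((1 : ℝ) / 256 - 1)

lemma wt_nonneg (q : ℕ) : 0 ≤ wt q := Real.rpow_nonneg (Nat.cast_nonneg q) _

lemma two_le_log {x : ℕ} (hx : 2 ^ 64 ≤ x) : 64 ≤ Nat.log 2 x :=
  Nat.le_log_of_pow_le one_lt_two hx

lemma card_primeFactors_le_log {w x : ℕ} (hw : w ≠ 0) (hwx : w ≤ x) :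
    w.primeFactors.card ≤ Nat.log 2 x := by
  have h1 : 2 ^ w.primeFactors.card ≤ ∏ p ∈ w.primeFactors, p :=
    Finset.pow_card_le_prod _ _ _ fun p hp => (Nat.prime_of_mem_primeFactors hp).two_le
  exact Nat.le_log_of_pow_le one_lt_two (h1.trans
    ((Nat.le_of_dvd (Nat.pos_of_ne_zero hw) (Nat.prod_primeFactors_dvd w)).trans hwx))

lemma sum_biUnion_le {ι : Type*} (t : Finset ι) (F : ι → Finset ℕ) {f : ℕ → ℝ}
    (hf : ∀ q, 0 ≤ f q) : ∑ q ∈ t.biUnion F, f q ≤ ∑ i ∈ t, ∑ q ∈ F i, f q := by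
  classical
  induction t using Finset.induction_on with
  | empty => simp
  | insert a t ha ih =>
    rw [Finset.biUnion_insert, Finset.sum_insert ha]
    refine le_trans ?_ (add_le_add le_rfl ih)
    rw [← Finset.sum_union_inter]
    exact le_add_of_nonneg_right (Finset.sum_nonneg fun q _ => hf q)

/-- Type one: divisors of r - 1. -/
lemma sum_wt_divisors {w x y : ℕ} (hw : w ≠ 0) (hwx : w ≤ x) (hy : 1 ≤ y) (s : Finset ℕ)
    (hs : ∀ q ∈ s, q.Prime ∧ y < q ∧ ∃ r ∈ w.primeFactors, q ∣ r - 1) :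
    ∑ q ∈ s, wt q ≤ (Nat.log 2 x : ℝ) ^ 2 * (y : ℝ) ^ (-(1 : ℝ) / 2) := by
  classical
  have hsub : s ⊆ w.primeFactors.biUnion (fun r => (r - 1).primeFactors) := by
    intro q hq
    obtain ⟨hqp, -, r, hr, hd⟩ := hs q hq
    refine Finset.mem_biUnion.2 ⟨r, hr, Nat.mem_primeFactors.2 ⟨hqp, hd, ?_⟩⟩
    have := (Nat.prime_of_mem_primeFactors hr).two_le
    omega
  have hcard : s.card ≤ Nat.log 2 x * Nat.log 2 x := by
    refine (Finset.card_le_card hsub).trans ?_
    refine (Finset.card_biUnion_le_card_mul _ _ _ fun r hr => ?_).trans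
      (Nat.mul_le_mul_right _ (card_primeFactors_le_log hw hwx))
    have h2 := (Nat.prime_of_mem_primeFactors hr).two_le
    exact card_primeFactors_le_log (by omega)
      ((Nat.sub_le _ _).trans ((Nat.le_of_mem_primeFactors hr).trans hwx))
  have hy0 : (0 : ℝ) < y := by exact_mod_cast hy
  calc ∑ q ∈ s, wt q ≤ ∑ q ∈ s, (y : ℝ) ^ (-(1 : ℝ) / 2) := by
        refine Finset.sum_le_sum fun q hq => ?_
        have hyq : (y : ℝ) ≤ q := by exact_mod_cast (hs q hq).2.1.le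
        calc wt q ≤ (q : ℝ) ^ (-(1 : ℝ) / 2) := Real.rpow_le_rpow_of_exponent_le
              (by exact_mod_cast (hs q hq).1.one_lt.le) (by norm_num)
          _ ≤ _ := Real.rpow_le_rpow_of_nonpos hy0 hyq (by norm_num)
    _ = s.card * (y : ℝ) ^ (-(1 : ℝ) / 2) := by rw [Finset.sum_const, nsmul_eq_mul]
    _ ≤ _ := by
      refine mul_le_mul_of_nonneg_right ?_ (Real.rpow_nonneg hy0.le _)
      rw [pow_two]
      exact_mod_cast hcard

/-- The bases for P in (2^i, 2^(i+1)]. -/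
def bblock (P i : ℕ) : Finset ℕ :=
  (primesTo (2 ^ (i + 1))).filter fun q => 2 ^ i < q ∧ q ^ (P - 1) % (P * P) = 1

lemma choose_bblock_le {P : ℕ} (hP : P.Prime) (i k : ℕ) :
    (bblock P i).card.choose k ≤ P * (2 ^ ((i + 1) * k) / (P * P) + 1) := by
  have hPP : 1 < P * P := Nat.one_lt_mul_iff.2 ⟨hP.pos, hP.pos, Or.inl hP.one_lt⟩
  rw [← Finset.card_powersetCard]
  calc _ ≤ (((range (P * P)).filter fun r => r ^ (P - 1) % (P * P) = 1) ×ˢ
        range (2 ^ ((i + 1) * k) / (P * P) + 1)).card := by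
        refine Finset.card_le_card_of_injOn
          (fun S => ((∏ q ∈ S, q) % (P * P), (∏ q ∈ S, q) / (P * P))) ?_ ?_
        · intro S hS
          obtain ⟨hsub, hcard⟩ := Finset.mem_powersetCard.1 hS
          simp only [Finset.coe_product, Finset.coe_filter, Finset.coe_range, Set.mem_prod,
            Set.mem_ofPred_eq, Finset.mem_range, Set.mem_Iio]
          refine ⟨⟨Nat.mod_lt _ (by omega), ?_⟩, ?_⟩
          · rw [← Nat.pow_mod, ← Finset.prod_pow, Finset.prod_nat_mod]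
            have h1 : ∀ q ∈ S, q ^ (P - 1) % (P * P) = 1 := fun q hq =>
              (Finset.mem_filter.1 (hsub hq)).2.2
            rw [Finset.prod_congr rfl h1, Finset.prod_const_one, Nat.mod_eq_of_lt hPP]
          · apply Nat.lt_succ_of_le
            apply Nat.div_le_div_right
            calc ∏ q ∈ S, q ≤ ∏ q ∈ S, 2 ^ (i + 1) :=
                  Finset.prod_le_prod' fun q hq =>
                    (mem_primesTo.1 (Finset.mem_filter.1 (hsub hq)).1).1
              _ = _ := by rw [Finset.prod_const, hcard, ← pow_mul]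
        · intro S hS T hT h
          simp only [Prod.mk.injEq] at h
          have e : ∏ q ∈ S, q = ∏ q ∈ T, q := by
            rw [← Nat.mod_add_div (∏ q ∈ S, q) (P * P), ← Nat.mod_add_div (∏ q ∈ T, q) (P * P),
              h.1, h.2]
          have hp : ∀ U ∈ Finset.powersetCard k (bblock P i), ∀ q ∈ U, q.Prime := fun U hU q hq =>
            (mem_primesTo.1 (Finset.mem_filter.1 ((Finset.mem_powersetCard.1 hU).1 hq)).1).2
          rw [← Nat.primeFactors_prod (hp S hS), e, Nat.primeFactors_prod (hp T hT)]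
    _ ≤ _ := by
        rw [Finset.card_product, Finset.card_range]
        exact Nat.mul_le_mul_right _ (card_roots_le hP)

lemma card_bblock_le {P i p : ℕ} (hP : P.Prime) (hp1 : 2 ^ p ≤ P) (hp2 : P < 2 ^ (p + 1))
    (hp : 16 ≤ p) (hi : i + 1 ≤ 9 * p) (hi' : 48 ≤ i) :
    (bblock P i).card ≤ (4 * p + 2) * 2 ^ (i + 1 - (i + 1) / 15) := by
  set b := i + 1 with hb
  set k := 2 * p / b + 1 with hk
  have hkb1 : 2 * p < k * b := by
    have := Nat.lt_mul_div_succ (2 * p) (show 0 < b by omega)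
    rw [hk, add_mul, one_mul, mul_comm (2 * p / b) b]
    rw [mul_add, mul_one] at this
    exact this
  have hkb2 : k * b ≤ 2 * p + b := by
    rw [hk, add_mul, one_mul]
    have := Nat.div_mul_le_self (2 * p) b
    omega
  have hPP : 2 ^ (2 * p) ≤ P * P := by
    rw [two_mul, pow_add]; exact Nat.mul_le_mul hp1 hp1
  have hch : (bblock P i).card.choose k ≤ 2 ^ (k * b - p + 2) := by
    refine (choose_bblock_le hP i k).trans ?_
    calc P * (2 ^ (b * k) / (P * P) + 1) ≤ 2 ^ (p + 1) * (2 ^ (k * b - 2 * p) + 1) := by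
          refine Nat.mul_le_mul hp2.le (Nat.succ_le_succ ?_)
          calc 2 ^ (b * k) / (P * P) ≤ 2 ^ (b * k) / 2 ^ (2 * p) :=
                Nat.div_le_div_left hPP (by positivity)
            _ = 2 ^ (k * b - 2 * p) := by
                rw [Nat.pow_div (by rw [mul_comm b k]; omega) two_pos, mul_comm b k]
      _ ≤ 2 ^ (k * b - p + 1) + 2 ^ (k * b - p + 1) := by
          rw [mul_add, mul_one, ← pow_add]
          exact add_le_add (Nat.pow_le_pow_right two_pos (by omega))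
            (Nat.pow_le_pow_right two_pos (by omega))
      _ = _ := by rw [pow_succ 2 (k * b - p + 1)]; ring
  set e := b - b / 15 with he
  have hpe : k * b - p + 2 ≤ e * k := by
    have h1 : e * k + b / 15 * k = k * b := by
      rw [← add_mul, he, Nat.sub_add_cancel (Nat.div_le_self b 15), mul_comm]
    have h2 : 15 * (b / 15 * k) ≤ k * b := by
      calc 15 * (b / 15 * k) = 15 * (b / 15) * k := by ring
        _ ≤ b * k := Nat.mul_le_mul_right _ (by omega)
        _ = _ := mul_comm _ _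
    have key : ∀ u v w : ℕ, u + v = w → 15 * v ≤ w → w ≤ 2 * p + b → 2 * p < w →
        w - p + 2 ≤ u := by
      intro u v w e1 e2 e3 e4
      omega
    exact key _ _ _ h1 h2 hkb2 hkb1
  have hk' : k ≤ 2 * p + 1 := by
    have := Nat.div_le_self (2 * p) b
    omega
  have hk0 : k ≠ 0 := fun h => by rw [h, Nat.zero_mul] at hkb1; exact Nat.not_lt_zero _ hkb1
  refine (le_of_choose_le (k := k) (M := k * 2 ^ e) hk0 hch ?_).trans ?_
  · rw [mul_pow]
    refine Nat.mul_le_mul (Nat.factorial_le_pow k) ?_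
    rw [← pow_mul]
    exact Nat.pow_le_pow_right two_pos hpe
  · have h1e : 1 ≤ 2 ^ e := Nat.one_le_two_pow
    calc k * 2 ^ e + k ≤ k * 2 ^ e + k * 2 ^ e := by
          exact Nat.add_le_add_left (Nat.le_mul_of_pos_right _ h1e) _
      _ = 2 * k * 2 ^ e := by ring
      _ ≤ _ := Nat.mul_le_mul_right _ (by omega)

/-- Type two: bases of P up to P^8. -/
lemma sum_wt_bases {P x y : ℕ} (hP : P.Prime) (hy : 2 ^ 64 ≤ y) (hyP : y < P) (hPx : P ≤ x)
    (s : Finset ℕ) (hs : ∀ q ∈ s, q.Prime ∧ y < q ∧ q ≤ P ^ 8 ∧ Base P q) :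
    ∑ q ∈ s, wt q ≤ 320 * (Nat.log 2 x : ℝ) ^ 2 * (y : ℝ) ^ (-(1 : ℝ) / 24) := by
  classical
  set p := Nat.log 2 P
  have hp1 : 2 ^ p ≤ P := Nat.pow_log_le_self 2 hP.ne_zero
  have hp2 : P < 2 ^ (p + 1) := Nat.lt_pow_succ_log_self one_lt_two P
  have hp : 64 ≤ p := Nat.le_log_of_pow_le one_lt_two (hy.trans hyP.le)
  have hpx : p ≤ Nat.log 2 x := Nat.log_mono_right hPx
  have hy0 : (0 : ℝ) < y := by
    have : 0 < y := lt_of_lt_of_le (by positivity) hy
    exact_mod_cast this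
  have hmap : ∀ q ∈ s, Nat.log 2 (q - 1) ∈ Finset.range (8 * (p + 1)) := by
    intro q hq
    obtain ⟨hqp, -, hq8, -⟩ := hs q hq
    have h2 := hqp.two_le
    rw [Finset.mem_range]
    refine Nat.log_lt_of_lt_pow (by omega) ?_
    calc q - 1 < q := by omega
      _ ≤ P ^ 8 := hq8
      _ < (2 ^ (p + 1)) ^ 8 := Nat.pow_lt_pow_left hp2 (by norm_num)
      _ = 2 ^ (8 * (p + 1)) := by rw [← pow_mul]; ring
  rw [← Finset.sum_fiberwise_of_maps_to hmap]
  have hterm : ∀ i ∈ Finset.range (8 * (p + 1)),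
      ∑ q ∈ s with Nat.log 2 (q - 1) = i, wt q ≤
        20 * (Nat.log 2 x : ℝ) * (y : ℝ) ^ (-(1 : ℝ) / 24) := by
    intro i hi
    set F := s.filter (fun q => Nat.log 2 (q - 1) = i)
    rcases F.eq_empty_or_nonempty with he | ⟨q₀, hq₀⟩
    · rw [he, Finset.sum_empty]; positivity
    have hblock : ∀ q ∈ F, q ∈ bblock P i := by
      intro q hq
      obtain ⟨hqs, hqi⟩ := Finset.mem_filter.1 hq
      obtain ⟨hqp, -, -, hb⟩ := hs q hqs
      have h2 := hqp.two_le
      have h1 : 2 ^ i ≤ q - 1 := hqi ▸ Nat.pow_log_le_self 2 (by omega)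
      have h3 : q - 1 < 2 ^ (i + 1) := hqi ▸ Nat.lt_pow_succ_log_self one_lt_two (q - 1)
      rw [bblock, Finset.mem_filter, mem_primesTo]
      exact ⟨⟨by omega, hqp⟩, by omega, hb⟩
    have hyi : y < 2 ^ (i + 1) := by
      have h1 := (hs q₀ (Finset.mem_filter.1 hq₀).1).2.1
      have h3 := (mem_primesTo.1 (Finset.mem_filter.1 (hblock q₀ hq₀)).1).1
      omega
    have hi64 : 64 ≤ i := by
      have : (2 : ℕ) ^ 64 < 2 ^ (i + 1) := lt_of_le_of_lt hy hyi
      have := (Nat.pow_lt_pow_iff_right (le_refl 2)).1 this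
      omega
    have hcard := (Finset.card_le_card hblock).trans
      (card_bblock_le hP hp1 hp2 (by omega) (by have := Finset.mem_range.1 hi; omega) (by omega))
    have hh : (2 : ℝ) ^ ((i + 1 - (i + 1) / 15 : ℕ)) * ((2 : ℝ) ^ i) ^ ((1 : ℝ) / 256 - 1)
        ≤ 4 * (y : ℝ) ^ (-(1 : ℝ) / 24) := by
      rw [← Real.rpow_natCast 2 (i + 1 - (i + 1) / 15), ← Real.rpow_natCast 2 i,
        ← Real.rpow_mul two_pos.le, ← Real.rpow_add two_pos]
      have hb : (((i + 1 - (i + 1) / 15 : ℕ)) : ℝ) ≤ 14 * ((i : ℝ) + 1) / 15 + 14 / 15 := by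
        have h : 15 * (i + 1 - (i + 1) / 15) ≤ 14 * (i + 1) + 14 := by omega
        have h' : (15 : ℝ) * ((i + 1 - (i + 1) / 15 : ℕ) : ℝ) ≤ 14 * ((i : ℝ) + 1) + 14 := by
          exact_mod_cast h
        linarith
      calc (2 : ℝ) ^ (((i + 1 - (i + 1) / 15 : ℕ) : ℝ) + (i : ℝ) * ((1 : ℝ) / 256 - 1))
          ≤ (2 : ℝ) ^ (2 + ((i : ℝ) + 1) * (-(1 : ℝ) / 24)) := by
            refine Real.rpow_le_rpow_of_exponent_le one_le_two ?_
            nlinarith [hb]
        _ = 4 * ((2 : ℝ) ^ ((i : ℝ) + 1)) ^ (-(1 : ℝ) / 24) := by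
            rw [Real.rpow_add two_pos, Real.rpow_mul two_pos.le]; norm_num
        _ ≤ _ := by
            refine mul_le_mul_of_nonneg_left ?_ (by norm_num)
            refine Real.rpow_le_rpow_of_nonpos hy0 ?_ (by norm_num)
            rw [show ((i : ℝ) + 1) = ((i + 1 : ℕ) : ℝ) by push_cast; ring, Real.rpow_natCast]
            exact_mod_cast hyi.le
    calc ∑ q ∈ F, wt q ≤ F.card • ((2 : ℝ) ^ i) ^ ((1 : ℝ) / 256 - 1) := by
          refine Finset.sum_le_card_nsmul _ _ _ fun q hq => ?_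
          refine Real.rpow_le_rpow_of_nonpos (by positivity) ?_ (by norm_num)
          exact_mod_cast (Finset.mem_filter.1 (hblock q hq)).2.1.le
      _ ≤ ((4 * p + 2) * 2 ^ (i + 1 - (i + 1) / 15) : ℕ) * ((2 : ℝ) ^ i) ^ ((1 : ℝ) / 256 - 1) := by
          rw [nsmul_eq_mul]
          exact mul_le_mul_of_nonneg_right (by exact_mod_cast hcard)
            (Real.rpow_nonneg (by positivity) _)
      _ ≤ (5 * (Nat.log 2 x : ℝ)) * (4 * (y : ℝ) ^ (-(1 : ℝ) / 24)) := by
          push_cast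
          rw [mul_assoc]
          refine mul_le_mul ?_ hh (by positivity) (by positivity)
          have : (4 * p + 2 : ℕ) ≤ 5 * Nat.log 2 x := by omega
          exact_mod_cast this
      _ = _ := by ring
  refine (Finset.sum_le_sum hterm).trans ?_
  rw [Finset.sum_const, Finset.card_range, nsmul_eq_mul]
  have : ((8 * (p + 1) : ℕ) : ℝ) ≤ 16 * (Nat.log 2 x : ℝ) := by
    exact_mod_cast (show 8 * (p + 1) ≤ 16 * Nat.log 2 x by omega)
  calc ((8 * (p + 1) : ℕ) : ℝ) * (20 * (Nat.log 2 x : ℝ) * (y : ℝ) ^ (-(1 : ℝ) / 24))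
      ≤ 16 * (Nat.log 2 x : ℝ) * (20 * (Nat.log 2 x : ℝ) * (y : ℝ) ^ (-(1 : ℝ) / 24)) :=
        mul_le_mul_of_nonneg_right this (by positivity)
    _ = _ := by ring

lemma eq_mod_prod {D : Finset ℕ} (hD : ∀ P ∈ D, P.Prime) {a b : ℕ}
    (h : ∀ P ∈ D, a ≡ b [MOD P * P]) : a ≡ b [MOD (∏ P ∈ D, P) ^ 2] := by
  induction D using Finset.induction_on with
  | empty => simp [Nat.modEq_one]
  | insert P D hPD ih =>
    rw [Finset.prod_insert hPD, mul_pow, pow_two P]
    refine (Nat.modEq_and_modEq_iff_modEq_mul ?_).1 ⟨h P (Finset.mem_insert_self P D),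
      ih (fun R hR => hD R (Finset.mem_insert_of_mem hR)) fun R hR =>
        h R (Finset.mem_insert_of_mem hR)⟩
    have hc : Nat.Coprime P (∏ R ∈ D, R) := Nat.Coprime.prod_right fun R hR =>
      (Nat.coprime_primes (hD P (Finset.mem_insert_self P D))
        (hD R (Finset.mem_insert_of_mem hR))).2 fun e => hPD (e ▸ hR)
    exact Nat.Coprime.mul_left (Nat.Coprime.pow_right 2 hc) (Nat.Coprime.pow_right 2 hc)

/-- Type three: common bases of all primes of D, between D² and D^32. -/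
lemma sum_wt_common {D : Finset ℕ} (hD : ∀ P ∈ D, P.Prime) {x : ℕ} (hx : 1 ≤ x) (s : Finset ℕ)
    (hs : ∀ q ∈ s, q ≤ x ∧ (∏ P ∈ D, P) ^ 2 ≤ q ∧ q ≤ (∏ P ∈ D, P) ^ 32 ∧ ∀ P ∈ D, Base P q) :
    ∑ q ∈ s, wt q ≤ (1 + Real.log x) * ∏ P ∈ D, (P : ℝ) ^ (-(7 : ℝ) / 8) := by
  classical
  set d := ∏ P ∈ D, P with hd
  have hd0 : 0 < d := Finset.prod_pos fun P hP => (hD P hP).pos
  have hd0' : (0 : ℝ) < d := by exact_mod_cast hd0
  set roots := (range (d ^ 2)).filter (fun r => ∀ P ∈ D, r ^ (P - 1) % (P * P) = 1) with hroots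
  have hrc : roots.card ≤ d := by
    refine (Finset.card_le_card_of_injOn (t := range d) (fun r => r % d) ?_ ?_).trans
      (le_of_eq (Finset.card_range d))
    · intro r _; simp [Nat.mod_lt _ hd0]
    · intro a ha b hb hab
      simp only [hroots, Finset.coe_filter, Finset.mem_range, Set.mem_ofPred_eq] at ha hb
      have h := eq_mod_prod hD (a := a) (b := b) fun P hP => by
        have hPP : 1 < P * P := Nat.one_lt_mul_iff.2
          ⟨(hD P hP).pos, (hD P hP).pos, Or.inl (hD P hP).one_lt⟩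
        have e : ∀ {r : ℕ}, r ^ (P - 1) % (P * P) = 1 → (r : ZMod (P * P)) ^ (P - 1) = 1 := by
          intro r hr
          rw [← Nat.cast_pow, show (1 : ZMod (P * P)) = ((1 : ℕ) : ZMod (P * P)) from
            Nat.cast_one.symm, ZMod.natCast_eq_natCast_iff', hr, Nat.mod_eq_of_lt hPP]
        exact (ZMod.natCast_eq_natCast_iff _ _ _).1 (pow_sub_one_roots_injOn (hD P hP)
          (e (ha.2 P hP)) (e (hb.2 P hP)) ((Nat.ModEq.of_dvd (Finset.dvd_prod_of_mem _ hP) hab)))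
      have h2 : a % d ^ 2 = b % d ^ 2 := h
      rwa [Nat.mod_eq_of_lt ha.1, Nat.mod_eq_of_lt hb.1] at h2
  have hmaps : ∀ q ∈ s, (q % d ^ 2, q / d ^ 2) ∈ roots ×ˢ Icc 1 x := by
    intro q hq
    obtain ⟨hqx, hlo, -, hb⟩ := hs q hq
    simp only [hroots, Finset.mem_product, Finset.mem_filter, Finset.mem_range, Finset.mem_Icc]
    refine ⟨⟨Nat.mod_lt _ (by positivity), fun P hP => ?_⟩,
      (Nat.one_le_div_iff (by positivity)).2 hlo, (Nat.div_le_self _ _).trans hqx⟩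
    have hdvd : P * P ∣ d ^ 2 := by
      rw [← pow_two]; exact pow_dvd_pow_of_dvd (Finset.dvd_prod_of_mem _ hP) 2
    rw [Nat.pow_mod, Nat.mod_mod_of_dvd _ hdvd, ← Nat.pow_mod]
    exact hb P hP
  have hinv : ∑ q ∈ s, (q : ℝ)⁻¹ ≤ (d : ℝ) * (((d : ℝ) ^ 2)⁻¹ * (1 + Real.log x)) := by
    calc ∑ q ∈ s, (q : ℝ)⁻¹ ≤ ∑ q ∈ s, ((d : ℝ) ^ 2)⁻¹ * ((q / d ^ 2 : ℕ) : ℝ)⁻¹ := by
          refine Finset.sum_le_sum fun q hq => ?_
          have hk := (Finset.mem_Icc.1 (Finset.mem_product.1 (hmaps q hq)).2).1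
          rw [← mul_inv]
          refine inv_anti₀ (mul_pos (by positivity) (by exact_mod_cast hk)) ?_
          have : d ^ 2 * (q / d ^ 2) ≤ q := Nat.mul_div_le q _
          exact_mod_cast this
      _ = ∑ e ∈ s.image (fun q => (q % d ^ 2, q / d ^ 2)), ((d : ℝ) ^ 2)⁻¹ * (e.2 : ℝ)⁻¹ := by
          rw [Finset.sum_image]
          intro a _ b _ hab
          simp only [Prod.mk.injEq] at hab
          rw [← Nat.mod_add_div a (d ^ 2), ← Nat.mod_add_div b (d ^ 2), hab.1, hab.2]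
      _ ≤ ∑ e ∈ roots ×ˢ Icc 1 x, ((d : ℝ) ^ 2)⁻¹ * (e.2 : ℝ)⁻¹ := by
          refine Finset.sum_le_sum_of_subset_of_nonneg ?_ (fun e _ _ => by positivity)
          intro e he
          obtain ⟨q, hq, rfl⟩ := Finset.mem_image.1 he
          exact hmaps q hq
      _ ≤ _ := by
          rw [Finset.sum_product]
          simp only [Finset.sum_const, nsmul_eq_mul, ← Finset.mul_sum]
          exact mul_le_mul (by exact_mod_cast hrc)
            (mul_le_mul_of_nonneg_left (sum_inv_Icc_le x) (by positivity)) (by positivity) hd0'.le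
  have hwle : ∀ q ∈ s, wt q ≤ (d : ℝ) ^ ((1 : ℝ) / 8) * (q : ℝ)⁻¹ := by
    intro q hq
    obtain ⟨-, hlo, hhi, -⟩ := hs q hq
    have hq0 : (0 : ℝ) < q := by
      exact_mod_cast lt_of_lt_of_le (pow_pos hd0 2) hlo
    rw [wt, Real.rpow_sub hq0, Real.rpow_one, div_eq_mul_inv]
    refine mul_le_mul_of_nonneg_right ?_ (by positivity)
    calc (q : ℝ) ^ ((1 : ℝ) / 256) ≤ ((d : ℝ) ^ (32 : ℕ)) ^ ((1 : ℝ) / 256) :=
          Real.rpow_le_rpow hq0.le (by exact_mod_cast hhi) (by norm_num)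
      _ = _ := by rw [← Real.rpow_natCast, ← Real.rpow_mul hd0'.le]; norm_num
  refine (Finset.sum_le_sum hwle).trans ?_
  rw [← Finset.mul_sum]
  refine (mul_le_mul_of_nonneg_left hinv (by positivity)).trans (le_of_eq ?_)
  rw [Real.finsetProd_rpow _ _ (fun P _ => Nat.cast_nonneg P), ← Nat.cast_prod, ← hd,
    show (d : ℝ) * (((d : ℝ) ^ 2)⁻¹ * (1 + Real.log x)) = (d : ℝ)⁻¹ * (1 + Real.log x) by
      field_simp,
    ← Real.rpow_neg_one, ← mul_assoc, ← Real.rpow_add hd0', mul_comm]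
  norm_num

/-- The total weight of the eligible primes is bounded. -/
lemma sum_wt_elig {w x y : ℕ} (hw : w ≠ 0) (hwx : w ≤ x) (hx : 2 ^ 64 ≤ x)
    (hy : (Nat.log 2 x) ^ 240 ≤ y) (s : Finset ℕ) (hs : ∀ q ∈ s, q ≤ x ∧ Elig y w q) :
    ∑ q ∈ s, wt q ≤ 3 := by
  classical
  set L := Nat.log 2 x with hLdef
  have hL : 64 ≤ L := two_le_log hx
  have hy64 : 2 ^ 64 ≤ y := le_trans
    ((Nat.pow_le_pow_left (by omega : 2 ≤ L) 64).trans (Nat.pow_le_pow_right (by omega) (by norm_num))) hy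
  have hy1 : 1 ≤ y := le_trans Nat.one_le_two_pow hy64
  have hy0 : (0 : ℝ) < y := by exact_mod_cast hy1
  have hL' : (64 : ℝ) ≤ L := by exact_mod_cast hL
  have hL0 : (0 : ℝ) < L := by linarith
  have hypow : ∀ e : ℝ, e ≤ 0 → (y : ℝ) ^ e ≤ (L : ℝ) ^ (240 * e) := by
    intro e he
    rw [Real.rpow_mul hL0.le]
    refine Real.rpow_le_rpow_of_nonpos (by positivity) ?_ he
    rw [show (240 : ℝ) = ((240 : ℕ) : ℝ) by norm_num, Real.rpow_natCast]
    exact_mod_cast hy
  set T := w.primeFactors.filter (y < ·) with hTdef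
  have hT : T.card ≤ L := (Finset.card_filter_le _ _).trans (card_primeFactors_le_log hw hwx)
  set s₁ := s.filter (fun q => ∃ r ∈ w.primeFactors, q ∣ r - 1)
  set s₂ := T.biUnion (fun P => s.filter (fun q => q ≤ P ^ 8 ∧ Base P q))
  set s₃ := (T.powerset.filter (·.Nonempty)).biUnion (fun D => s.filter (fun q =>
    (∏ P ∈ D, P) ^ 2 ≤ q ∧ q ≤ (∏ P ∈ D, P) ^ 32 ∧ ∀ P ∈ D, Base P q))
  have hcover : s ⊆ s₁ ∪ s₂ ∪ s₃ := by
    intro q hq
    rcases (hs q hq).2.2.2 with h | ⟨P, hP, hyP, hq8, hb⟩ | ⟨D, hD, hne, h2, h32, hb⟩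
    · exact Finset.mem_union_left _ (Finset.mem_union_left _ (Finset.mem_filter.2 ⟨hq, h⟩))
    · refine Finset.mem_union_left _ (Finset.mem_union_right _ (Finset.mem_biUnion.2
        ⟨P, Finset.mem_filter.2 ⟨hP, hyP⟩, Finset.mem_filter.2 ⟨hq, hq8, hb⟩⟩))
    · exact Finset.mem_union_right _ (Finset.mem_biUnion.2 ⟨D,
        Finset.mem_filter.2 ⟨Finset.mem_powerset.2 hD, hne⟩, Finset.mem_filter.2 ⟨hq, h2, h32, hb⟩⟩)
  have hb1 : ∑ q ∈ s₁, wt q ≤ 1 := by
    refine (sum_wt_divisors hw hwx hy1 s₁ fun q hq => ?_).trans ?_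
    · obtain ⟨hqs, h⟩ := Finset.mem_filter.1 hq
      exact ⟨(hs q hqs).2.1, (hs q hqs).2.2.1, h⟩
    · calc (L : ℝ) ^ 2 * (y : ℝ) ^ (-(1 : ℝ) / 2) ≤ (L : ℝ) ^ 2 * (L : ℝ) ^ (240 * (-(1 : ℝ) / 2)) :=
            mul_le_mul_of_nonneg_left (hypow _ (by norm_num)) (by positivity)
        _ ≤ 1 := by
            rw [← Real.rpow_natCast, ← Real.rpow_add hL0]
            exact Real.rpow_le_one_of_one_le_of_nonpos (by linarith) (by norm_num)
  have hb2 : ∑ q ∈ s₂, wt q ≤ 1 := by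
    refine (sum_biUnion_le _ _ wt_nonneg).trans ?_
    have h : ∀ P ∈ T, ∑ q ∈ s.filter (fun q => q ≤ P ^ 8 ∧ Base P q), wt q ≤
        320 * (L : ℝ) ^ 2 * (y : ℝ) ^ (-(1 : ℝ) / 24) := by
      intro P hP
      obtain ⟨hPw, hyP⟩ := Finset.mem_filter.1 hP
      refine sum_wt_bases (Nat.prime_of_mem_primeFactors hPw) hy64 hyP
        ((Nat.le_of_mem_primeFactors hPw).trans hwx) _ fun q hq => ?_
      obtain ⟨hqs, h8, hb⟩ := Finset.mem_filter.1 hq
      exact ⟨(hs q hqs).2.1, (hs q hqs).2.2.1, h8, hb⟩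
    refine (Finset.sum_le_sum h).trans ?_
    rw [Finset.sum_const, nsmul_eq_mul]
    calc (T.card : ℝ) * (320 * (L : ℝ) ^ 2 * (y : ℝ) ^ (-(1 : ℝ) / 24))
        ≤ (L : ℝ) * (320 * (L : ℝ) ^ 2 * (L : ℝ) ^ (240 * (-(1 : ℝ) / 24))) :=
          mul_le_mul (by exact_mod_cast hT) (mul_le_mul_of_nonneg_left (hypow _ (by norm_num))
            (by positivity)) (by positivity) hL0.le
      _ = 320 / (L : ℝ) ^ 7 := by
          rw [show (240 : ℝ) * (-1 / 24) = -((10 : ℕ) : ℝ) by norm_num, Real.rpow_neg hL0.le,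
            Real.rpow_natCast]
          field_simp
      _ ≤ 1 := by
          rw [div_le_one (by positivity)]
          calc (320 : ℝ) ≤ 64 ^ 7 := by norm_num
            _ ≤ _ := pow_le_pow_left₀ (by norm_num) hL' 7
  have hb3 : ∑ q ∈ s₃, wt q ≤ 1 := by
    refine (sum_biUnion_le _ _ wt_nonneg).trans ?_
    have h : ∀ D ∈ T.powerset.filter (·.Nonempty), ∑ q ∈ s.filter (fun q =>
        (∏ P ∈ D, P) ^ 2 ≤ q ∧ q ≤ (∏ P ∈ D, P) ^ 32 ∧ ∀ P ∈ D, Base P q), wt q ≤
        (1 + Real.log x) * ∏ P ∈ D, (P : ℝ) ^ (-(7 : ℝ) / 8) := by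
      intro D hD
      refine sum_wt_common (fun P hP => Nat.prime_of_mem_primeFactors
        (Finset.mem_filter.1 (Finset.mem_powerset.1 (Finset.mem_filter.1 hD).1 hP)).1)
        (le_trans Nat.one_le_two_pow hx) _ fun q hq => ?_
      obtain ⟨hqs, h⟩ := Finset.mem_filter.1 hq
      exact ⟨(hs q hqs).1, h⟩
    refine (Finset.sum_le_sum h).trans ?_
    rw [← Finset.mul_sum]
    set a : ℝ := (L : ℝ) * (y : ℝ) ^ (-(7 : ℝ) / 8) with ha
    have ha0 : 0 ≤ a := by positivity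
    have hae : a * (4 * (L : ℝ)) ≤ 1 := by
      calc a * (4 * (L : ℝ)) ≤ (L : ℝ) * (L : ℝ) ^ (240 * (-(7 : ℝ) / 8)) * (4 * (L : ℝ)) :=
            mul_le_mul_of_nonneg_right (mul_le_mul_of_nonneg_left (hypow _ (by norm_num)) hL0.le)
              (by positivity)
        _ = 4 / (L : ℝ) ^ 208 := by
            rw [show (240 : ℝ) * (-7 / 8) = -((210 : ℕ) : ℝ) by norm_num, Real.rpow_neg hL0.le,
              Real.rpow_natCast]
            field_simp
        _ ≤ 1 := by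
            rw [div_le_one (by positivity)]
            calc (4 : ℝ) ≤ 64 := by norm_num
              _ ≤ (L : ℝ) := hL'
              _ ≤ _ := le_self_pow₀ (by linarith) (by norm_num)
    have hsumP : ∑ P ∈ T, (P : ℝ) ^ (-(7 : ℝ) / 8) ≤ a := by
      calc ∑ P ∈ T, (P : ℝ) ^ (-(7 : ℝ) / 8) ≤ ∑ _P ∈ T, (y : ℝ) ^ (-(7 : ℝ) / 8) :=
            Finset.sum_le_sum fun P hP => Real.rpow_le_rpow_of_nonpos hy0
              (by exact_mod_cast (Finset.mem_filter.1 hP).2.le) (by norm_num)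
        _ ≤ a := by
            rw [Finset.sum_const, nsmul_eq_mul, ha]
            exact mul_le_mul_of_nonneg_right (by exact_mod_cast hT) (by positivity)
    have hne : (∑ D ∈ T.powerset.filter (·.Nonempty), ∏ P ∈ D, (P : ℝ) ^ (-(7 : ℝ) / 8))
        ≤ 2 * a := by
      have hall : ∑ D ∈ T.powerset, ∏ P ∈ D, (P : ℝ) ^ (-(7 : ℝ) / 8) ≤ Real.exp a := by
        rw [← Finset.prod_one_add]
        refine le_trans ?_ (Real.exp_le_exp.2 hsumP)
        rw [Real.exp_sum]
        refine Finset.prod_le_prod (fun P _ => by positivity) fun P _ => ?_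
        rw [add_comm]; exact Real.add_one_le_exp _
      have hsplit : T.powerset.filter (·.Nonempty) = T.powerset.erase ∅ := by
        ext D; simp [Finset.nonempty_iff_ne_empty, and_comm]
      have htot := Finset.add_sum_erase T.powerset
        (fun D => ∏ P ∈ D, (P : ℝ) ^ (-(7 : ℝ) / 8)) (Finset.empty_mem_powerset T)
      rw [Finset.prod_empty] at htot
      rw [hsplit]
      have hexp : Real.exp a ≤ 1 + 2 * a := by
        have hahalf : a ≤ 1 / 2 := by nlinarith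
        have h1 := Real.add_one_le_exp (-a)
        rw [Real.exp_neg] at h1
        have h2 : Real.exp a * (-a + 1) ≤ 1 := by
          calc _ ≤ Real.exp a * (Real.exp a)⁻¹ := mul_le_mul_of_nonneg_left h1 (Real.exp_pos a).le
            _ = 1 := mul_inv_cancel₀ (Real.exp_pos a).ne'
        nlinarith [Real.exp_pos a]
      linarith
    have hlog : 1 + Real.log x ≤ 2 * (L : ℝ) := by
      have hx0 : (0 : ℝ) < x := by
        have : 0 < x := lt_of_lt_of_le (by positivity) hx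
        exact_mod_cast this
      have h := (Nat.lt_pow_succ_log_self one_lt_two x).le
      have h' : Real.log x ≤ ((L : ℝ) + 1) * Real.log 2 := by
        rw [show ((L : ℝ) + 1) = ((L + 1 : ℕ) : ℝ) by push_cast; ring, ← Real.log_pow]
        exact Real.log_le_log hx0 (by exact_mod_cast h)
      have := Real.log_two_lt_d9
      nlinarith
    calc (1 + Real.log x) * _ ≤ 2 * (L : ℝ) * (2 * a) :=
          mul_le_mul hlog hne (Finset.sum_nonneg fun D _ => Finset.prod_nonneg fun P _ =>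
            Real.rpow_nonneg (Nat.cast_nonneg P) _) (by positivity)
      _ = a * (4 * (L : ℝ)) := by ring
      _ ≤ 1 := hae
  calc ∑ q ∈ s, wt q ≤ ∑ q ∈ s₁ ∪ s₂ ∪ s₃, wt q :=
        Finset.sum_le_sum_of_subset_of_nonneg hcover fun q _ _ => wt_nonneg q
    _ ≤ ∑ q ∈ s₁ ∪ s₂, wt q + ∑ q ∈ s₃, wt q := by
        rw [← Finset.sum_union_inter]
        exact le_add_of_nonneg_right (Finset.sum_nonneg fun q _ => wt_nonneg q)
    _ ≤ ∑ q ∈ s₁, wt q + ∑ q ∈ s₂, wt q + ∑ q ∈ s₃, wt q := by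
        refine add_le_add ?_ le_rfl
        rw [← Finset.sum_union_inter]
        exact le_add_of_nonneg_right (Finset.sum_nonneg fun q _ => wt_nonneg q)
    _ ≤ 3 := by linarith

end Vale.Agent.P033
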